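import Mathlib

/-!
Definitions for the periodic hard sphere Boltzmann equation: the collision operator, test functions
on `[0,∞) × 𝕋³ × ℝ³`, the relative entropy, the entropy production and renormalized entropy
solutions, as in the problem file.
-/

noncomputable section

open MeasureTheory Set
open scoped ENNReal ContDiff

namespace Vale.Agent.P140

/-- Velocity space. -/
abbrev V : Type := EuclideanSpace ℝ (Fin 3)

/-- The torus, with its Haar probability measure. -/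
abbrev X : Type := Fin 3 → UnitAddCircle

/-- Unit sphere in velocity space. -/
abbrev S2 : Type := Metric.sphere (0 : V) 1

/-- Surface measure on the unit sphere (total mass `4π`). -/
def sig : Measure S2 := (volume : Measure V).toSphere

/-- The projection `ℝ³ → 𝕋³`. -/
def proj (y : V) : X := fun i => ((y i : ℝ) : UnitAddCircle)

/-- Free streaming `(x,v) ↦ (x + t v, v)`. -/
def shift (t : ℝ) (z : X × V) : X × V := (z.1 + proj (t • z.2), z.2)

/-- `a = (v - v_*) · ω`. -/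
def rel (v w : V) (o : S2) : ℝ := inner ℝ (v - w) (o : V)

/-- `v' = v - aω`. -/
def vpost (v w : V) (o : S2) : V := v - rel v w o • (o : V)

/-- `v_*' = v_* + aω`. -/
def wpost (v w : V) (o : S2) : V := w + rel v w o • (o : V)

/-- `Q⁺(v)`, the gain term, valued in `[0,∞]`. -/
def gain (f : V → ℝ) (v : V) : ℝ≥0∞ :=
  ∫⁻ p : V × S2, ENNReal.ofReal
    (|rel v p.1 p.2| * (f (vpost v p.1 p.2) * f (wpost v p.1 p.2))) ∂((volume : Measure V).prod sig)

/-- `Q⁻(v)`, the loss term, valued in `[0,∞]`. -/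
def loss (f : V → ℝ) (v : V) : ℝ≥0∞ :=
  ∫⁻ p : V × S2, ENNReal.ofReal (|rel v p.1 p.2| * (f v * f p.1)) ∂((volume : Measure V).prod sig)

/-- `Q⁺` at the phase point `z = (x,v)` of a function on phase space. -/
def gainAt (F : X × V → ℝ) (z : X × V) : ℝ≥0∞ := gain (fun u => F (z.1, u)) z.2

/-- `Q⁻` at the phase point `z = (x,v)` of a function on phase space. -/
def lossAt (F : X × V → ℝ) (z : X × V) : ℝ≥0∞ := loss (fun u => F (z.1, u)) z.2

/-- `Q = Q⁺ - Q⁻`. -/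
def collAt (F : X × V → ℝ) (z : X × V) : ℝ := (gainAt F z).toReal - (lossAt F z).toReal

/-- The standard Maxwellian `M`. -/
def maxw (v : V) : ℝ := (2 * Real.pi) ^ (-(3 / 2 : ℝ)) * Real.exp (-‖v‖ ^ 2 / 2)

/-- Test functions on `[0,∞) × 𝕋³ × ℝ³`: smooth with compact support. -/
def IsTest (φ : ℝ → X × V → ℝ) : Prop :=
  ContDiff ℝ ∞ (fun p : ℝ × V × V => φ p.1 (proj p.2.1, p.2.2)) ∧
    ∃ R : ℝ, ∀ t z, (R ≤ t ∨ R ≤ ‖z.2‖) → φ t z = 0

/-- Test functions on `[0,∞) × 𝕋³`: smooth with compact support. -/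
def IsTestTX (φ : ℝ → X → ℝ) : Prop :=
  ContDiff ℝ ∞ (fun p : ℝ × V => φ p.1 (proj p.2)) ∧ ∃ R : ℝ, ∀ t x, R ≤ t → φ t x = 0

/-- `(∂_t + v · ∇_x) φ` at `(t,z)`, as the derivative along the free streaming line. -/
def transport (φ : ℝ → X × V → ℝ) (t : ℝ) (z : X × V) : ℝ :=
  deriv (fun s : ℝ => φ (t + s) (shift s z)) 0

/-- A renormalization: `β ∈ C¹([0,∞))`, `β 0 = 0`, `|β' z| ≤ C / (1+z)`; `β'` is its derivative. -/
def IsRenorm (β β' : ℝ → ℝ) : Prop :=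
  β 0 = 0 ∧ ContinuousOn β' (Ici 0) ∧
    (∀ z, 0 ≤ z → HasDerivWithinAt β (β' z) (Ici 0) z) ∧
    ∃ C : ℝ, ∀ z, 0 ≤ z → |β' z| ≤ C / (1 + z)

/-- Relative entropy `∫ (F log (F/M) - F + M)`. -/
def relEntropy (F : X × V → ℝ) : ℝ≥0∞ :=
  ∫⁻ z, ENNReal.ofReal (F z * Real.log (F z / maxw z.2) - F z + maxw z.2)

/-- The lower semicontinuous extended value of `(p - q) log (p/q)` for `p, q ≥ 0`. -/
def prodFun (p q : ℝ) : ℝ≥0∞ :=
  if p = 0 ∧ q = 0 then 0
  else if p = 0 ∨ q = 0 then ⊤ else ENNReal.ofReal ((p - q) * Real.log (p / q))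

/-- The entropy production `𝒟`. -/
def entropyProd (F : X × V → ℝ) : ℝ≥0∞ :=
  (1 / 4) * ∫⁻ z : X × V, ∫⁻ p : V × S2,
    ENNReal.ofReal |rel z.2 p.1 p.2| *
      prodFun (F (z.1, vpost z.2 p.1 p.2) * F (z.1, wpost z.2 p.1 p.2))
        (F z * F (z.1, p.1)) ∂((volume : Measure V).prod sig)

/-- `C_w([0,∞); L¹)`, tested against bounded measurable functions. -/
def WeakCont (F : ℝ → X × V → ℝ) : Prop :=
  ∀ φ : X × V → ℝ, Measurable φ → (∃ C : ℝ, ∀ z, |φ z| ≤ C) →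
    ContinuousOn (fun t => ∫ z, φ z * F t z) (Ici 0)

/-- Bound on mass, energy and `F |log F|` on every bounded time interval. -/
def MomentBound (F : ℝ → X × V → ℝ) : Prop :=
  ∀ T : ℝ, ∃ C : ℝ, ∀ t ∈ Icc 0 T,
    ∫⁻ z, ENNReal.ofReal (F t z * (1 + ‖z.2‖ ^ 2 + |Real.log (F t z)|)) ≤ ENNReal.ofReal C

/-- `A / (1 + F/M) ∈ L¹([0,T] × Ω)` for every `T`, for `A = Q⁺` or `A = Q⁻`. -/
def CollBound (A : (X × V → ℝ) → X × V → ℝ≥0∞) (F : ℝ → X × V → ℝ) : Prop :=
  ∀ T : ℝ, ∫⁻ t in Icc 0 T, ∫⁻ z,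
    A (F t) z / ENNReal.ofReal (1 + F t z / maxw z.2) < ⊤

/-- The renormalized equation in distributions, with initial value. -/
def RenormEq (F₀ : X × V → ℝ) (F : ℝ → X × V → ℝ) : Prop :=
  ∀ β β' : ℝ → ℝ, IsRenorm β β' → ∀ φ, IsTest φ →
    (∫ t in Ioi (0 : ℝ), ∫ z, (maxw z.2 * β (F t z / maxw z.2) * transport φ t z
      + β' (F t z / maxw z.2) * collAt (F t) z * φ t z))
      + ∫ z, φ 0 z * (maxw z.2 * β (F₀ z / maxw z.2)) = 0

/-- The balance `B₁` of mass. -/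
def MassBalance (F₀ : X × V → ℝ) (F : ℝ → X × V → ℝ) : Prop :=
  ∀ φ, IsTestTX φ →
    (∫ t in Ioi (0 : ℝ), ∫ z, transport (fun t z => φ t z.1) t z * F t z)
      + ∫ z, φ 0 z.1 * F₀ z = 0

/-- Momentum is conserved. -/
def MomentumConserved (F₀ : X × V → ℝ) (F : ℝ → X × V → ℝ) : Prop :=
  ∀ t, 0 ≤ t → ∀ i : Fin 3, ∫ z, z.2 i * F t z = ∫ z, z.2 i * F₀ z

/-- Energy does not exceed its initial value. -/
def EnergyBound (F₀ : X × V → ℝ) (F : ℝ → X × V → ℝ) : Prop :=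
  ∀ t, 0 ≤ t → ∫ z, ‖z.2‖ ^ 2 * F t z ≤ ∫ z, ‖z.2‖ ^ 2 * F₀ z

/-- The entropy inequality. -/
def EntropyBound (F₀ : X × V → ℝ) (F : ℝ → X × V → ℝ) : Prop :=
  ∀ t, 0 ≤ t → relEntropy (F t) + ∫⁻ s in Ioc 0 t, entropyProd (F s) ≤ relEntropy F₀

/-- A renormalized entropy solution with datum `F₀`, given by a jointly measurable nonnegative
representative `F t z`, `z = (x,v)`. -/
structure IsSolution (F₀ : X × V → ℝ) (F : ℝ → X × V → ℝ) : Prop where
  measurable : Measurable (Function.uncurry F)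
  nonneg : ∀ t z, 0 ≤ F t z
  integrable : ∀ t, 0 ≤ t → Integrable (F t)
  weak_continuous : WeakCont F
  initial : F 0 =ᵐ[volume] F₀
  moments : MomentBound F
  gain_integrable : CollBound gainAt F
  loss_integrable : CollBound lossAt F
  renormalized : RenormEq F₀ F
  mass_balance : MassBalance F₀ F
  momentum : MomentumConserved F₀ F
  energy : EnergyBound F₀ F
  entropy : EntropyBound F₀ F

end Vale.Agent.P140
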