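import Mathlib
import Vale.Agent.P140.Defs

/-! Elementary properties of the hard sphere collision integrals. -/

noncomputable section

open MeasureTheory Set
open scoped ENNReal

namespace Vale.Agent.P140

instance : IsFiniteMeasure sig := by unfold sig; infer_instance

lemma continuous_rel : Continuous fun q : V × V × S2 => rel q.1 q.2.1 q.2.2 := by
  unfold rel; fun_prop

lemma continuous_vpost : Continuous fun q : V × V × S2 => vpost q.1 q.2.1 q.2.2 := by
  unfold vpost rel; fun_prop

lemma continuous_wpost : Continuous fun q : V × V × S2 => wpost q.1 q.2.1 q.2.2 := by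
  unfold wpost rel; fun_prop

lemma norm_sphere (o : S2) : ‖(o : V)‖ = 1 := by
  have := o.2
  simpa [Metric.mem_sphere, dist_zero_right] using this

lemma inner_sphere (o : S2) : inner ℝ (o : V) (o : V) = (1 : ℝ) := by
  rw [real_inner_self_eq_norm_sq, norm_sphere, one_pow]

lemma norm_sq_post (v w : V) (o : S2) :
    ‖vpost v w o‖ ^ 2 + ‖wpost v w o‖ ^ 2 = ‖v‖ ^ 2 + ‖w‖ ^ 2 := by
  simp only [vpost, wpost, norm_sub_sq_real, norm_add_sq_real, norm_smul, norm_sphere,
    real_inner_smul_right, rel, inner_sub_left, Real.norm_eq_abs, mul_one, sq_abs]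
  ring

lemma rel_swap (v w : V) (o : S2) : rel w v o = - rel v w o := by
  simp [rel, inner_sub_left]

lemma rel_post (v w : V) (o : S2) : rel (vpost v w o) (wpost v w o) o = - rel v w o := by
  simp only [rel, vpost, wpost, inner_sub_left, inner_add_left, real_inner_smul_left, inner_sphere]
  ring

lemma vpost_post (v w : V) (o : S2) : vpost (vpost v w o) (wpost v w o) o = v := by
  rw [vpost, rel_post, vpost, neg_smul, sub_neg_eq_add, sub_add_cancel]

lemma wpost_post (v w : V) (o : S2) : wpost (vpost v w o) (wpost v w o) o = w := by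
  rw [wpost, rel_post, wpost, neg_smul, add_neg_cancel_right]

lemma vpost_swap (v w : V) (o : S2) : vpost w v o = wpost v w o := by
  simp [vpost, wpost, rel_swap v w o]

lemma wpost_swap (v w : V) (o : S2) : wpost w v o = vpost v w o := by
  simp [vpost, wpost, rel_swap v w o, sub_eq_add_neg]

lemma abs_rel_le_add (v w : V) (o : S2) : |rel v w o| ≤ ‖v‖ + ‖w‖ := by
  have := abs_real_inner_le_norm (v - w) (o : V)
  rw [norm_sphere, mul_one] at this
  exact this.trans (norm_sub_le v w)

lemma abs_rel_le (v w : V) (o : S2) : |rel v w o| ≤ (1 + ‖v‖) * (1 + ‖w‖) := by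
  nlinarith [abs_rel_le_add v w o, norm_nonneg v, norm_nonneg w]

/-- The collision map as a linear endomorphism of `V × V`, for a fixed direction. -/
def postMap (o : S2) : V × V →ₗ[ℝ] V × V where
  toFun p := (vpost p.1 p.2 o, wpost p.1 p.2 o)
  map_add' p q := by
    simp only [vpost, wpost, rel, Prod.fst_add, Prod.snd_add, inner_sub_left, inner_add_left]
    ext1 <;> dsimp <;> module
  map_smul' c p := by
    simp only [vpost, wpost, rel, Prod.smul_fst, Prod.smul_snd, inner_sub_left,
      real_inner_smul_left, RingHom.id_apply]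
    ext1 <;> dsimp <;> module

lemma measurePreserving_postMap (o : S2) :
    MeasurePreserving (postMap o) ((volume : Measure V).prod volume)
      ((volume : Measure V).prod volume) := by
  have h2 : postMap o * postMap o = 1 := by
    refine LinearMap.ext fun p => ?_
    exact Prod.ext (vpost_post p.1 p.2 o) (wpost_post p.1 p.2 o)
  have hd : LinearMap.det (postMap o) * LinearMap.det (postMap o) = 1 := by
    rw [← map_mul, h2, map_one]
  have hne : LinearMap.det (postMap o) ≠ 0 := left_ne_zero_of_mul_eq_one hd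
  refine ⟨(LinearMap.continuous_of_finiteDimensional _).measurable, ?_⟩
  rw [Measure.map_linearMap_addHaar_eq_smul_addHaar _ hne]
  have : |(LinearMap.det (postMap o))⁻¹| = 1 := by
    rw [abs_inv, inv_eq_one]
    rcases mul_self_eq_one_iff.1 hd with h | h <;> simp [h]
  simp [this]

/-- Invariance of `dv dv_* dω` under the collision map. -/
lemma lintegral_post {Φ : V → V → S2 → ℝ≥0∞}
    (hΦ : Measurable fun q : V × V × S2 => Φ q.1 q.2.1 q.2.2) :
    ∫⁻ v : V, ∫⁻ p, Φ (vpost v p.1 p.2) (wpost v p.1 p.2) p.2 ∂((volume : Measure V).prod sig)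
      = ∫⁻ v : V, ∫⁻ p, Φ v p.1 p.2 ∂((volume : Measure V).prod sig) := by
  have hcomp : Measurable fun q : V × V × S2 =>
      Φ (vpost q.1 q.2.1 q.2.2) (wpost q.1 q.2.1 q.2.2) q.2.2 :=
    hΦ.comp (continuous_vpost.measurable.prodMk
      (continuous_wpost.measurable.prodMk (measurable_snd.comp measurable_snd)))
  have key : ∀ G : V → V → S2 → ℝ≥0∞, (Measurable fun q : V × V × S2 => G q.1 q.2.1 q.2.2) →
      ∫⁻ v : V, ∫⁻ p, G v p.1 p.2 ∂((volume : Measure V).prod sig)
        = ∫⁻ o, ∫⁻ q : V × V, G q.1 q.2 o ∂((volume : Measure V).prod volume) ∂sig := by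
    intro G hG
    have h1 : ∀ v : V, ∫⁻ p, G v p.1 p.2 ∂((volume : Measure V).prod sig)
        = ∫⁻ o, ∫⁻ w : V, G v w o ∂volume ∂sig := fun v =>
      lintegral_prod_symm _ (hG.comp (by fun_prop : Measurable fun p : V × S2 => (v, p))).aemeasurable
    simp_rw [h1]
    rw [lintegral_lintegral_swap]
    · refine lintegral_congr fun o => ?_
      exact (lintegral_prod _ (hG.comp
        (by fun_prop : Measurable fun q : V × V => (q.1, (q.2, o)))).aemeasurable).symm
    · exact ((hG.comp (by fun_prop : Measurable fun q : (V × S2) × V => (q.1.1, (q.2, q.1.2))))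
        |>.lintegral_prod_right').aemeasurable
  rw [key (fun v w o => Φ (vpost v w o) (wpost v w o) o) hcomp, key _ hΦ]
  refine lintegral_congr fun o => ?_
  exact (measurePreserving_postMap o).lintegral_comp (f := fun q : V × V => Φ q.1 q.2 o)
    (hΦ.comp (by fun_prop : Measurable fun q : V × V => (q.1, (q.2, o))))

/-- Invariance of `dv dv_* dω` under exchanging the two velocities. -/
lemma lintegral_swapV {Φ : V → V → S2 → ℝ≥0∞}
    (hΦ : Measurable fun q : V × V × S2 => Φ q.1 q.2.1 q.2.2) :
    ∫⁻ v : V, ∫⁻ p, Φ p.1 v p.2 ∂((volume : Measure V).prod sig)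
      = ∫⁻ v : V, ∫⁻ p, Φ v p.1 p.2 ∂((volume : Measure V).prod sig) := by
  have hc : Measurable fun q : V × V × S2 => Φ q.2.1 q.1 q.2.2 :=
    hΦ.comp (by fun_prop : Measurable fun q : V × V × S2 => (q.2.1, (q.1, q.2.2)))
  have e : ∀ G : V → V → S2 → ℝ≥0∞, (Measurable fun q : V × V × S2 => G q.1 q.2.1 q.2.2) → ∀ v,
      ∫⁻ p, G v p.1 p.2 ∂((volume : Measure V).prod sig) = ∫⁻ w, ∫⁻ o, G v w o ∂sig ∂volume :=
    fun G hG v => lintegral_prod _
      (hG.comp (by fun_prop : Measurable fun p : V × S2 => (v, p))).aemeasurable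
  simp only [e Φ hΦ, e (fun v w o => Φ w v o) hc]
  rw [lintegral_lintegral_swap]
  exact ((hΦ.comp (by fun_prop : Measurable fun q : (V × V) × S2 => (q.1.2, (q.1.1, q.2))))
    |>.lintegral_prod_right').aemeasurable

/-- Bilinear gain. -/
def gain2 (f g : V → ℝ) (v : V) : ℝ≥0∞ :=
  ∫⁻ p : V × S2, ENNReal.ofReal
    (|rel v p.1 p.2| * (f (vpost v p.1 p.2) * g (wpost v p.1 p.2))) ∂((volume : Measure V).prod sig)

/-- Bilinear loss. -/
def loss2 (f g : V → ℝ) (v : V) : ℝ≥0∞ :=
  ∫⁻ p : V × S2, ENNReal.ofReal (|rel v p.1 p.2| * (f v * g p.1)) ∂((volume : Measure V).prod sig)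

lemma gain_eq (f : V → ℝ) : gain f = gain2 f f := rfl

lemma loss_eq (f : V → ℝ) : loss f = loss2 f f := rfl

lemma measurable_bilin_integrand {f g : V → ℝ} (hf : Measurable f) (hg : Measurable g) :
    Measurable fun q : V × V × S2 =>
      ENNReal.ofReal (|rel q.1 q.2.1 q.2.2| * (f q.1 * g q.2.1)) :=
  ((continuous_abs.measurable.comp continuous_rel.measurable).mul
    ((hf.comp measurable_fst).mul (hg.comp (measurable_fst.comp measurable_snd)))).ennreal_ofReal

lemma measurable_gain2 {α : Type*} [MeasurableSpace α] {f g : α → V → ℝ}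
    (hf : Measurable (Function.uncurry f)) (hg : Measurable (Function.uncurry g)) :
    Measurable fun p : α × V => gain2 (f p.1) (g p.1) p.2 := by
  have hv : Measurable fun q : (α × V) × V × S2 => (q.1.2, q.2) := by fun_prop
  exact ((((continuous_abs.measurable.comp continuous_rel.measurable).comp hv).mul
    ((hf.comp ((measurable_fst.comp measurable_fst).prodMk
        (continuous_vpost.measurable.comp hv))).mul
      (hg.comp ((measurable_fst.comp measurable_fst).prodMk
        (continuous_wpost.measurable.comp hv))))).ennreal_ofReal).lintegral_prod_right'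

lemma measurable_loss2 {α : Type*} [MeasurableSpace α] {f g : α → V → ℝ}
    (hf : Measurable (Function.uncurry f)) (hg : Measurable (Function.uncurry g)) :
    Measurable fun p : α × V => loss2 (f p.1) (g p.1) p.2 := by
  have hv : Measurable fun q : (α × V) × V × S2 => (q.1.2, q.2) := by fun_prop
  exact ((((continuous_abs.measurable.comp continuous_rel.measurable).comp hv).mul
    ((hf.comp measurable_fst).mul
      (hg.comp ((measurable_fst.comp measurable_fst).prodMk
        (measurable_fst.comp measurable_snd))))).ennreal_ofReal).lintegral_prod_right'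

lemma lintegral_gain2 {f g : V → ℝ} (hf : Measurable f) (hg : Measurable g) :
    ∫⁻ v, gain2 f g v = ∫⁻ v, loss2 f g v := by
  have h := lintegral_post (Φ := fun a b o => ENNReal.ofReal (|rel a b o| * (f a * g b)))
    (measurable_bilin_integrand hf hg)
  simp only [rel_post, abs_neg] at h
  exact h

/-- A collision invariant has the same gain and loss moments. -/
lemma lintegral_invariant_gain {f : V → ℝ} (hf : Measurable f) {φ : V → ℝ≥0∞} (hφ : Measurable φ)
    (hinv : ∀ v w o, φ (vpost v w o) + φ (wpost v w o) = φ v + φ w) :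
    ∫⁻ v, φ v * gain f v = ∫⁻ v, φ v * loss f v := by
  set b : V → V → S2 → ℝ≥0∞ := fun v w o => ENNReal.ofReal (|rel v w o| * (f v * f w)) with hb
  have hbm : Measurable fun q : V × V × S2 => b q.1 q.2.1 q.2.2 := measurable_bilin_integrand hf hf
  have hbs : ∀ v w o, b w v o = b v w o := fun v w o => by
    simp only [hb, rel_swap v w o, abs_neg, mul_comm (f w) (f v)]
  have hbp : ∀ v w o, b (vpost v w o) (wpost v w o) o
      = ENNReal.ofReal (|rel v w o| * (f (vpost v w o) * f (wpost v w o))) := fun v w o => by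
    simp only [hb, rel_post, abs_neg]
  let I : (V → V → S2 → ℝ≥0∞) → ℝ≥0∞ := fun G =>
    ∫⁻ v : V, ∫⁻ p, G v p.1 p.2 ∂((volume : Measure V).prod sig)
  have hL : ∫⁻ v, φ v * loss f v = I (fun v w o => φ v * b v w o) := by
    refine lintegral_congr fun v => ?_
    exact (lintegral_const_mul _ (hbm.comp (by fun_prop : Measurable fun p : V × S2 => (v, p)))).symm
  have hG : ∫⁻ v, φ v * gain f v = I (fun v w o => φ (vpost v w o) * b v w o) := by
    have h1 : ∫⁻ v, φ v * gain f v = I (fun v w o => φ v * b (vpost v w o) (wpost v w o) o) := by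
      refine lintegral_congr fun v => ?_
      simp only [hbp]
      refine (lintegral_const_mul _ ?_).symm
      have h2 := hbm.comp ((continuous_vpost.measurable.comp
        (by fun_prop : Measurable fun p : V × S2 => (v, p))).prodMk
        ((continuous_wpost.measurable.comp
        (by fun_prop : Measurable fun p : V × S2 => (v, p))).prodMk measurable_snd))
      simpa only [Function.comp_def, hbp] using h2
    rw [h1]
    have h3 := lintegral_post (Φ := fun v w o => φ (vpost v w o) * b v w o)
      ((hφ.comp continuous_vpost.measurable).mul hbm)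
    simp only [vpost_post] at h3
    exact h3
  have m1 : Measurable fun q : V × V × S2 => φ q.1 * b q.1 q.2.1 q.2.2 :=
    (hφ.comp measurable_fst).mul hbm
  have m2 : Measurable fun q : V × V × S2 => φ (vpost q.1 q.2.1 q.2.2) * b q.1 q.2.1 q.2.2 :=
    (hφ.comp continuous_vpost.measurable).mul hbm
  have hGw : I (fun v w o => φ (vpost v w o) * b v w o)
      = I (fun v w o => φ (wpost v w o) * b v w o) := by
    have h := lintegral_swapV (Φ := fun v w o => φ (vpost v w o) * b v w o) m2
    simp only [fun (v : V) (p : V × S2) => vpost_swap v p.1 p.2,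
      fun (v : V) (p : V × S2) => hbs v p.1 p.2] at h
    exact h.symm
  have hLw : I (fun v w o => φ v * b v w o) = I (fun v w o => φ w * b v w o) := by
    have h := lintegral_swapV (Φ := fun v w o => φ v * b v w o) m1
    simp only [fun (v : V) (p : V × S2) => hbs v p.1 p.2] at h
    exact h.symm
  have add : ∀ G H : V → V → S2 → ℝ≥0∞, (Measurable fun q : V × V × S2 => G q.1 q.2.1 q.2.2) →
      I G + I H = I (fun v w o => G v w o + H v w o) := by
    intro G H hG
    simp only [I]
    rw [← lintegral_add_left]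
    · refine lintegral_congr fun v => (lintegral_add_left ?_ _).symm
      exact hG.comp (by fun_prop : Measurable fun p : V × S2 => (v, p))
    · exact hG.lintegral_prod_right'
  have tot : I (fun v w o => φ (vpost v w o) * b v w o)
      + I (fun v w o => φ (wpost v w o) * b v w o)
      = I (fun v w o => φ v * b v w o) + I (fun v w o => φ w * b v w o) := by
    rw [add (fun v w o => φ (vpost v w o) * b v w o) (fun v w o => φ (wpost v w o) * b v w o) m2,
      add (fun v w o => φ v * b v w o) (fun v w o => φ w * b v w o) m1]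
    simp only [← add_mul, hinv]
  rw [← hGw, ← hLw, ← two_mul, ← two_mul, ← hG, ← hL] at tot
  exact (ENNReal.mul_right_inj (by simp) (by simp)).1 tot

/-- The velocity moment `∫ f (1+|v|)`. -/
def mom1 (f : V → ℝ) : ℝ≥0∞ := ∫⁻ w, ENNReal.ofReal (f w * (1 + ‖w‖))

lemma loss2_le {f g : V → ℝ} (hf : ∀ v, 0 ≤ f v) (hg : Measurable g) (hg0 : ∀ v, 0 ≤ g v) (v : V) :
    loss2 f g v ≤ ENNReal.ofReal (f v * (1 + ‖v‖)) * mom1 g * sig univ := by
  have hm : Measurable fun w : V => ENNReal.ofReal (g w * (1 + ‖w‖)) := by fun_prop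
  have e : ∫⁻ p : V × S2, ENNReal.ofReal (f v * (1 + ‖v‖)) *
      ENNReal.ofReal (g p.1 * (1 + ‖p.1‖)) ∂((volume : Measure V).prod sig)
      = ENNReal.ofReal (f v * (1 + ‖v‖)) * mom1 g * sig univ := by
    rw [lintegral_prod (fun p : V × S2 => ENNReal.ofReal (f v * (1 + ‖v‖)) *
      ENNReal.ofReal (g p.1 * (1 + ‖p.1‖))) ((hm.comp measurable_fst).const_mul _).aemeasurable]
    simp only [lintegral_const]
    rw [lintegral_mul_const _ (hm.const_mul _), lintegral_const_mul _ hm, mom1]
  rw [← e]
  refine lintegral_mono fun p => ?_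
  have hv : 0 ≤ f v * (1 + ‖v‖) := mul_nonneg (hf v) (by positivity)
  rw [← ENNReal.ofReal_mul hv]
  refine ENNReal.ofReal_le_ofReal ?_
  nlinarith [mul_le_mul_of_nonneg_right (abs_rel_le v p.1 p.2) (mul_nonneg (hf v) (hg0 p.1))]

lemma lintegral_loss2_le {f g : V → ℝ} (hf : Measurable f) (hf0 : ∀ v, 0 ≤ f v) (hg : Measurable g)
    (hg0 : ∀ v, 0 ≤ g v) : ∫⁻ v, loss2 f g v ≤ mom1 f * mom1 g * sig univ := by
  refine (lintegral_mono fun v => loss2_le hf0 hg hg0 v).trans_eq ?_
  have hm : Measurable fun w : V => ENNReal.ofReal (f w * (1 + ‖w‖)) := by fun_prop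
  rw [lintegral_mul_const _ (hm.mul_const _), lintegral_mul_const _ hm, mom1, mom1]

lemma gain_diff {f g : V → ℝ} (hfm : Measurable f) (hgm : Measurable g) (hf : ∀ v, 0 ≤ f v)
    (hg : ∀ v, 0 ≤ g v) (v : V) :
    gain f v ≤ gain g v + gain2 (fun u => max (f u - g u) 0) g v
      + gain2 f (fun u => |f u - g u|) v := by
  have meas : ∀ {a b : V → ℝ}, Measurable a → Measurable b → Measurable fun p : V × S2 =>
      ENNReal.ofReal (|rel v p.1 p.2| * (a (vpost v p.1 p.2) * b (wpost v p.1 p.2))) := by
    intro a b ha hb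
    have hv : Measurable fun p : V × S2 => (v, p) := by fun_prop
    exact (((continuous_abs.measurable.comp continuous_rel.measurable).comp hv).mul
      ((ha.comp (continuous_vpost.measurable.comp hv)).mul
        (hb.comp (continuous_wpost.measurable.comp hv)))).ennreal_ofReal
  have hkm : Measurable fun u => max (f u - g u) 0 := (hfm.sub hgm).max measurable_const
  simp only [gain, gain2]
  rw [← lintegral_add_left (meas hgm hgm), ← lintegral_add_left]
  · refine lintegral_mono fun p => ?_
    rw [← ENNReal.ofReal_add, ← ENNReal.ofReal_add, ← mul_add, ← mul_add]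
    · refine ENNReal.ofReal_le_ofReal (mul_le_mul_of_nonneg_left ?_ (abs_nonneg _))
      set a := vpost v p.1 p.2
      set b := wpost v p.1 p.2
      nlinarith [mul_le_mul_of_nonneg_left (le_abs_self (f b - g b)) (hf a),
        mul_le_mul_of_nonneg_right (le_max_left (f a - g a) 0) (hg b)]
    all_goals
      first
      | exact mul_nonneg (abs_nonneg _) (mul_nonneg (hf _) (abs_nonneg _))
      | exact mul_nonneg (abs_nonneg _) (mul_nonneg (hg _) (hg _))
      | exact mul_nonneg (abs_nonneg _) (mul_nonneg (le_max_right _ _) (hg _))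
      | exact add_nonneg (mul_nonneg (abs_nonneg _) (mul_nonneg (hg _) (hg _)))
          (mul_nonneg (abs_nonneg _) (mul_nonneg (le_max_right _ _) (hg _)))
  · exact (meas hgm hgm).add (meas hkm hgm)

lemma loss_diff {f g : V → ℝ} (hfm : Measurable f) (hgm : Measurable g) (hf : ∀ v, 0 ≤ f v)
    (hg : ∀ v, 0 ≤ g v) (v : V) (h : g v ≤ f v) :
    loss g v + loss2 (fun u => max (f u - g u) 0) g v
      ≤ loss f v + loss2 f (fun u => |f u - g u|) v := by
  have meas : ∀ {a b : V → ℝ}, Measurable b → Measurable fun p : V × S2 =>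
      ENNReal.ofReal (|rel v p.1 p.2| * (a v * b p.1)) := by
    intro a b hb
    have hv : Measurable fun p : V × S2 => (v, p) := by fun_prop
    exact (((continuous_abs.measurable.comp continuous_rel.measurable).comp hv).mul
      ((hb.comp measurable_fst).const_mul _)).ennreal_ofReal
  simp only [loss, loss2]
  rw [← lintegral_add_left (meas hgm), ← lintegral_add_left (meas hfm)]
  refine lintegral_mono fun p => ?_
  rw [← ENNReal.ofReal_add (mul_nonneg (abs_nonneg _) (mul_nonneg (hg _) (hg _)))
      (mul_nonneg (abs_nonneg _) (mul_nonneg (le_max_right _ _) (hg _))),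
    ← ENNReal.ofReal_add (mul_nonneg (abs_nonneg _) (mul_nonneg (hf _) (hf _)))
      (mul_nonneg (abs_nonneg _) (mul_nonneg (hf _) (abs_nonneg _))),
    ← mul_add, ← mul_add]
  refine ENNReal.ofReal_le_ofReal (mul_le_mul_of_nonneg_left ?_ (abs_nonneg _))
  rw [max_eq_left (sub_nonneg.2 h)]
  nlinarith [mul_le_mul_of_nonneg_left (neg_abs_le (f p.1 - g p.1)) (hf v)]

lemma loss2_max_eq_zero {f g : V → ℝ} {h : V → ℝ} {v : V} (hv : f v ≤ g v) :
    loss2 (fun u => max (f u - g u) 0) h v = 0 := by
  simp [loss2, max_eq_right (sub_nonpos.2 hv)]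

lemma gain_maxwellian (ρ b : ℝ) (u v : V) :
    gain (fun w => ρ * Real.exp (-b * ‖w - u‖ ^ 2)) v
      = loss (fun w => ρ * Real.exp (-b * ‖w - u‖ ^ 2)) v := by
  refine lintegral_congr fun p => ?_
  have h := norm_sq_post (v - u) (p.1 - u) p.2
  have e : rel (v - u) (p.1 - u) p.2 = rel v p.1 p.2 := by simp [rel]
  have e1 : vpost (v - u) (p.1 - u) p.2 = vpost v p.1 p.2 - u := by simp [vpost, e]; abel
  have e2 : wpost (v - u) (p.1 - u) p.2 = wpost v p.1 p.2 - u := by simp [wpost, e]; abel
  rw [e1, e2] at h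
  simp only [mul_mul_mul_comm ρ, ← Real.exp_add, ← mul_add, h]

end Vale.Agent.P140
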