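import Mathlib

/-! One dimensional lemmas: primitives of integrable functions. -/

noncomputable section

open MeasureTheory Set Filter
open scoped ENNReal NNReal ContDiff Topology

namespace Vale.Agent.P140

lemma ac_comp_lipschitz {f g : ℝ → ℝ} {a b : ℝ} {K : ℝ≥0} {s : Set ℝ} (hg : LipschitzOnWith K g s)
    (hs : MapsTo f (uIcc a b) s) (hf : AbsolutelyContinuousOnInterval f a b) :
    AbsolutelyContinuousOnInterval (fun t => g (f t)) a b := by
  rw [absolutelyContinuousOnInterval_iff] at hf ⊢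
  intro ε hε
  obtain ⟨δ, δpos, hδ⟩ := hf (ε / ((K : ℝ) + 1)) (by positivity)
  refine ⟨δ, δpos, fun E hE hlen => ?_⟩
  have h := hδ E hE hlen
  rw [lt_div_iff₀ (by positivity)] at h
  have h0 : 0 ≤ ∑ i ∈ Finset.range E.1, dist (f (E.2 i).1) (f (E.2 i).2) :=
    Finset.sum_nonneg fun _ _ => dist_nonneg
  calc ∑ i ∈ Finset.range E.1, dist (g (f (E.2 i).1)) (g (f (E.2 i).2))
      ≤ ∑ i ∈ Finset.range E.1, (K : ℝ) * dist (f (E.2 i).1) (f (E.2 i).2) :=
        Finset.sum_le_sum fun i hi => hg.dist_le_mul _ (hs (hE.1 i hi).1) _ (hs (hE.1 i hi).2)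
    _ = K * ∑ i ∈ Finset.range E.1, dist (f (E.2 i).1) (f (E.2 i).2) := (Finset.mul_sum ..).symm
    _ < ε := by nlinarith

/-- A primitive is absolutely continuous and has the expected derivative a.e. -/
lemma primitive_facts {h : ℝ → ℝ} {c T : ℝ} (hT : 0 ≤ T) (hh : IntervalIntegrable h volume 0 T) :
    AbsolutelyContinuousOnInterval (fun t => c + ∫ s in (0 : ℝ)..t, h s) 0 T ∧
      ∀ᵐ t : ℝ, t ∈ Ioc 0 T → HasDerivAt (fun t => c + ∫ s in (0 : ℝ)..t, h s) (h t) t := by
  constructor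
  · have h1 := hh.absolutelyContinuousOnInterval_intervalIntegral (c := 0) left_mem_uIcc
    have h2 : AbsolutelyContinuousOnInterval (fun _ : ℝ => c) 0 T :=
      (LipschitzWith.const c).lipschitzOnWith.absolutelyContinuousOnInterval
    exact h2.fun_add h1
  · filter_upwards [hh.ae_hasDerivAt_integral] with t ht htI
    exact (ht (Icc_subset_uIcc (Ioc_subset_Icc_self htI)) 0 left_mem_uIcc).const_add c

/-- Chain rule for `exp` of a primitive. -/
lemma exp_primitive {h : ℝ → ℝ} {c T : ℝ} (hh : IntervalIntegrable h volume 0 T) :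
    ∀ t ∈ Icc 0 T, Real.exp (c + ∫ s in (0 : ℝ)..t, h s) =
      Real.exp c + ∫ s in (0 : ℝ)..t, Real.exp (c + ∫ u in (0 : ℝ)..s, h u) * h s := by
  intro t ht
  have hT : 0 ≤ T := ht.1.trans ht.2
  obtain ⟨hac, hder⟩ := primitive_facts (c := c) hT hh
  set W : ℝ → ℝ := fun t => c + ∫ s in (0 : ℝ)..t, h s
  have hsub : uIcc 0 t ⊆ uIcc 0 T := by rw [uIcc_of_le ht.1, uIcc_of_le hT]; exact Icc_subset_Icc_right ht.2
  obtain ⟨B, hB⟩ := (isCompact_uIcc.image_of_continuousOn hac.continuousOn).isBounded.subset_closedBall 0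
  obtain ⟨K, hK⟩ := (Real.contDiff_exp.contDiffOn (n := 1) (s := Metric.closedBall 0 B))
    |>.exists_lipschitzOnWith (by decide) (convex_closedBall _ _) (isCompact_closedBall _ _)
  have hE := (ac_comp_lipschitz hK (mapsTo_image W _ |>.mono_right hB) hac).mono hsub
  have hi := hE.integral_deriv_eq_sub
  have hW0 : W 0 = c := by simp [W]
  rw [hW0] at hi
  have hcongr : ∫ s in (0 : ℝ)..t, deriv (fun u => Real.exp (W u)) s
      = ∫ s in (0 : ℝ)..t, Real.exp (W s) * h s := by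
    refine intervalIntegral.integral_congr_ae ?_
    filter_upwards [hder] with s hs hmem
    rw [uIoc_of_le ht.1] at hmem
    exact (hs ⟨hmem.1, hmem.2.trans ht.2⟩).exp.deriv
  rw [hcongr] at hi
  change Real.exp (W t) = Real.exp c + ∫ s in (0 : ℝ)..t, Real.exp (W s) * h s
  linarith

/-- The positive part of a primitive vanishing at zero. -/
lemma posPart_primitive {h : ℝ → ℝ} {T : ℝ} (hh : IntervalIntegrable h volume 0 T) :
    ∀ t ∈ Icc 0 T, max (∫ s in (0 : ℝ)..t, h s) 0 =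
      ∫ s in (0 : ℝ)..t, if 0 < ∫ u in (0 : ℝ)..s, h u then h s else 0 := by
  intro t ht
  have hT : 0 ≤ T := ht.1.trans ht.2
  obtain ⟨hac, hder⟩ := primitive_facts (c := 0) hT hh
  simp only [zero_add] at hac hder
  set f : ℝ → ℝ := fun t => ∫ s in (0 : ℝ)..t, h s with hf
  have hsub : uIcc 0 t ⊆ uIcc 0 T := by rw [uIcc_of_le ht.1, uIcc_of_le hT]; exact Icc_subset_Icc_right ht.2
  have hm : AbsolutelyContinuousOnInterval (fun t => max (f t) 0) 0 t :=
    (ac_comp_lipschitz ((LipschitzWith.id (α := ℝ)).max_const 0).lipschitzOnWith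
      (mapsTo_univ _ _) hac).mono hsub
  have hi := hm.integral_deriv_eq_sub
  have h0 : max (f 0) 0 = 0 := by simp [hf]
  rw [h0, sub_zero] at hi
  change max (f t) 0 = ∫ s in (0 : ℝ)..t, if 0 < f s then h s else 0
  rw [← hi]
  refine intervalIntegral.integral_congr_ae ?_
  filter_upwards [hder, hm.ae_differentiableAt] with s hs hd hmem
  rw [uIoc_of_le ht.1] at hmem
  have hs' := hs ⟨hmem.1, hmem.2.trans ht.2⟩
  have hd' := hd (Icc_subset_uIcc (Ioc_subset_Icc_self hmem))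
  by_cases hp : 0 < f s
  · rw [if_pos hp]
    have e : (fun t => max (f t) 0) =ᶠ[𝓝 s] f := by
      filter_upwards [hs'.continuousAt.eventually (lt_mem_nhds hp)] with u hu using max_eq_left hu.le
    rw [e.deriv_eq, hs'.deriv]
  · rw [if_neg hp]
    refine IsLocalMin.deriv_eq_zero (Eventually.of_forall fun u => ?_)
    change max (f s) 0 ≤ max (f u) 0
    rw [max_eq_right (le_of_not_gt hp)]
    exact le_max_right _ _

/-- A weak formulation of `m' = g`, `m(0) = m₀` gives `m = m₀ + ∫ g` almost everywhere. -/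
lemma weak_ode {m g : ℝ → ℝ} {m₀ : ℝ}
    (hm : ∀ T, IntegrableOn m (Ioc 0 T)) (hg : ∀ T, IntegrableOn g (Ioc 0 T))
    (h : ∀ θ Θ : ℝ → ℝ, ContDiff ℝ ∞ Θ → (∃ R, ∀ t, R ≤ t → Θ t = 0) →
      (∀ t, HasDerivAt Θ (θ t) t) →
      (∫ t in Ioi (0 : ℝ), (θ t * m t + Θ t * g t)) + Θ 0 * m₀ = 0) :
    ∀ᵐ t : ℝ, 0 < t → m t = m₀ + ∫ s in (0 : ℝ)..t, g s := by
  have hgi : ∀ T, 0 ≤ T → IntervalIntegrable g volume 0 T := fun T hT =>
    (intervalIntegrable_iff_integrableOn_Ioc_of_le hT).2 (hg T)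
  set G : ℝ → ℝ := fun t => m₀ + ∫ s in (0 : ℝ)..t, g s with hG
  have hGcont : ∀ T, 0 ≤ T → ContinuousOn G (Icc 0 T) := fun T hT =>
    (primitive_facts (c := m₀) hT (hgi T hT)).1.continuousOn.mono Icc_subset_uIcc
  have hloc : LocallyIntegrableOn (fun t => m t - G t) (Ioi 0) := by
    refine (locallyIntegrableOn_iff isOpen_Ioi.isLocallyClosed).2 fun K hK hKc => ?_
    obtain ⟨T, hT⟩ := hKc.bddAbove
    have hsub : K ⊆ Ioc 0 (max T 0) := fun t ht => ⟨hK ht, (hT ht).trans (le_max_left _ _)⟩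
    refine IntegrableOn.mono_set ?_ hsub
    exact (hm _).sub (((hGcont _ (le_max_right _ _)).integrableOn_Icc).mono_set Ioc_subset_Icc_self)
  have key := IsOpen.ae_eq_zero_of_integral_contDiff_smul_eq_zero isOpen_Ioi hloc ?_
  · filter_upwards [key] with t ht hpos
    exact sub_eq_zero.1 (ht hpos)
  intro θ hθ hc hU
  obtain ⟨b, hb⟩ := hc.isCompact.bddAbove
  set B := max b 0 + 1 with hB
  have hBpos : 0 ≤ B := by positivity
  have hθB : ∀ t, B ≤ t → θ t = 0 := fun t ht => image_eq_zero_of_notMem_tsupport fun hmem => by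
    have := hb hmem; have := le_max_left b 0; linarith
  set Θ : ℝ → ℝ := fun t => ∫ s in B..t, θ s with hΘ
  have hd : ∀ t, HasDerivAt Θ (θ t) t := fun t =>
    hθ.continuous.integral_hasStrictDerivAt B t |>.hasDerivAt
  have hΘB : ∀ t, B ≤ t → Θ t = 0 := fun t ht => by
    refine intervalIntegral.integral_zero_ae (Eventually.of_forall fun s hs => hθB s ?_)
    rw [uIoc_of_le ht] at hs; exact hs.1.le
  have hΘs : ContDiff ℝ ∞ Θ := by
    rw [contDiff_infty_iff_deriv]
    refine ⟨fun t => (hd t).differentiableAt, ?_⟩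
    rwa [funext fun t => (hd t).deriv]
  have h1 := h θ Θ hΘs ⟨B, hΘB⟩ hd
  have hIoc : ∀ F : ℝ → ℝ, (∀ t, B < t → F t = 0) →
      ∫ t in Ioi (0 : ℝ), F t = ∫ t in (0 : ℝ)..B, F t := by
    intro F hF
    rw [intervalIntegral.integral_of_le hBpos]
    refine setIntegral_eq_of_subset_of_forall_sdiff_eq_zero measurableSet_Ioi Ioc_subset_Ioi_self ?_
    intro t ht
    exact hF t (lt_of_not_ge fun hle => ht.2 ⟨ht.1, hle⟩)
  rw [hIoc _ fun t ht => by simp [hθB t ht.le, hΘB t ht.le]] at h1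
  have hmi : IntervalIntegrable m volume 0 B :=
    (intervalIntegrable_iff_integrableOn_Ioc_of_le hBpos).2 (hm B)
  have hθm : IntervalIntegrable (fun t => θ t * m t) volume 0 B :=
    hmi.continuousOn_mul hθ.continuous.continuousOn
  have hΘg : IntervalIntegrable (fun t => Θ t * g t) volume 0 B :=
    (hgi B hBpos).continuousOn_mul hΘs.continuous.continuousOn
  rw [intervalIntegral.integral_add hθm hΘg] at h1
  obtain ⟨hGac, hGd⟩ := primitive_facts (c := m₀) hBpos (hgi B hBpos)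
  have hΘac : AbsolutelyContinuousOnInterval Θ 0 B :=
    (hΘs.contDiffOn.of_le (by simp)).absolutelyContinuousOnInterval
  have ibp := hΘac.integral_mul_deriv_eq_deriv_mul hGac
  have e1 : ∫ t in (0 : ℝ)..B, Θ t * deriv G t = ∫ t in (0 : ℝ)..B, Θ t * g t := by
    refine intervalIntegral.integral_congr_ae ?_
    filter_upwards [hGd] with t ht hmem
    rw [uIoc_of_le hBpos] at hmem
    rw [(ht hmem).deriv]
  have e2 : ∫ t in (0 : ℝ)..B, deriv Θ t * G t = ∫ t in (0 : ℝ)..B, θ t * G t := by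
    simp_rw [fun t => (hd t).deriv]
  have hG0 : G 0 = m₀ := by simp [hG]
  change ∫ t in (0 : ℝ)..B, Θ t * deriv G t = Θ B * G B - Θ 0 * G 0 -
    ∫ t in (0 : ℝ)..B, deriv Θ t * G t at ibp
  rw [e1, e2, hΘB B le_rfl, hG0] at ibp
  have hθG : IntervalIntegrable (fun t => θ t * G t) volume 0 B :=
    ((hθ.continuous.continuousOn.mul (hGcont B hBpos)).mono (by rw [uIcc_of_le hBpos])).intervalIntegrable
  have hz : ∀ t, t ≤ 0 → θ t = 0 := fun t ht =>
    image_eq_zero_of_notMem_tsupport fun hmem => absurd (hU hmem) (not_lt.2 ht)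
  calc ∫ t, θ t • (m t - G t) = ∫ t in Ioi (0 : ℝ), θ t • (m t - G t) :=
        (setIntegral_eq_integral_of_forall_compl_eq_zero fun t ht => by
          simp [hz t (not_lt.1 ht)]).symm
    _ = ∫ t in (0 : ℝ)..B, θ t • (m t - G t) := hIoc _ fun t ht => by simp [hθB t ht.le]
    _ = (∫ t in (0 : ℝ)..B, θ t * m t) - ∫ t in (0 : ℝ)..B, θ t * G t := by
        rw [← intervalIntegral.integral_sub hθm hθG]
        simp only [smul_eq_mul, mul_sub]
    _ = 0 := by linarith

end Vale.Agent.P140
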