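import Mathlib
import Vale.Agent.P140.Defs

/-! Free streaming on the torus and test functions. -/

noncomputable section

open MeasureTheory Set Filter
open scoped ENNReal ContDiff Topology

namespace Vale.Agent.P140

lemma continuous_proj : Continuous proj :=
  continuous_pi fun i => (AddCircle.continuous_mk' (1 : ℝ)).comp (PiLp.continuous_apply 2 _ i)

lemma proj_add (y y' : V) : proj (y + y') = proj y + proj y' := by
  ext i; simp [proj]

@[simp] lemma proj_zero : proj 0 = 0 := by ext i; simp [proj]

lemma continuous_shift_uncurry : Continuous fun p : ℝ × (X × V) => shift p.1 p.2 := by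
  have h := continuous_proj.comp
    (continuous_fst.smul (continuous_snd.comp continuous_snd) : Continuous fun p : ℝ × (X × V) =>
      p.1 • p.2.2)
  exact ((continuous_fst.comp continuous_snd).add h).prodMk (continuous_snd.comp continuous_snd)

lemma measurable_shift_uncurry : Measurable fun p : ℝ × (X × V) => shift p.1 p.2 :=
  continuous_shift_uncurry.measurable

lemma measurable_shift (t : ℝ) : Measurable (shift t) :=
  measurable_shift_uncurry.comp measurable_prodMk_left

@[simp] lemma shift_zero (z : X × V) : shift 0 z = z := by simp [shift]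

@[simp] lemma shift_snd (t : ℝ) (z : X × V) : (shift t z).2 = z.2 := rfl

lemma shift_shift (s t : ℝ) (z : X × V) : shift s (shift t z) = shift (t + s) z := by
  simp [shift, add_smul, proj_add, add_assoc]

lemma shift_neg (t : ℝ) (z : X × V) : shift t (shift (-t) z) = z := by simp [shift_shift]

lemma measurePreserving_shift (t : ℝ) :
    MeasurePreserving (shift t) (volume : Measure (X × V)) volume := by
  have hm : Measurable fun p : V × X => p.2 + proj (t • p.1) :=
    measurable_snd.add (continuous_proj.measurable.comp (measurable_fst.const_smul t))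
  have h : MeasurePreserving (fun p : V × X => (p.1, p.2 + proj (t • p.1)))
      ((volume : Measure V).prod (volume : Measure X))
      ((volume : Measure V).prod (volume : Measure X)) :=
    (MeasurePreserving.id _).skew_product (g := fun (v : V) (x : X) => x + proj (t • v)) hm
      (Eventually.of_forall fun v => (measurePreserving_add_right volume (proj (t • v))).map_eq)
  exact (Measure.measurePreserving_swap.comp h).comp Measure.measurePreserving_swap

lemma lintegral_shift (t : ℝ) {f : X × V → ℝ≥0∞} (hf : Measurable f) :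
    ∫⁻ z, f (shift t z) = ∫⁻ z, f z :=
  (measurePreserving_shift t).lintegral_comp hf

lemma ae_shift (t : ℝ) {p : X × V → Prop} (h : ∀ᵐ z, p z) : ∀ᵐ z, p (shift t z) :=
  (measurePreserving_shift t).quasiMeasurePreserving.ae h

lemma integral_shift (t : ℝ) {f : X × V → ℝ} (hf : Measurable f) :
    ∫ z, f (shift t z) = ∫ z, f z := by
  conv_rhs => rw [← (measurePreserving_shift t).map_eq]
  exact (integral_map (measurable_shift t).aemeasurable hf.aestronglyMeasurable).symm

/-- The section `𝕋³ → [0,1)³`. -/
def sec (x : X) : Fin 3 → ℝ := fun i => (AddCircle.measurableEquivIco (1 : ℝ) 0 (x i) : ℝ)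

lemma measurable_sec : Measurable sec :=
  measurable_pi_lambda _ fun i =>
    measurable_subtype_coe.comp
      ((AddCircle.measurableEquivIco (1 : ℝ) 0).measurable.comp (measurable_pi_apply i))

lemma sec_proj (y : V) : sec (proj y) = fun i => Int.fract (y i) := by
  ext i
  change ((AddCircle.equivIco (1 : ℝ) 0 (y i : UnitAddCircle) : Ico (0 : ℝ) (0 + 1)) : ℝ) = _
  rw [AddCircle.coe_equivIco_mk_apply]
  simp

/-- Open unit cube times velocity space. -/
def cube : Set ((Fin 3 → ℝ) × V) := (univ.pi fun _ => Ioo (0 : ℝ) 1) ×ˢ univ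

lemma isOpen_cube : IsOpen cube :=
  (isOpen_set_pi finite_univ fun _ _ => isOpen_Ioo).prod isOpen_univ

/-- The quotient map on phase space. -/
def qmap (p : (Fin 3 → ℝ) × V) : X × V := (fun i => ((p.1 i : ℝ) : UnitAddCircle), p.2)

lemma measurePreserving_qmap :
    MeasurePreserving qmap ((volume : Measure ((Fin 3 → ℝ) × V)).restrict cube) volume := by
  have h1 : MeasurePreserving (fun y : Fin 3 → ℝ => fun i => ((y i : ℝ) : UnitAddCircle))
      (Measure.pi fun _ => (volume : Measure ℝ).restrict (Ioo 0 1)) (volume : Measure X) := by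
    refine measurePreserving_pi _ _ fun _ => ?_
    have := UnitAddCircle.measurePreserving_mk 0
    rwa [zero_add, ← restrict_Ioo_eq_restrict_Ioc] at this
  have h2 : (volume : Measure ((Fin 3 → ℝ) × V)).restrict cube
      = (Measure.pi fun _ => (volume : Measure ℝ).restrict (Ioo 0 1)).prod volume := by
    rw [cube, Measure.volume_eq_prod, ← Measure.prod_restrict, volume_pi, ← Measure.restrict_pi_pi, Measure.restrict_univ]
  rw [h2]
  exact h1.prod (MeasurePreserving.id _)

lemma sec_qmap {p : (Fin 3 → ℝ) × V} (hp : p ∈ cube) : (sec (qmap p).1, (qmap p).2) = p := by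
  refine Prod.ext (funext fun i => ?_) rfl
  have hi : p.1 i ∈ Ico (0 : ℝ) (0 + 1) := by
    have := (mem_univ_pi.1 (mem_prod.1 hp).1) i
    simp only [mem_Ioo] at this
    exact ⟨this.1.le, by linarith⟩
  change ((AddCircle.equivIco (1 : ℝ) 0 (p.1 i : UnitAddCircle) : Ico (0 : ℝ) (0 + 1)) : ℝ) = _
  rw [AddCircle.equivIco_coe_eq hi]

/-- Periodisation of a function supported in the open cube is smooth. -/
lemma contDiff_periodise {g : (Fin 3 → ℝ) × V → ℝ} (hg : ContDiff ℝ ∞ g)
    (hs : HasCompactSupport g) (hU : tsupport g ⊆ cube) :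
    ContDiff ℝ ∞ fun p : V × V => g (sec (proj p.1), p.2) := by
  obtain ⟨δ, δpos, hδ⟩ := hs.isCompact.exists_thickening_subset_open isOpen_cube hU
  have vanish : ∀ (p : (Fin 3 → ℝ) × V) (i : Fin 3), min |p.1 i| |p.1 i - 1| < δ → g p = 0 := by
    intro p i hi
    by_contra hne
    have key : ∀ c : ℝ, |p.1 i - c| < δ → c ∈ Ioo (0 : ℝ) 1 := by
      intro c hc
      let q : (Fin 3 → ℝ) × V := (Function.update p.1 i c, p.2)
      have hq : q ∈ Metric.thickening δ (tsupport g) := by
        refine Metric.mem_thickening_iff.2 ⟨p, subset_closure hne, ?_⟩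
        simp only [q, Prod.dist_eq, dist_self, max_lt_iff, δpos, and_true]
        refine (dist_pi_lt_iff δpos).2 fun j => ?_
        rcases eq_or_ne j i with rfl | hj
        · simpa [Real.dist_eq, abs_sub_comm] using hc
        · simp [Function.update_of_ne hj, δpos]
      simpa [q] using (mem_univ_pi.1 (mem_prod.1 (hδ hq)).1) i
    rcases min_lt_iff.1 hi with h | h
    · exact absurd (key 0 (by simpa using h)) (by simp)
    · exact absurd (key 1 h) (by simp)
  rw [contDiff_iff_contDiffAt]
  rintro ⟨y, v⟩
  simp only [sec_proj]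
  have hc : ∀ i : Fin 3, Continuous fun p : V × V => p.1 i :=
    fun i => (PiLp.continuous_apply 2 _ i).comp continuous_fst
  by_cases hy : ∀ i, Int.fract (y i) ≠ 0
  · let n : Fin 3 → ℝ := fun i => (⌊y i⌋ : ℝ)
    have e : (fun p : V × V => g (fun i => Int.fract (p.1 i), p.2))
        =ᶠ[𝓝 (y, v)] fun p => g (fun i => p.1 i - n i, p.2) := by
      have : ∀ i, ∀ᶠ p : V × V in 𝓝 (y, v), Int.fract (p.1 i) = p.1 i - n i := by
        intro i
        have hlt : (⌊y i⌋ : ℝ) < y i := by
          have := (Int.fract_nonneg (y i)).lt_of_ne' (hy i)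
          rw [← Int.self_sub_floor] at this
          linarith
        filter_upwards [(hc i).continuousAt.preimage_mem_nhds
          (Ioo_mem_nhds hlt (Int.lt_floor_add_one (y i)))] with p hp
        rw [← Int.self_sub_floor, Int.floor_eq_iff.2 ⟨hp.1.le, hp.2⟩]
      filter_upwards [eventually_all.2 this] with p hp
      simp only [hp]
    refine ContDiffAt.congr_of_eventuallyEq ?_ e
    refine (hg.comp (ContDiff.prodMk (contDiff_pi.2 fun i => ?_) contDiff_snd)).contDiffAt
    exact ((EuclideanSpace.proj (𝕜 := ℝ) i).contDiff.comp contDiff_fst).sub contDiff_const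
  · push Not at hy
    obtain ⟨i, hi⟩ := hy
    have e : (fun p : V × V => g (fun i => Int.fract (p.1 i), p.2)) =ᶠ[𝓝 (y, v)] fun _ => 0 := by
      filter_upwards [(hc i).continuousAt.preimage_mem_nhds
        (Metric.ball_mem_nhds (y i) (lt_min δpos one_pos))] with p hp
      refine vanish _ i ?_
      have hp' : |p.1 i - y i| < min δ 1 := by simpa [Real.dist_eq] using hp
      have hyi : y i = (⌊y i⌋ : ℝ) := by
        rw [← Int.self_sub_floor] at hi
        linarith
      have h1 := lt_min_iff.1 hp'
      have h2 := abs_lt.1 h1.1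
      have h3 := abs_lt.1 h1.2
      rw [min_lt_iff]
      rcases le_or_gt (⌊y i⌋ : ℝ) (p.1 i) with h | h
      · left
        have : ⌊p.1 i⌋ = ⌊y i⌋ := Int.floor_eq_iff.2 ⟨h, by linarith⟩
        dsimp only
        rw [← Int.self_sub_floor, this, abs_lt]
        constructor <;> linarith
      · right
        have : ⌊p.1 i⌋ = ⌊y i⌋ - 1 :=
          Int.floor_eq_iff.2 ⟨by push_cast; linarith, by push_cast; linarith⟩
        dsimp only
        rw [← Int.self_sub_floor, this, abs_lt]
        push_cast
        constructor <;> linarith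
    exact contDiffAt_const.congr_of_eventuallyEq e

/-- An integrable function orthogonal to all smooth compactly supported functions on phase space
vanishes almost everywhere. -/
lemma ae_zero_of_test {E : X × V → ℝ} (hE : Integrable E)
    (h : ∀ χ : X × V → ℝ, Measurable χ → ContDiff ℝ ∞ (fun p : V × V => χ (proj p.1, p.2)) →
      (∃ R : ℝ, ∀ z, R ≤ ‖z.2‖ → χ z = 0) → (∃ C : ℝ, ∀ z, |χ z| ≤ C) → ∫ z, χ z * E z = 0) :
    ∀ᵐ z, E z = 0 := by
  have hq := measurePreserving_qmap
  have hE' : Integrable (fun p => E (qmap p)) (volume.restrict cube) :=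
    hq.integrable_comp_of_integrable hE
  have key : ∀ᵐ p, p ∈ cube → E (qmap p) = 0 := by
    refine IsOpen.ae_eq_zero_of_integral_contDiff_smul_eq_zero isOpen_cube
      (IntegrableOn.locallyIntegrableOn hE') fun g hg hs hU => ?_
    obtain ⟨R₀, hR₀⟩ := hs.isCompact.isBounded.subset_closedBall 0
    obtain ⟨C, hC⟩ := hg.continuous.bounded_above_of_compact_support hs
    have hχm : Measurable fun z : X × V => g (sec z.1, z.2) :=
      hg.continuous.measurable.comp ((measurable_sec.comp measurable_fst).prodMk measurable_snd)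
    have h0 := h (fun z => g (sec z.1, z.2)) hχm (contDiff_periodise hg hs hU)
      ⟨R₀ + 1, fun z hz => by
        by_contra hne
        have := hR₀ (subset_closure hne)
        rw [mem_closedBall_zero_iff] at this
        have h2 : ‖z.2‖ ≤ ‖((sec z.1, z.2) : (Fin 3 → ℝ) × V)‖ :=
          norm_snd_le ((sec z.1, z.2) : (Fin 3 → ℝ) × V)
        linarith⟩ ⟨C, fun z => by simpa using hC _⟩
    rw [← hq.map_eq, integral_map hq.aemeasurable] at h0
    · rw [← setIntegral_eq_integral_of_forall_compl_eq_zero
        (s := cube) (fun p hp => by simp [image_eq_zero_of_notMem_tsupport fun hm => hp (hU hm)])]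
      rw [← h0]
      refine setIntegral_congr_fun isOpen_cube.measurableSet fun p hp => ?_
      simp only [sec_qmap hp, smul_eq_mul]
    · rw [hq.map_eq]
      exact hχm.aestronglyMeasurable.mul hE.aestronglyMeasurable
  have key' : ∀ᵐ p ∂(volume.restrict cube), E (qmap p) = 0 :=
    (ae_restrict_iff' isOpen_cube.measurableSet).2 key
  obtain ⟨E', hE'm, hE'e⟩ := hE.aestronglyMeasurable.aemeasurable
  have : ∀ᵐ z ∂(Measure.map qmap (volume.restrict cube)), E' z = 0 := by
    refine (ae_map_iff hq.aemeasurable (hE'm (measurableSet_singleton 0))).2 ?_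
    filter_upwards [key', hq.quasiMeasurePreserving.ae hE'e] with p h1 h2
    show E' (qmap p) = 0
    rw [← h2, h1]
  rw [hq.map_eq] at this
  filter_upwards [this, hE'e] with z h1 h2
  rw [h2, h1]

end Vale.Agent.P140
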