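import Mathlib
import Vale.Agent.P140.Defs
import Vale.Agent.P140.Coll
import Vale.Agent.P140.Torus
import Vale.Agent.P140.OneDim

/-! Renormalized solutions solve the equation in mild form. -/

noncomputable section

open MeasureTheory Set Filter
open scoped ENNReal ContDiff Topology

namespace Vale.Agent.P140

/-- The interval measure used for the time variable. -/
abbrev μt (T : ℝ) : Measure ℝ := (volume : Measure ℝ).restrict (Ioc 0 T)

/-- A solution in mild form on `(0,T]`. -/
structure IsMild (F₀ : X × V → ℝ) (F : ℝ → X × V → ℝ) (T : ℝ) : Prop where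
  measurable : Measurable (Function.uncurry F)
  nonneg : ∀ t z, 0 ≤ F t z
  gain_fin : ∀ᵐ z, ∫⁻ t in Ioc 0 T, gainAt (F t) (shift t z) < ⊤
  loss_fin : ∀ᵐ z, ∫⁻ t in Ioc 0 T, lossAt (F t) (shift t z) < ⊤
  eq : ∀ᵐ z, ∀ᵐ t ∂μt T,
    F t (shift t z) = F₀ z + ∫ s in (0 : ℝ)..t, collAt (F s) (shift s z)

lemma measurable_slices {F : ℝ → X × V → ℝ} (hF : Measurable (Function.uncurry F)) :
    Measurable fun q : (ℝ × X) × V => F q.1.1 (q.1.2, q.2) :=
  hF.comp ((measurable_fst.comp measurable_fst).prodMk
    ((measurable_snd.comp measurable_fst).prodMk measurable_snd))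

lemma measurable_gainAt {F : ℝ → X × V → ℝ} (hF : Measurable (Function.uncurry F)) :
    Measurable fun p : ℝ × (X × V) => gainAt (F p.1) p.2 := by
  have h := measurable_gain2 (f := fun (a : ℝ × X) (v : V) => F a.1 (a.2, v))
    (g := fun (a : ℝ × X) (v : V) => F a.1 (a.2, v)) (measurable_slices hF) (measurable_slices hF)
  have h2 := h.comp (((measurable_fst (α := ℝ) (β := X × V)).prodMk
    ((measurable_fst (α := X) (β := V)).comp measurable_snd)).prodMk
    ((measurable_snd (α := X) (β := V)).comp measurable_snd))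
  simp only [Function.comp_def, ← gain_eq] at h2
  simpa only [gainAt] using h2

lemma measurable_lossAt {F : ℝ → X × V → ℝ} (hF : Measurable (Function.uncurry F)) :
    Measurable fun p : ℝ × (X × V) => lossAt (F p.1) p.2 := by
  have h := measurable_loss2 (f := fun (a : ℝ × X) (v : V) => F a.1 (a.2, v))
    (g := fun (a : ℝ × X) (v : V) => F a.1 (a.2, v)) (measurable_slices hF) (measurable_slices hF)
  have h2 := h.comp (((measurable_fst (α := ℝ) (β := X × V)).prodMk
    ((measurable_fst (α := X) (β := V)).comp measurable_snd)).prodMk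
    ((measurable_snd (α := X) (β := V)).comp measurable_snd))
  simp only [Function.comp_def, ← loss_eq] at h2
  simpa only [lossAt] using h2

lemma measurable_collAt {F : ℝ → X × V → ℝ} (hF : Measurable (Function.uncurry F)) :
    Measurable fun p : ℝ × (X × V) => collAt (F p.1) p.2 :=
  (measurable_gainAt hF).ennreal_toReal.sub (measurable_lossAt hF).ennreal_toReal

lemma measurable_along : Measurable fun p : ℝ × (X × V) => (p.1, shift p.1 p.2) :=
  measurable_fst.prodMk measurable_shift_uncurry

lemma maxw_pos (v : V) : 0 < maxw v := by unfold maxw; positivity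

@[fun_prop] lemma continuous_maxw : Continuous maxw := by unfold maxw; fun_prop

lemma transport_streamed (Θ θ : ℝ → ℝ) (χ : X × V → ℝ) (t : ℝ) (z : X × V)
    (h : ∀ t, HasDerivAt Θ (θ t) t) :
    transport (fun t z => Θ t * χ (shift (-t) z)) t z = θ t * χ (shift (-t) z) := by
  have e : ∀ s : ℝ, shift (-(t + s)) (shift s z) = shift (-t) z := fun s => by
    rw [shift_shift]; congr 1; ring
  unfold transport
  simp only [e]
  have := (h (t + 0)).comp_const_add t 0
  simp only [add_zero] at this
  exact (this.mul_const _).deriv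

lemma contDiff_streamed {χ : X × V → ℝ} (hχ : ContDiff ℝ ∞ (fun p : V × V => χ (proj p.1, p.2)))
    {Θ : ℝ → ℝ} (hΘ : ContDiff ℝ ∞ Θ) :
    ContDiff ℝ ∞ (fun p : ℝ × V × V => Θ p.1 * χ (shift (-p.1) (proj p.2.1, p.2.2))) := by
  have e : ∀ p : ℝ × V × V, shift (-p.1) (proj p.2.1, p.2.2)
      = (proj (p.2.1 + (-p.1) • p.2.2), p.2.2) := fun p => by simp [shift, proj_add]
  simp only [e]
  refine (hΘ.comp contDiff_fst).mul ?_
  exact hχ.comp (ContDiff.prodMk
    ((contDiff_fst.comp contDiff_snd).add (contDiff_fst.neg.smul (contDiff_snd.comp contDiff_snd)))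
    (contDiff_snd.comp contDiff_snd))

section Sol

variable {F₀ : X × V → ℝ} {F : ℝ → X × V → ℝ}

lemma IsSolution.measurable_slice (h : IsSolution F₀ F) (t : ℝ) : Measurable (F t) :=
  h.measurable.comp measurable_prodMk_left

lemma IsSolution.lintegral_mass (h : IsSolution F₀ F) (T : ℝ) :
    ∃ C : ℝ, ∀ t ∈ Icc 0 T, ∫⁻ z, ENNReal.ofReal (F t z) ≤ ENNReal.ofReal C := by
  obtain ⟨C, hC⟩ := h.moments T
  refine ⟨C, fun t ht => le_trans (lintegral_mono fun z => ENNReal.ofReal_le_ofReal ?_) (hC t ht)⟩
  nlinarith [mul_nonneg (h.nonneg t z) (add_nonneg (sq_nonneg ‖z.2‖) (abs_nonneg (Real.log (F t z))))]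

lemma IsSolution.integrable_F (h : IsSolution F₀ F) (T : ℝ) :
    Integrable (fun p : ℝ × (X × V) => F p.1 p.2) ((μt T).prod volume) := by
  refine ⟨h.measurable.aestronglyMeasurable, ?_⟩
  obtain ⟨C, hC⟩ := h.lintegral_mass T
  have e : ∀ p : ℝ × (X × V), ‖F p.1 p.2‖ₑ = ENNReal.ofReal (F p.1 p.2) := fun p =>
    Real.enorm_eq_ofReal (h.nonneg _ _)
  rw [hasFiniteIntegral_iff_enorm, lintegral_congr e,
    lintegral_prod (fun p : ℝ × (X × V) => ENNReal.ofReal (F p.1 p.2))
      h.measurable.ennreal_ofReal.aemeasurable]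
  calc ∫⁻ t in Ioc 0 T, ∫⁻ z, ENNReal.ofReal (F t z) ≤ ∫⁻ _ in Ioc 0 T, ENNReal.ofReal C :=
        setLIntegral_mono measurable_const fun t ht => hC t (Ioc_subset_Icc_self ht)
    _ < ⊤ := by
        rw [setLIntegral_const]
        exact ENNReal.mul_lt_top ENNReal.ofReal_lt_top measure_Ioc_lt_top

/-- Mass is conserved. -/
lemma IsSolution.mass (h : IsSolution F₀ F) : ∀ t, 0 ≤ t → ∫ z, F t z = ∫ z, F₀ z := by
  have hm : ∀ T, IntegrableOn (fun t => ∫ z, F t z) (Ioc 0 T) := fun T =>
    (h.integrable_F T).integral_prod_left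
  have hae := weak_ode (m := fun t => ∫ z, F t z) (g := fun _ => 0) (m₀ := ∫ z, F₀ z) hm
    (fun T => integrableOn_zero) ?_
  · have hc := h.weak_continuous (fun _ => 1) measurable_const ⟨1, fun _ => by simp⟩
    simp only [one_mul] at hc
    have hpos : EqOn (fun t => ∫ z, F t z) (fun _ => ∫ z, F₀ z) (Ioi 0) := by
      refine Measure.eqOn_open_of_ae_eq (μ := volume) ?_ isOpen_Ioi (hc.mono Ioi_subset_Ici_self)
        continuousOn_const
      rw [EventuallyEq, ae_restrict_iff' measurableSet_Ioi]
      filter_upwards [hae] with t ht hpos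
      simpa using ht hpos
    intro t ht
    rcases ht.eq_or_lt with rfl | ht
    · exact integral_congr_ae h.initial
    · exact hpos ht
  intro θ Θ hΘ hR hd
  obtain ⟨R, hR⟩ := hR
  have hφ : IsTestTX (fun t _ => Θ t) :=
    ⟨hΘ.comp contDiff_fst, R, fun t _ ht => hR t ht⟩
  have := h.mass_balance _ hφ
  have e : ∀ t z, transport (fun t (z : X × V) => Θ t) t z = θ t := fun t z => by
    unfold transport
    have := (hd (t + 0)).comp_const_add t 0
    simp only [add_zero] at this
    exact this.deriv
  simp only [e, integral_const_mul] at this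
  simpa using this

/-- `log (1+z)` is an admissible renormalization. -/
lemma isRenorm_log : IsRenorm (fun z => Real.log (1 + z)) (fun z => (1 + z)⁻¹) := by
  refine ⟨by simp, ?_, fun z hz => ?_, 1, fun z hz => ?_⟩
  · refine ContinuousOn.inv₀ (by fun_prop) fun z hz => ?_
    have : (0 : ℝ) ≤ z := hz
    positivity
  · have := ((hasDerivAt_id z).const_add 1).log (by simp; positivity)
    simpa using this.hasDerivWithinAt
  · rw [abs_of_nonneg (by positivity), one_div]

/-- The renormalized density `M log (1 + F/M)`. -/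
def wren (F : ℝ → X × V → ℝ) (t : ℝ) (z : X × V) : ℝ :=
  maxw z.2 * Real.log (1 + F t z / maxw z.2)

/-- The renormalized collision term. -/
def gren (F : ℝ → X × V → ℝ) (t : ℝ) (z : X × V) : ℝ :=
  (1 + F t z / maxw z.2)⁻¹ * collAt (F t) z

lemma IsSolution.measurable_wren (h : IsSolution F₀ F) :
    Measurable fun p : ℝ × (X × V) => wren F p.1 p.2 := by
  have hM : Measurable fun p : ℝ × (X × V) => maxw p.2.2 :=
    continuous_maxw.measurable.comp (measurable_snd.comp measurable_snd)
  exact hM.mul (((h.measurable.div hM).const_add 1).log)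

lemma IsSolution.measurable_gren (h : IsSolution F₀ F) :
    Measurable fun p : ℝ × (X × V) => gren F p.1 p.2 := by
  have hM : Measurable fun p : ℝ × (X × V) => maxw p.2.2 :=
    continuous_maxw.measurable.comp (measurable_snd.comp measurable_snd)
  exact ((h.measurable.div hM).const_add 1).inv.mul (measurable_collAt h.measurable)

lemma IsSolution.abs_wren (h : IsSolution F₀ F) (t : ℝ) (z : X × V) : |wren F t z| ≤ F t z := by
  have hM := maxw_pos z.2
  have hG : 0 ≤ F t z / maxw z.2 := div_nonneg (h.nonneg _ _) hM.le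
  have h0 : 0 ≤ Real.log (1 + F t z / maxw z.2) := Real.log_nonneg (by linarith)
  have h1 := Real.log_le_sub_one_of_pos (x := 1 + F t z / maxw z.2) (by linarith)
  rw [wren, abs_of_nonneg (by positivity)]
  calc maxw z.2 * Real.log (1 + F t z / maxw z.2) ≤ maxw z.2 * (F t z / maxw z.2) :=
        mul_le_mul_of_nonneg_left (by linarith) hM.le
    _ = F t z := by field_simp

lemma IsSolution.enorm_gren (h : IsSolution F₀ F) (t : ℝ) (z : X × V) :
    ‖gren F t z‖ₑ ≤ gainAt (F t) z / ENNReal.ofReal (1 + F t z / maxw z.2)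
      + lossAt (F t) z / ENNReal.ofReal (1 + F t z / maxw z.2) := by
  have hM := maxw_pos z.2
  have hpos : 0 < 1 + F t z / maxw z.2 := by
    have : 0 ≤ F t z / maxw z.2 := div_nonneg (h.nonneg _ _) hM.le
    linarith
  rw [← ENNReal.add_div, ENNReal.div_eq_inv_mul, gren, enorm_mul,
    Real.enorm_eq_ofReal (inv_nonneg.2 hpos.le), ENNReal.ofReal_inv_of_pos hpos]
  gcongr
  rw [collAt]
  refine (enorm_sub_le).trans (add_le_add ?_ ?_) <;>
  · rw [Real.enorm_eq_ofReal ENNReal.toReal_nonneg]
    exact ENNReal.ofReal_toReal_le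

lemma IsSolution.integrable_wren (h : IsSolution F₀ F) (T : ℝ) :
    Integrable (fun p : ℝ × (X × V) => wren F p.1 (shift p.1 p.2)) ((μt T).prod volume) := by
  have hs : MeasurePreserving (fun p : ℝ × (X × V) => (p.1, shift p.1 p.2))
      ((μt T).prod volume) ((μt T).prod volume) :=
    (MeasurePreserving.id _).skew_product (g := shift) measurable_shift_uncurry
      (Eventually.of_forall fun t => (measurePreserving_shift t).map_eq)
  suffices hsuff : Integrable (fun p : ℝ × (X × V) => wren F p.1 p.2) ((μt T).prod volume) by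
    have h2 := hs.integrable_comp_of_integrable hsuff
    simpa only [Function.comp_def] using h2
  exact (h.integrable_F T).mono' h.measurable_wren.aestronglyMeasurable
    (Eventually.of_forall fun p => (Real.norm_eq_abs _).trans_le (h.abs_wren _ _))

lemma IsSolution.integrable_gren (h : IsSolution F₀ F) (T : ℝ) :
    Integrable (fun p : ℝ × (X × V) => gren F p.1 (shift p.1 p.2)) ((μt T).prod volume) := by
  have hs : MeasurePreserving (fun p : ℝ × (X × V) => (p.1, shift p.1 p.2))
      ((μt T).prod volume) ((μt T).prod volume) :=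
    (MeasurePreserving.id _).skew_product (g := shift) measurable_shift_uncurry
      (Eventually.of_forall fun t => (measurePreserving_shift t).map_eq)
  suffices hsuff : Integrable (fun p : ℝ × (X × V) => gren F p.1 p.2) ((μt T).prod volume) by
    have h2 := hs.integrable_comp_of_integrable hsuff
    simpa only [Function.comp_def] using h2
  have hM : Measurable fun p : ℝ × (X × V) => ENNReal.ofReal (1 + F p.1 p.2 / maxw p.2.2) :=
    ((h.measurable.div (continuous_maxw.measurable.comp
      (measurable_snd.comp measurable_snd))).const_add 1).ennreal_ofReal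
  have hg1 := (measurable_gainAt h.measurable).div hM
  have hg2 := (measurable_lossAt h.measurable).div hM
  refine ⟨h.measurable_gren.aestronglyMeasurable, ?_⟩
  rw [hasFiniteIntegral_iff_enorm]
  refine lt_of_le_of_lt (lintegral_mono fun p => h.enorm_gren p.1 p.2) ?_
  simp only [Pi.div_def] at hg1 hg2
  rw [lintegral_add_left hg1, lintegral_prod _ hg1.aemeasurable, lintegral_prod _ hg2.aemeasurable]
  refine ENNReal.add_lt_top.2 ⟨?_, ?_⟩
  · exact lt_of_le_of_lt (lintegral_mono_set Ioc_subset_Icc_self) (h.gain_integrable T)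
  · exact lt_of_le_of_lt (lintegral_mono_set Ioc_subset_Icc_self) (h.loss_integrable T)

lemma integral_stream (t c d : ℝ) {χ a b : X × V → ℝ} (hχ : Measurable χ) (ha : Measurable a)
    (hb : Measurable b) (h1 : Integrable (fun z => χ z * a (shift t z)))
    (h2 : Integrable (fun z => χ z * b (shift t z))) :
    c * (∫ z, χ z * a (shift t z)) + d * ∫ z, χ z * b (shift t z)
      = ∫ z, (a z * (c * χ (shift (-t) z)) + b z * (d * χ (shift (-t) z))) := by
  have hχs : Measurable fun z => χ (shift (-t) z) := hχ.comp (measurable_shift _)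
  rw [← integral_shift t (f := fun z => a z * (c * χ (shift (-t) z)) + b z * (d * χ (shift (-t) z)))
    ((ha.mul (hχs.const_mul c)).add (hb.mul (hχs.const_mul d)))]
  simp only [shift_shift, add_neg_cancel, shift_zero]
  rw [← integral_const_mul, ← integral_const_mul, ← integral_add (h1.const_mul _) (h2.const_mul _)]
  refine integral_congr_ae (Eventually.of_forall fun z => ?_)
  ring

/-- The weak form along characteristics, tested against a function of the initial position. -/
lemma IsSolution.weak_along (h : IsSolution F₀ F) {χ : X × V → ℝ} (hχm : Measurable χ)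
    (hχ : ContDiff ℝ ∞ (fun p : V × V => χ (proj p.1, p.2)))
    (hsupp : ∃ R : ℝ, ∀ z, R ≤ ‖z.2‖ → χ z = 0) (hb : ∃ C : ℝ, ∀ z, |χ z| ≤ C) :
    ∀ᵐ t : ℝ, 0 < t → ∫ z, χ z * wren F t (shift t z) = (∫ z, χ z * wren F 0 z)
      + ∫ s in (0 : ℝ)..t, ∫ z, χ z * gren F s (shift s z) := by
  obtain ⟨C, hC⟩ := hb
  have hi : ∀ {k : ℝ × (X × V) → ℝ} {T : ℝ}, Integrable k ((μt T).prod volume) →
      Integrable (fun p => χ p.2 * k p) ((μt T).prod volume) := fun hk =>
    hk.bdd_mul (c := C) ((hχm.comp measurable_snd).aestronglyMeasurable)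
      (Eventually.of_forall fun p => (Real.norm_eq_abs _).trans_le (hC _))
  refine weak_ode (fun T => (hi (h.integrable_wren T)).integral_prod_left)
    (fun T => (hi (h.integrable_gren T)).integral_prod_left) ?_
  intro θ Θ hΘ hR hd
  obtain ⟨R₁, hR₁⟩ := hR
  obtain ⟨R₂, hR₂⟩ := hsupp
  have hφ : IsTest (fun t z => Θ t * χ (shift (-t) z)) := by
    refine ⟨contDiff_streamed hχ hΘ, max R₁ R₂, fun t z hz => ?_⟩
    dsimp only
    rcases hz with hz | hz
    · rw [hR₁ t (le_trans (le_max_left _ _) hz), zero_mul]
    · rw [hR₂ _ (by simpa using le_trans (le_max_right _ _) hz), mul_zero]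
  have key := h.renormalized _ _ isRenorm_log _ hφ
  simp only [transport_streamed Θ θ χ _ _ hd] at key
  -- the initial term
  have e0 : ∫ z, Θ 0 * χ (shift (-0) z) * (maxw z.2 * Real.log (1 + F₀ z / maxw z.2))
      = Θ 0 * ∫ z, χ z * wren F 0 z := by
    rw [← integral_const_mul]
    refine integral_congr_ae ?_
    filter_upwards [h.initial] with z hz
    simp only [neg_zero, shift_zero, wren, hz]
    ring
  rw [e0] at key
  refine Eq.trans ?_ key
  refine congrArg (· + Θ 0 * ∫ z, χ z * wren F 0 z) (integral_congr_ae ?_)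
  have hnull : ∀ᵐ t ∂(volume.restrict (Ioi (0 : ℝ))),
      Integrable (fun z => χ z * wren F t (shift t z)) ∧
      Integrable (fun z => χ z * gren F t (shift t z)) := by
    rw [ae_restrict_iff' measurableSet_Ioi]
    have hall : ∀ n : ℕ, ∀ᵐ t ∂μt n, Integrable (fun z => χ z * wren F t (shift t z)) ∧
        Integrable (fun z => χ z * gren F t (shift t z)) := fun n => by
      filter_upwards [(hi (h.integrable_wren n)).prod_right_ae,
        (hi (h.integrable_gren n)).prod_right_ae] with t h1 h2 using ⟨h1, h2⟩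
    simp only [μt, ae_restrict_iff' measurableSet_Ioc] at hall
    filter_upwards [ae_all_iff.2 hall] with t ht hpos
    exact ht ⌈t⌉₊ ⟨hpos, Nat.le_ceil t⟩
  filter_upwards [hnull] with t ⟨h1, h2⟩
  have hwm : Measurable fun z : X × V => wren F t z := by
    have := h.measurable_wren.comp (measurable_prodMk_left (x := t) (α := ℝ) (β := X × V))
    simpa only [Function.comp_def] using this
  have hgm : Measurable fun z : X × V => gren F t z := by
    have := h.measurable_gren.comp (measurable_prodMk_left (x := t) (α := ℝ) (β := X × V))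
    simpa only [Function.comp_def] using this
  have hst := integral_stream t (θ t) (Θ t) (a := fun z => wren F t z) (b := fun z => gren F t z)
    hχm hwm hgm h1 h2
  simpa only [wren, gren] using hst

/-- The renormalized equation in mild form. -/
lemma IsSolution.renorm_mild (h : IsSolution F₀ F) (T : ℝ) :
    ∀ᵐ z, ∀ᵐ t ∂μt T, wren F t (shift t z)
      = wren F 0 z + ∫ s in (0 : ℝ)..t, gren F s (shift s z) := by
  have hw0 : Integrable (fun z => wren F 0 z) :=
    (h.integrable 0 le_rfl).mono' (h.measurable_wren.comp measurable_prodMk_left).aestronglyMeasurable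
      (Eventually.of_forall fun z => (Real.norm_eq_abs _).trans_le (h.abs_wren 0 z))
  set g : ℝ × (X × V) → ℝ := fun p => gren F p.1 (shift p.1 p.2) with hgdef
  have hgm : Measurable g := h.measurable_gren.comp measurable_along
  set K : ℝ × (X × V) → ℝ := fun p => ∫ s, (Ioc 0 p.1).indicator (fun s => g (s, p.2)) s with hK
  have hKm : Measurable K := by
    have hind : StronglyMeasurable fun q : (ℝ × (X × V)) × ℝ =>
        (Ioc 0 q.1.1).indicator (fun s => g (s, q.1.2)) q.2 := by
      refine Measurable.stronglyMeasurable ?_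
      simp only [indicator_apply, mem_Ioc]
      refine Measurable.ite ?_ (hgm.comp (measurable_snd.prodMk
        (measurable_snd.comp measurable_fst))) measurable_const
      exact (measurableSet_lt measurable_const measurable_snd).inter
        (measurableSet_le measurable_snd (measurable_fst.comp measurable_fst))
    exact hind.integral_prod_right'.measurable
  have hKeq : ∀ t, 0 ≤ t → ∀ z, K (t, z) = ∫ s in (0 : ℝ)..t, g (s, z) := fun t ht z => by
    simp only [hK, integral_indicator measurableSet_Ioc, intervalIntegral.integral_of_le ht]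
  -- the defect
  set D : ℝ × (X × V) → ℝ := fun p => wren F p.1 (shift p.1 p.2) - wren F 0 p.2 - K p with hD
  have hKi : ∀ q : ℝ, Integrable K ((μt q).prod volume) := by
    intro q
    set Kb : X × V → ℝ := fun z => ∫ s in Ioc 0 q, ‖g (s, z)‖ with hKb
    have hb1 : Integrable Kb := (h.integrable_gren q).integral_norm_prod_right
    have hb2 : Integrable (fun p : ℝ × (X × V) => Kb p.2) ((μt q).prod volume) := hb1.comp_snd _
    refine hb2.mono' hKm.aestronglyMeasurable ?_
    have hfin : ∀ᵐ p : ℝ × (X × V) ∂(μt q).prod volume, IntegrableOn (fun s => g (s, p.2)) (Ioc 0 q) :=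
      Measure.quasiMeasurePreserving_snd.ae (h.integrable_gren q).prod_left_ae
    have hmem : ∀ᵐ p : ℝ × (X × V) ∂(μt q).prod volume, p.1 ∈ Ioc 0 q :=
      Measure.quasiMeasurePreserving_fst.ae (ae_restrict_mem measurableSet_Ioc)
    filter_upwards [hfin, hmem] with p hp hm
    have e : K p = ∫ s in Ioc 0 p.1, g (s, p.2) := integral_indicator measurableSet_Ioc
    rw [e]
    refine (norm_integral_le_integral_norm _).trans ?_
    exact setIntegral_mono_set hp.norm (Eventually.of_forall fun s => norm_nonneg _)
      (Eventually.of_forall (Ioc_subset_Ioc_right hm.2))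
  have hDi : ∀ q : ℝ, Integrable D ((μt q).prod volume) := fun q =>
    ((h.integrable_wren q).sub (hw0.comp_snd _)).sub (hKi q)
  have hzero : ∀ q : ℝ, ∀ᵐ z, ∫ t in Ioc 0 q, D (t, z) = 0 := by
    intro q
    refine ae_zero_of_test (hDi q).integral_prod_right fun χ hχm hχ hsupp hb => ?_
    obtain ⟨C, hC⟩ := hb
    have hχD : Integrable (fun p : ℝ × (X × V) => χ p.2 * D p) ((μt q).prod volume) :=
      (hDi q).bdd_mul (c := C) ((hχm.comp measurable_snd).aestronglyMeasurable)
        (Eventually.of_forall fun p => (Real.norm_eq_abs _).trans_le (hC _))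
    simp only [← integral_const_mul]
    rw [← integral_integral_swap (f := fun t z => χ z * D (t, z)) hχD]
    refine integral_eq_zero_of_ae ?_
    have hi : ∀ {k : ℝ × (X × V) → ℝ}, Integrable k ((μt q).prod volume) →
        Integrable (fun p => χ p.2 * k p) ((μt q).prod volume) := fun hk =>
      hk.bdd_mul (c := C) ((hχm.comp measurable_snd).aestronglyMeasurable)
        (Eventually.of_forall fun p => (Real.norm_eq_abs _).trans_le (hC _))
    have hw0' : Integrable (fun z => χ z * wren F 0 z) :=
      hw0.bdd_mul (c := C) hχm.aestronglyMeasurable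
        (Eventually.of_forall fun p => (Real.norm_eq_abs _).trans_le (hC _))
    filter_upwards [ae_restrict_of_ae (h.weak_along hχm hχ hsupp ⟨C, hC⟩),
      ae_restrict_mem measurableSet_Ioc, (hi (h.integrable_wren q)).prod_right_ae,
      (hi (hKi q)).prod_right_ae] with t ht htq h1 h2
    have hswap : ∫ z, χ z * K (t, z) = ∫ s in (0 : ℝ)..t, ∫ z, χ z * gren F s (shift s z) := by
      have hsub : Ioc 0 t ⊆ Ioc 0 q := Ioc_subset_Ioc_right htq.2
      have hint : Integrable (fun p : ℝ × (X × V) => χ p.2 * g p) ((μt t).prod volume) :=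
        (h.integrable_gren t).bdd_mul (c := C) ((hχm.comp measurable_snd).aestronglyMeasurable)
          (Eventually.of_forall fun p => (Real.norm_eq_abs _).trans_le (hC _))
      rw [intervalIntegral.integral_of_le htq.1.le,
        integral_integral_swap (f := fun s z => χ z * gren F s (shift s z)) hint]
      refine integral_congr_ae (Eventually.of_forall fun z => ?_)
      simp only [hKeq t htq.1.le, intervalIntegral.integral_of_le htq.1.le, integral_const_mul, hgdef]
    change ∫ z, χ z * D (t, z) = 0
    simp only [hD, mul_sub]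
    rw [integral_sub, integral_sub h1 hw0', hswap, ht htq.1]
    rotate_left
    · exact h1.sub hw0'
    · exact h2
    ring
  have hall : ∀ᵐ z, ∀ q : ℚ, ∫ t in Ioc (0 : ℝ) q, D (t, z) = 0 := ae_all_iff.2 fun q => hzero q
  rcases le_or_gt T 0 with hT | hT
  · simp [μt, Ioc_eq_empty_of_le hT]
  filter_upwards [hall, (hDi (T + 1)).prod_left_ae] with z hz hzi
  have hii : IntervalIntegrable (fun t => D (t, z)) volume 0 (T + 1) :=
    (intervalIntegrable_iff_integrableOn_Ioc_of_le (by linarith)).2 hzi
  obtain ⟨hac, hder⟩ := primitive_facts (c := 0) (by linarith) hii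
  simp only [zero_add] at hac hder
  have hP : EqOn (fun t => ∫ s in (0 : ℝ)..t, D (s, z)) (fun _ => 0) (Ioo 0 (T + 1)) := by
    have hd : ∀ x ∈ Ioo (0 : ℝ) (T + 1), ∫ s in (0 : ℝ)..x, D (s, z) = 0 := by
      intro x hx
      have hcon : ContinuousWithinAt (fun t => ∫ s in (0 : ℝ)..t, D (s, z)) (Icc 0 (T + 1)) x :=
        (hac.continuousOn.mono (Icc_subset_uIcc)) x (Ioo_subset_Icc_self hx)
      have hca := hcon.continuousAt (Icc_mem_nhds hx.1 hx.2)
      by_contra hne
      obtain ⟨U, hU, hUo, hxU⟩ := mem_nhds_iff.1 (hca.eventually_ne hne)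
      obtain ⟨r, hr1, hr2⟩ := Rat.denseRange_cast.exists_mem_open (s := U ∩ Ioo 0 (T + 1))
        (hUo.inter isOpen_Ioo) ⟨x, hxU, hx⟩ |>.imp fun r hr => And.intro hr.1 hr.2
      exact hU hr1 (by rw [intervalIntegral.integral_of_le hr2.1.le]; exact hz r)
    exact fun x hx => hd x hx
  refine (ae_restrict_iff' measurableSet_Ioc).2 ?_
  filter_upwards [hder] with t ht htm
  have h1 := ht ⟨htm.1, by linarith [htm.2]⟩
  have h2 : HasDerivAt (fun t => ∫ s in (0 : ℝ)..t, D (s, z)) 0 t := by
    refine (hasDerivAt_const t (0 : ℝ)).congr_of_eventuallyEq ?_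
    filter_upwards [Ioo_mem_nhds htm.1 (show t < T + 1 by linarith [htm.2])] with u hu using hP hu
  have h3 : D (t, z) = 0 := h1.unique h2
  simp only [hD, hKeq t htm.1.le, hgdef] at h3
  linarith

/-- A renormalized solution is a mild solution. -/
lemma IsSolution.isMild (h : IsSolution F₀ F) (T : ℝ) : IsMild (F 0) F T := by
  rcases le_or_gt T 0 with hT | hT
  · refine ⟨h.measurable, h.nonneg, ?_, ?_, ?_⟩ <;> simp [μt, Ioc_eq_empty_of_le hT]
  have hgi := (h.integrable_gren T).prod_left_ae
  have hfin : ∀ (A : (X × V → ℝ) → X × V → ℝ≥0∞),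
      (Measurable fun p : ℝ × (X × V) => A (F p.1) p.2) →
      (∫⁻ t in Icc 0 T, ∫⁻ z, A (F t) z / ENNReal.ofReal (1 + F t z / maxw z.2) < ⊤) →
      ∀ᵐ z, ∫⁻ t in Ioc 0 T,
        A (F t) (shift t z) / ENNReal.ofReal (1 + F t (shift t z) / maxw z.2) < ⊤ := by
    intro A hA hlt
    set J : ℝ × (X × V) → ℝ≥0∞ := fun p =>
      A (F p.1) p.2 / ENNReal.ofReal (1 + F p.1 p.2 / maxw p.2.2) with hJdef
    have hJ : Measurable J := hA.div ((h.measurable.div (continuous_maxw.measurable.comp
      (measurable_snd.comp measurable_snd))).const_add 1).ennreal_ofReal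
    have hJs : Measurable fun p : ℝ × (X × V) => J (p.1, shift p.1 p.2) := hJ.comp measurable_along
    refine ae_lt_top (f := fun z => ∫⁻ t in Ioc 0 T, J (t, shift t z))
      hJs.lintegral_prod_left' (ne_of_lt ?_)
    rw [← lintegral_lintegral_swap (f := fun t z => J (t, shift t z)) hJs.aemeasurable]
    refine lt_of_le_of_lt ?_ hlt
    refine le_trans (le_of_eq (lintegral_congr fun t => ?_)) (lintegral_mono_set Ioc_subset_Icc_self)
    exact lintegral_shift t (hJ.comp measurable_prodMk_left)
  have main : ∀ᵐ z,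
      (∀ᵐ t ∂μt T, F t (shift t z) = F 0 z + ∫ s in (0 : ℝ)..t, collAt (F s) (shift s z)) ∧
      ∃ B : ℝ, ∀ᵐ t ∂μt T, 1 + F t (shift t z) / maxw z.2 ≤ B := by
    filter_upwards [h.renorm_mild T, hgi] with z hz hzi
    set M := maxw z.2 with hM
    have hMpos : 0 < M := maxw_pos _
    set c := wren F 0 z / M with hc
    set hh : ℝ → ℝ := fun s => gren F s (shift s z) / M with hhh
    have hhi : IntervalIntegrable hh volume 0 T :=
      (intervalIntegrable_iff_integrableOn_Ioc_of_le hT.le).2 (hzi.div_const M)
    set W : ℝ → ℝ := fun t => c + ∫ s in (0 : ℝ)..t, hh s with hW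
    have e1 : ∀ᵐ t ∂μt T, Real.exp (W t) = 1 + F t (shift t z) / M := by
      filter_upwards [hz] with t ht
      have : W t = wren F t (shift t z) / M := by
        simp only [hW, hc, hhh, intervalIntegral.integral_div, ht, add_div]
      rw [this, wren, shift_snd, ← hM, mul_div_cancel_left₀ _ hMpos.ne', Real.exp_log]
      have := h.nonneg t (shift t z)
      positivity
    have e0 : Real.exp c = 1 + F 0 z / M := by
      rw [hc, wren, ← hM, mul_div_cancel_left₀ _ hMpos.ne', Real.exp_log]
      have := h.nonneg 0 z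
      positivity
    constructor
    · filter_upwards [e1, ae_restrict_mem measurableSet_Ioc] with t ht htm
      have := exp_primitive (c := c) hhi t (Ioc_subset_Icc_self htm)
      change Real.exp (W t) = _ at this
      rw [ht, e0] at this
      have e2 : ∫ s in (0 : ℝ)..t, Real.exp (c + ∫ u in (0 : ℝ)..s, hh u) * hh s
          = (∫ s in (0 : ℝ)..t, collAt (F s) (shift s z)) / M := by
        rw [← intervalIntegral.integral_div]
        refine intervalIntegral.integral_congr_ae ?_
        have e1' := (ae_restrict_iff' measurableSet_Ioc).1 e1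
        filter_upwards [e1'] with s hs hmem
        rw [uIoc_of_le htm.1.le] at hmem
        change Real.exp (W s) * hh s = _
        have hs' := hs ⟨hmem.1, hmem.2.trans htm.2⟩
        have hpos : (0 : ℝ) < 1 + F s (shift s z) / M := by rw [← hs']; exact Real.exp_pos _
        simp only [hhh, gren, shift_snd, ← hM, hs']
        rw [← mul_div_assoc, mul_inv_cancel_left₀ hpos.ne']
      rw [e2] at this
      field_simp at this
      linarith
    · obtain ⟨B, hB⟩ := (isCompact_Icc.image_of_continuousOn
        ((primitive_facts (c := c) hT.le hhi).1.continuousOn.mono Icc_subset_uIcc)).bddAbove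
      refine ⟨Real.exp B, ?_⟩
      filter_upwards [e1, ae_restrict_mem measurableSet_Ioc] with t ht htm
      rw [← ht, Real.exp_le_exp]
      exact hB ⟨t, Ioc_subset_Icc_self htm, rfl⟩
  have lift : ∀ (A : (X × V → ℝ) → X × V → ℝ≥0∞),
      (∀ᵐ z, ∫⁻ t in Ioc 0 T,
        A (F t) (shift t z) / ENNReal.ofReal (1 + F t (shift t z) / maxw z.2) < ⊤) →
      ∀ᵐ z, ∫⁻ t in Ioc 0 T, A (F t) (shift t z) < ⊤ := by
    intro A hA
    filter_upwards [hA, main] with z hz hmz
    obtain ⟨B, hB⟩ := hmz.2
    refine lt_of_le_of_lt ?_ (ENNReal.mul_lt_top hz (ENNReal.ofReal_lt_top (r := B)))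
    rw [← lintegral_mul_const' _ _ ENNReal.ofReal_ne_top]
    refine lintegral_mono_ae ?_
    filter_upwards [hB] with t ht
    have hpos : 0 < 1 + F t (shift t z) / maxw z.2 := by
      have := h.nonneg t (shift t z); have := maxw_pos z.2; positivity
    calc A (F t) (shift t z)
        = A (F t) (shift t z) / ENNReal.ofReal (1 + F t (shift t z) / maxw z.2)
            * ENNReal.ofReal (1 + F t (shift t z) / maxw z.2) :=
          (ENNReal.div_mul_cancel (by simpa using hpos) ENNReal.ofReal_ne_top).symm
      _ ≤ _ := mul_le_mul_right (ENNReal.ofReal_le_ofReal ht) _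
  exact ⟨h.measurable, h.nonneg,
    lift gainAt (hfin gainAt (measurable_gainAt h.measurable) (h.gain_integrable T)),
    lift lossAt (hfin lossAt (measurable_lossAt h.measurable) (h.loss_integrable T)),
    main.mono fun z hz => hz.1⟩

end Sol

end Vale.Agent.P140
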