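import Mathlib
import Vale.Agent.P140.Mild

/-! Conservation laws for mild solutions with velocity decay. -/

noncomputable section

open MeasureTheory Set Filter
open scoped ENNReal Topology

namespace Vale.Agent.P140

attribute [local irreducible] gain2 loss2


/-- Velocity decay of a solution on `(0,T]`. -/
structure IsTame (F : ℝ → X × V → ℝ) (T a A : ℝ) : Prop where
  mom : ∀ᵐ p : ℝ × X ∂(μt T).prod volume, mom1 (fun v => F p.1 (p.2, v)) ≤ ENNReal.ofReal A
  exp : ∀ᵐ t ∂μt T, ∫⁻ z, ENNReal.ofReal (Real.exp (a * ‖z.2‖) * F t z) ≤ ENNReal.ofReal A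

lemma measurable_cum {h : ℝ → X × V → ℝ≥0∞} (hh : Measurable (Function.uncurry h)) :
    Measurable fun p : ℝ × (X × V) => ∫⁻ s in Ioc 0 p.1, h s p.2 := by
  have e : ∀ p : ℝ × (X × V), ∫⁻ s in Ioc 0 p.1, h s p.2
      = ∫⁻ s, (Ioc 0 p.1).indicator (fun s => h s p.2) s :=
    fun p => (lintegral_indicator measurableSet_Ioc _).symm
  simp only [e]
  have hm : Measurable fun q : (ℝ × (X × V)) × ℝ =>
      (Ioc 0 q.1.1).indicator (fun s => h s q.1.2) q.2 := by
    simp only [indicator_apply, mem_Ioc]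
    refine Measurable.ite ?_ (hh.comp (measurable_snd.prodMk
      (measurable_snd.comp measurable_fst))) measurable_const
    exact (measurableSet_lt measurable_const measurable_snd).inter
      (measurableSet_le measurable_snd (measurable_fst.comp measurable_fst))
  exact hm.lintegral_prod_right'

lemma exp_dominates {a : ℝ} (ha : 0 < a) {r : ℝ} (hr : 0 ≤ r) :
    (1 + r) ^ 3 ≤ (8 + 48 / a ^ 3) * Real.exp (a * r) := by
  have he : 1 ≤ Real.exp (a * r) := Real.one_le_exp (by positivity)
  have h3 := Real.pow_div_factorial_le_exp (a * r) (by positivity) 3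
  norm_num [Nat.factorial] at h3
  have hr3 : r ^ 3 ≤ 6 / a ^ 3 * Real.exp (a * r) := by
    rw [mul_pow, div_le_iff₀ (by norm_num : (0 : ℝ) < 6)] at h3
    rw [div_mul_eq_mul_div, le_div_iff₀ (pow_pos ha 3)]
    linarith
  have h8 : (1 + r) ^ 3 ≤ 8 * (1 + r ^ 3) := by
    nlinarith [mul_nonneg (sq_nonneg (r - 1)) (add_nonneg zero_le_one hr), pow_nonneg hr 3]
  calc (1 + r) ^ 3 ≤ 8 * (1 + r ^ 3) := h8
    _ ≤ 8 * Real.exp (a * r) + 48 / a ^ 3 * Real.exp (a * r) := by
        have e : 48 / a ^ 3 * Real.exp (a * r) = 8 * (6 / a ^ 3 * Real.exp (a * r)) := by ring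
        rw [e]; linarith
    _ = _ := by ring

lemma measurable_gainAt_slice {F : ℝ → X × V → ℝ} (hF : Measurable (Function.uncurry F)) (s : ℝ) :
    Measurable fun z => gainAt (F s) z := by
  have h2 := (measurable_gainAt hF).comp (measurable_prodMk_left (x := s) (β := X × V))
  simpa only [Function.comp_def] using h2

lemma measurable_lossAt_slice {F : ℝ → X × V → ℝ} (hF : Measurable (Function.uncurry F)) (s : ℝ) :
    Measurable fun z => lossAt (F s) z := by
  have h2 := (measurable_lossAt hF).comp (measurable_prodMk_left (x := s) (β := X × V))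
  simpa only [Function.comp_def] using h2

/-- A collision invariant bounded by `(1+|v|)²` is conserved. -/
lemma IsMild.conserve {F₀ : X × V → ℝ} {F : ℝ → X × V → ℝ} {T a A : ℝ} (h : IsMild F₀ F T)
    (hb : IsTame F T a A) (ha : 0 < a) (hF₀m : Measurable F₀) (hF₀ : ∀ z, 0 ≤ F₀ z)
    {φ : V → ℝ} (hφm : Measurable φ) (hφ0 : ∀ v, 0 ≤ φ v) (hφ : ∀ v, φ v ≤ (1 + ‖v‖) ^ 2)
    (hinv : ∀ v w o, φ (vpost v w o) + φ (wpost v w o) = φ v + φ w) :
    ∀ᵐ t ∂μt T, ∫⁻ z, ENNReal.ofReal (φ z.2 * F t z) = ∫⁻ z, ENNReal.ofReal (φ z.2 * F₀ z) := by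
  obtain ⟨g, hgd⟩ : ∃ g : ℝ → X × V → ℝ≥0∞, ∀ t z, gainAt (F t) (shift t z) = g t z :=
    ⟨_, fun _ _ => rfl⟩
  obtain ⟨l, hld⟩ : ∃ l : ℝ → X × V → ℝ≥0∞, ∀ t z, lossAt (F t) (shift t z) = l t z :=
    ⟨_, fun _ _ => rfl⟩
  have hgm : Measurable (Function.uncurry g) := by
    have h2 := (measurable_gainAt h.measurable).comp measurable_along
    simpa only [Function.comp_def, hgd, Function.uncurry_def] using h2
  have hlm : Measurable (Function.uncurry l) := by
    have h2 := (measurable_lossAt h.measurable).comp measurable_along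
    simpa only [Function.comp_def, hld, Function.uncurry_def] using h2
  have hFs : Measurable fun p : ℝ × (X × V) => F p.1 (shift p.1 p.2) :=
    h.measurable.comp measurable_along
  have eq1 : ∀ᵐ z, ∀ᵐ t ∂μt T, ENNReal.ofReal (F t (shift t z)) + ∫⁻ s in Ioc 0 t, l s z
      = ENNReal.ofReal (F₀ z) + ∫⁻ s in Ioc 0 t, g s z := by
    filter_upwards [h.eq, h.gain_fin, h.loss_fin] with z hz hgf hlf
    simp only [hgd] at hgf
    simp only [hld] at hlf
    filter_upwards [hz, ae_restrict_mem measurableSet_Ioc] with t ht htm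
    have hsub : Ioc 0 t ⊆ Ioc 0 T := Ioc_subset_Ioc_right htm.2
    have hgm' : Measurable fun s => g s z := hgm.comp measurable_prodMk_right
    have hlm' : Measurable fun s => l s z := hlm.comp measurable_prodMk_right
    have hgt : ∫⁻ s in Ioc 0 t, g s z ≠ ⊤ := ((lintegral_mono_set hsub).trans_lt hgf).ne
    have hlt : ∫⁻ s in Ioc 0 t, l s z ≠ ⊤ := ((lintegral_mono_set hsub).trans_lt hlf).ne
    have e : F t (shift t z) = F₀ z + ((∫⁻ s in Ioc 0 t, g s z).toReal
        - (∫⁻ s in Ioc 0 t, l s z).toReal) := by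
      rw [ht, intervalIntegral.integral_of_le htm.1.le]
      simp only [collAt, hgd, hld]
      rw [integral_sub (integrable_toReal_of_lintegral_ne_top hgm'.aemeasurable hgt)
        (integrable_toReal_of_lintegral_ne_top hlm'.aemeasurable hlt),
        integral_toReal hgm'.aemeasurable (ae_lt_top hgm' hgt),
        integral_toReal hlm'.aemeasurable (ae_lt_top hlm' hlt)]
    rw [← ENNReal.ofReal_toReal hlt, ← ENNReal.ofReal_toReal hgt,
      ← ENNReal.ofReal_add (h.nonneg _ _) ENNReal.toReal_nonneg,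
      ← ENNReal.ofReal_add (hF₀ z) ENNReal.toReal_nonneg]
    congr 1; linarith
  have eq2 : ∀ᵐ t ∂μt T, ∀ᵐ z, ENNReal.ofReal (F t (shift t z)) + ∫⁻ s in Ioc 0 t, l s z
      = ENNReal.ofReal (F₀ z) + ∫⁻ s in Ioc 0 t, g s z := by
    refine (Measure.ae_ae_comm (p := fun t z => ENNReal.ofReal (F t (shift t z))
      + ∫⁻ s in Ioc 0 t, l s z = ENNReal.ofReal (F₀ z) + ∫⁻ s in Ioc 0 t, g s z) ?_).2 eq1
    exact measurableSet_eq_fun (hFs.ennreal_ofReal.add (measurable_cum hlm))
      ((hF₀m.comp measurable_snd).ennreal_ofReal.add (measurable_cum hgm))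
  have hw : Measurable fun z : X × V => ENNReal.ofReal (φ z.2) :=
    (hφm.comp measurable_snd).ennreal_ofReal
  have hGe : ∀ s, ∫⁻ z, ENNReal.ofReal (φ z.2) * g s z = ∫⁻ z, ENNReal.ofReal (φ z.2) * l s z := by
    intro s
    have mg : Measurable fun z => ENNReal.ofReal (φ z.2) * gainAt (F s) z :=
      hw.mul (measurable_gainAt_slice h.measurable s)
    have ml : Measurable fun z => ENNReal.ofReal (φ z.2) * lossAt (F s) z :=
      hw.mul (measurable_lossAt_slice h.measurable s)
    calc ∫⁻ z, ENNReal.ofReal (φ z.2) * g s z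
        = ∫⁻ z, ENNReal.ofReal (φ z.2) * gainAt (F s) z := by
          have h2 := lintegral_shift s mg; simpa only [shift_snd, hgd] using h2
      _ = ∫⁻ x : X, ∫⁻ v : V, ENNReal.ofReal (φ v) * gain (fun u => F s (x, u)) v :=
          lintegral_prod _ mg.aemeasurable
      _ = ∫⁻ x : X, ∫⁻ v : V, ENNReal.ofReal (φ v) * loss (fun u => F s (x, u)) v := by
          refine lintegral_congr fun x => lintegral_invariant_gain
            (h.measurable.comp (by fun_prop : Measurable fun u : V => (s, (x, u))))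
            hφm.ennreal_ofReal fun v w o => ?_
          rw [← ENNReal.ofReal_add (hφ0 _) (hφ0 _), ← ENNReal.ofReal_add (hφ0 _) (hφ0 _), hinv]
      _ = ∫⁻ z, ENNReal.ofReal (φ z.2) * lossAt (F s) z := (lintegral_prod _ ml.aemeasurable).symm
      _ = _ := by have h2 := (lintegral_shift s ml).symm; simpa only [shift_snd, hld] using h2
  have hLb : ∀ᵐ s ∂μt T, ∫⁻ z, ENNReal.ofReal (φ z.2) * l s z
      ≤ ENNReal.ofReal (8 + 48 / a ^ 3) * ENNReal.ofReal A * (ENNReal.ofReal A * sig univ) := by
    filter_upwards [hb.exp, Measure.ae_ae_of_ae_prod hb.mom] with s he hx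
    have ml : Measurable fun z => ENNReal.ofReal (φ z.2) * lossAt (F s) z :=
      hw.mul (measurable_lossAt_slice h.measurable s)
    have hFm : Measurable (F s) := h.measurable.comp measurable_prodMk_left
    rw [show ∫⁻ z, ENNReal.ofReal (φ z.2) * l s z = ∫⁻ z, ENNReal.ofReal (φ z.2) * lossAt (F s) z
      from by have h2 := lintegral_shift s ml; simpa only [shift_snd, hld] using h2]
    have hxa : ∀ᵐ z : X × V, mom1 (fun u => F s (z.1, u)) ≤ ENNReal.ofReal A :=
      Measure.quasiMeasurePreserving_fst.ae hx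
    have hm3 : Measurable fun z : X × V => ENNReal.ofReal (Real.exp (a * ‖z.2‖) * F s z) := by fun_prop
    calc ∫⁻ z, ENNReal.ofReal (φ z.2) * lossAt (F s) z
        ≤ ∫⁻ z, ENNReal.ofReal (8 + 48 / a ^ 3) *
            ENNReal.ofReal (Real.exp (a * ‖z.2‖) * F s z) * (ENNReal.ofReal A * sig univ) := by
          refine lintegral_mono_ae ?_
          filter_upwards [hxa] with z hz
          calc ENNReal.ofReal (φ z.2) * lossAt (F s) z
              ≤ ENNReal.ofReal (φ z.2) * (ENNReal.ofReal (F s z * (1 + ‖z.2‖))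
                  * mom1 (fun u => F s (z.1, u)) * sig univ) := by
                gcongr
                have h2 := loss2_le (f := fun u => F s (z.1, u)) (g := fun u => F s (z.1, u))
                  (fun u => h.nonneg s (z.1, u)) (by fun_prop) (fun u => h.nonneg s (z.1, u)) z.2
                simpa only [lossAt, loss_eq] using h2
            _ ≤ ENNReal.ofReal (φ z.2) * (ENNReal.ofReal (F s z * (1 + ‖z.2‖))
                  * ENNReal.ofReal A * sig univ) := by gcongr
            _ ≤ _ := by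
                simp only [← mul_assoc]
                gcongr ?_ * _ * _
                rw [← ENNReal.ofReal_mul (hφ0 _), ← ENNReal.ofReal_mul (by positivity)]
                refine ENNReal.ofReal_le_ofReal ?_
                have hF := h.nonneg s z
                calc φ z.2 * (F s z * (1 + ‖z.2‖))
                    ≤ (1 + ‖z.2‖) ^ 2 * (F s z * (1 + ‖z.2‖)) :=
                      mul_le_mul_of_nonneg_right (hφ _) (by positivity)
                  _ = (1 + ‖z.2‖) ^ 3 * F s z := by ring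
                  _ ≤ (8 + 48 / a ^ 3) * Real.exp (a * ‖z.2‖) * F s z :=
                      mul_le_mul_of_nonneg_right (exp_dominates ha (norm_nonneg _)) hF
                  _ = _ := by ring
      _ = ENNReal.ofReal (8 + 48 / a ^ 3) * (∫⁻ z, ENNReal.ofReal (Real.exp (a * ‖z.2‖) * F s z))
            * (ENNReal.ofReal A * sig univ) := by
          rw [lintegral_mul_const _ (hm3.const_mul _), lintegral_const_mul _ hm3]
      _ ≤ _ := by gcongr
  filter_upwards [eq2, ae_restrict_mem measurableSet_Ioc] with t ht htm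
  have hwm : Measurable fun p : ℝ × (X × V) => ENNReal.ofReal (φ p.2.2) := hw.comp measurable_snd
  have swap : ∀ k : ℝ → X × V → ℝ≥0∞, Measurable (Function.uncurry k) →
      ∫⁻ z, ENNReal.ofReal (φ z.2) * ∫⁻ s in Ioc 0 t, k s z
        = ∫⁻ s in Ioc 0 t, ∫⁻ z, ENNReal.ofReal (φ z.2) * k s z := by
    intro k hk
    rw [lintegral_lintegral_swap (f := fun s z => ENNReal.ofReal (φ z.2) * k s z)
      (hwm.mul hk).aemeasurable]
    refine lintegral_congr fun z => ?_
    exact (lintegral_const_mul _ (hk.comp measurable_prodMk_right)).symm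
  have hfin : ∫⁻ z, ENNReal.ofReal (φ z.2) * ∫⁻ s in Ioc 0 t, l s z ≠ ⊤ := by
    rw [swap l hlm]
    refine ne_top_of_le_ne_top ?_ ((lintegral_mono_set (Ioc_subset_Ioc_right htm.2)).trans
      (lintegral_mono_ae hLb))
    rw [lintegral_const, Measure.restrict_apply_univ]
    exact ENNReal.mul_ne_top (ENNReal.mul_ne_top (ENNReal.mul_ne_top ENNReal.ofReal_ne_top
      ENNReal.ofReal_ne_top) (ENNReal.mul_ne_top ENNReal.ofReal_ne_top (measure_ne_top _ _)))
      measure_Ioc_lt_top.ne
  have key : (∫⁻ z, ENNReal.ofReal (φ z.2) * ENNReal.ofReal (F t (shift t z)))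
      + ∫⁻ z, ENNReal.ofReal (φ z.2) * ∫⁻ s in Ioc 0 t, l s z
      = (∫⁻ z, ENNReal.ofReal (φ z.2) * ENNReal.ofReal (F₀ z))
      + ∫⁻ z, ENNReal.ofReal (φ z.2) * ∫⁻ s in Ioc 0 t, g s z := by
    have m1 : Measurable fun z => ENNReal.ofReal (φ z.2) * ENNReal.ofReal (F t (shift t z)) :=
      hw.mul (hFs.comp measurable_prodMk_left).ennreal_ofReal
    have m2 : Measurable fun z => ENNReal.ofReal (φ z.2) * ENNReal.ofReal (F₀ z) :=
      hw.mul hF₀m.ennreal_ofReal
    rw [← lintegral_add_left m1, ← lintegral_add_left m2]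
    refine lintegral_congr_ae ?_
    filter_upwards [ht] with z hz
    rw [← mul_add, ← mul_add, hz]
  have hgl : ∫⁻ z, ENNReal.ofReal (φ z.2) * ∫⁻ s in Ioc 0 t, g s z
      = ∫⁻ z, ENNReal.ofReal (φ z.2) * ∫⁻ s in Ioc 0 t, l s z := by
    rw [swap g hgm, swap l hlm]
    exact lintegral_congr fun s => hGe s
  rw [hgl] at key
  have := (ENNReal.add_left_inj hfin).1 key
  have hms : Measurable fun z => ENNReal.ofReal (φ z.2) * ENNReal.ofReal (F t z) :=
    hw.mul (h.measurable.comp measurable_prodMk_left).ennreal_ofReal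
  rw [show ∫⁻ z, ENNReal.ofReal (φ z.2) * ENNReal.ofReal (F t (shift t z))
    = ∫⁻ z, ENNReal.ofReal (φ z.2) * ENNReal.ofReal (F t z) from lintegral_shift t hms] at this
  simpa only [← ENNReal.ofReal_mul (hφ0 _)] using this

end Vale.Agent.P140
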