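import Mathlib

/-! A Gronwall lemma of Osgood type with an exponentially small error. -/

noncomputable section

open MeasureTheory Set Filter
open scoped ENNReal Topology

namespace Vale.Agent.P140

/-- One step. -/
lemma gronwall_step {y Φ : ℝ → ℝ≥0∞} {T t₀ τ A K E : ℝ} (ht₀ : 0 ≤ t₀) (hτ : 0 ≤ τ) (hA : 0 ≤ A)
    (hK : 0 < K) (hE : 0 ≤ E) (hy : ∀ᵐ t, t ∈ Ioc 0 T → y t ≤ ENNReal.ofReal A)
    (hzero : ∀ᵐ t, t ∈ Ioc 0 T → y t = 0 → Φ t = 0)
    (hΦ : ∀ᵐ t, t ∈ Ioc 0 T → Φ t ≤ ENNReal.ofReal K * y t + ENNReal.ofReal E)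
    (hmain : ∀ᵐ t, t ∈ Ioc 0 T → y t ≤ ∫⁻ s in Ioc 0 t, Φ s)
    (hprev : ∀ᵐ t, t ∈ Ioc 0 T → t ≤ t₀ → y t = 0) :
    ∀ᵐ t, t ∈ Ioc 0 T → t ≤ t₀ + τ → y t ≤ ENNReal.ofReal (2 * (τ * E) * Real.exp (2 * K * τ)) := by
  set G : Set ℝ := {t | (t ∈ Ioc 0 T → y t ≤ ENNReal.ofReal A) ∧
    (t ∈ Ioc 0 T → y t = 0 → Φ t = 0) ∧
    (t ∈ Ioc 0 T → Φ t ≤ ENNReal.ofReal K * y t + ENNReal.ofReal E) ∧
    (t ∈ Ioc 0 T → y t ≤ ∫⁻ s in Ioc 0 t, Φ s) ∧ (t ∈ Ioc 0 T → t ≤ t₀ → y t = 0)} with hG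
  have hGae : ∀ᵐ t, t ∈ G := by
    filter_upwards [hy, hzero, hΦ, hmain, hprev] with t a b c d e using ⟨a, b, c, d, e⟩
  set S : Set ℝ := G ∩ Ioc 0 T ∩ Ioc t₀ (t₀ + τ) with hS
  set f : ℝ → ℝ := fun t => (y t).toReal * Real.exp (-(2 * K * (t - t₀))) with hf
  set N : ℝ := sSup (insert 0 (f '' S)) with hN
  have hbdd : BddAbove (insert 0 (f '' S)) := by
    refine ⟨A, ?_⟩
    rintro r (rfl | ⟨t, ⟨⟨hg, htT⟩, htI⟩, rfl⟩)
    · exact hA
    · have h1 : (y t).toReal ≤ A := ENNReal.toReal_le_of_le_ofReal hA (hg.1 htT)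
      have h2 : Real.exp (-(2 * K * (t - t₀))) ≤ 1 :=
        Real.exp_le_one_iff.2 (by nlinarith [htI.1, mul_nonneg hK.le (sub_nonneg.2 htI.1.le)])
      calc (y t).toReal * Real.exp (-(2 * K * (t - t₀))) ≤ A * 1 :=
            mul_le_mul h1 h2 (Real.exp_pos _).le hA
        _ = A := mul_one A
  have hN0 : 0 ≤ N := le_csSup hbdd (mem_insert _ _)
  have hyle : ∀ s ∈ S, y s ≤ ENNReal.ofReal (N * Real.exp (2 * K * (s - t₀))) := by
    intro s hs
    have h1 : f s ≤ N := le_csSup hbdd (mem_insert_of_mem _ ⟨s, hs, rfl⟩)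
    have h2 : (y s).toReal ≤ N * Real.exp (2 * K * (s - t₀)) := by
      have h3 := mul_le_mul_of_nonneg_right h1 (Real.exp_pos (2 * K * (s - t₀))).le
      simpa [hf, mul_assoc, ← Real.exp_add] using h3
    calc y s = ENNReal.ofReal (y s).toReal := (ENNReal.ofReal_toReal
          (ne_top_of_le_ne_top ENNReal.ofReal_ne_top (hs.1.1.1 hs.1.2))).symm
      _ ≤ _ := ENNReal.ofReal_le_ofReal h2
  have hbound : ∀ t ∈ S, f t ≤ N / 2 + τ * E := by
    intro t ht
    obtain ⟨⟨hg, htT⟩, htI⟩ := ht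
    set g : ℝ → ℝ := fun s => K * (N * Real.exp (2 * K * (s - t₀))) + E with hg'
    have hgc : Continuous g := by fun_prop
    have hgnn : ∀ s, 0 ≤ g s := fun s => by positivity
    have key : ∫⁻ s in Ioc 0 t, Φ s ≤ ∫⁻ s in Ioc t₀ t, ENNReal.ofReal (g s) := by
      rw [← lintegral_indicator measurableSet_Ioc, ← lintegral_indicator measurableSet_Ioc]
      refine lintegral_mono_ae ?_
      filter_upwards [hGae] with s hs
      by_cases hs0 : s ∈ Ioc 0 t
      · rw [indicator_of_mem hs0]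
        have hsT : s ∈ Ioc 0 T := ⟨hs0.1, hs0.2.trans htT.2⟩
        rcases le_or_gt s t₀ with h | h
        · rw [hs.2.1 hsT (hs.2.2.2.2 hsT h)]; exact bot_le
        · rw [indicator_of_mem (show s ∈ Ioc t₀ t from ⟨h, hs0.2⟩)]
          have hsS : s ∈ S := ⟨⟨hs, hsT⟩, h, hs0.2.trans htI.2⟩
          calc Φ s ≤ ENNReal.ofReal K * y s + ENNReal.ofReal E := hs.2.2.1 hsT
            _ ≤ ENNReal.ofReal K * ENNReal.ofReal (N * Real.exp (2 * K * (s - t₀)))
                + ENNReal.ofReal E := by gcongr; exact hyle s hsS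
            _ = ENNReal.ofReal (g s) := by
                rw [← ENNReal.ofReal_mul hK.le, ← ENNReal.ofReal_add (by positivity) hE]
      · rw [indicator_of_notMem hs0]; exact bot_le
    rw [← ofReal_integral_eq_lintegral_ofReal (hgc.integrableOn_Ioc)
      (Eventually.of_forall hgnn), ← intervalIntegral.integral_of_le htI.1.le] at key
    have hd : ∀ s : ℝ, HasDerivAt (fun u => N / 2 * Real.exp (2 * K * (u - t₀)) + E * u) (g s) s := by
      intro s
      have h1 : HasDerivAt (fun u => 2 * K * (u - t₀)) (2 * K) s := by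
        simpa using ((hasDerivAt_id s).sub_const t₀).const_mul (2 * K)
      have h2 : HasDerivAt (fun u : ℝ => E * u) E s := by
        simpa using (hasDerivAt_id s).const_mul E
      exact ((h1.exp.const_mul (N / 2)).add h2).congr_deriv (by simp only [hg']; ring)
    rw [intervalIntegral.integral_eq_sub_of_hasDerivAt (fun s _ => hd s)
      (hgc.intervalIntegrable _ _)] at key
    simp only [sub_self, mul_zero, Real.exp_zero, mul_one] at key
    set x := Real.exp (2 * K * (t - t₀)) with hx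
    have hx1 : 1 ≤ x := Real.one_le_exp (by nlinarith [mul_nonneg hK.le (sub_nonneg.2 htI.1.le)])
    have h3 : (y t).toReal ≤ N / 2 * x + τ * E := by
      refine ENNReal.toReal_le_of_le_ofReal (by positivity) ((hg.2.2.2.1 htT).trans (key.trans ?_))
      refine ENNReal.ofReal_le_ofReal ?_
      nlinarith [mul_le_mul_of_nonneg_right (show t - t₀ ≤ τ by linarith [htI.2]) hE]
    have hinv : Real.exp (-(2 * K * (t - t₀))) = x⁻¹ := Real.exp_neg _
    have hxinv : x⁻¹ ≤ 1 := inv_le_one_of_one_le₀ hx1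
    calc f t = (y t).toReal * x⁻¹ := by simp only [hf, hinv]
      _ ≤ (N / 2 * x + τ * E) * x⁻¹ := mul_le_mul_of_nonneg_right h3 (inv_nonneg.2 (Real.exp_pos _).le)
      _ = N / 2 + τ * E * x⁻¹ := by field_simp
      _ ≤ N / 2 + τ * E := by nlinarith [mul_nonneg hτ hE]
  have hNle : N ≤ 2 * (τ * E) := by
    have : N ≤ N / 2 + τ * E := by
      refine csSup_le (insert_nonempty _ _) ?_
      rintro r (rfl | ⟨t, ht, rfl⟩)
      · positivity
      · exact hbound t ht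
    linarith
  filter_upwards [hGae] with t ht htT htl
  rcases le_or_gt t t₀ with h | h
  · rw [ht.2.2.2.2 htT h]; exact bot_le
  · refine (hyle t ⟨⟨ht, htT⟩, h, htl⟩).trans (ENNReal.ofReal_le_ofReal ?_)
    refine mul_le_mul hNle (Real.exp_le_exp.2 ?_) (Real.exp_pos _).le (by positivity)
    nlinarith

/-- Uniqueness from `y ≤ ∫ Φ`, `Φ ≤ κ R y + κ' e^{-aR}` for all large `R`. -/
lemma gronwall_zero {y Φ : ℝ → ℝ≥0∞} {T A κ κ' a : ℝ} (hA : 0 ≤ A)
    (hκ : 0 < κ) (hκ' : 0 ≤ κ') (ha : 0 < a) (hy : ∀ᵐ t, t ∈ Ioc 0 T → y t ≤ ENNReal.ofReal A)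
    (hzero : ∀ᵐ t, t ∈ Ioc 0 T → y t = 0 → Φ t = 0)
    (hΦ : ∀ R : ℕ, 1 ≤ R → ∀ᵐ t, t ∈ Ioc 0 T →
      Φ t ≤ ENNReal.ofReal (κ * R) * y t + ENNReal.ofReal (κ' * Real.exp (-a * R)))
    (hmain : ∀ᵐ t, t ∈ Ioc 0 T → y t ≤ ∫⁻ s in Ioc 0 t, Φ s) :
    ∀ᵐ t, t ∈ Ioc 0 T → y t = 0 := by
  set τ := a / (4 * κ) with hτ
  have hτpos : 0 < τ := by positivity
  have step : ∀ n : ℕ, ∀ᵐ t, t ∈ Ioc 0 T → t ≤ n * τ → y t = 0 := by
    intro n
    induction n with
    | zero => exact Eventually.of_forall fun t ht hle => absurd ht.1 (by simpa using hle)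
    | succ n ih =>
      have hR : ∀ R : ℕ, ∀ᵐ t, t ∈ Ioc 0 T → t ≤ n * τ + τ →
          y t ≤ ENNReal.ofReal (2 * (τ * κ') * Real.exp (-(a / 2) * (R + 1 : ℕ))) := by
        intro R
        have := gronwall_step (t₀ := n * τ) (τ := τ) (K := κ * (R + 1 : ℕ))
          (E := κ' * Real.exp (-a * (R + 1 : ℕ))) (by positivity) hτpos.le hA (by positivity)
          (by positivity) hy hzero (hΦ _ (Nat.le_add_left 1 R)) hmain ih
        filter_upwards [this] with t ht h1 h2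
        refine (ht h1 h2).trans_eq (congrArg ENNReal.ofReal ?_)
        rw [mul_assoc 2 _ (Real.exp (2 * _ * τ)), mul_assoc τ, mul_assoc κ', ← Real.exp_add]
        have e : -a * ((R + 1 : ℕ) : ℝ) + 2 * (κ * ((R + 1 : ℕ) : ℝ)) * τ
            = -(a / 2) * ((R + 1 : ℕ) : ℝ) := by rw [hτ]; field_simp; ring
        rw [e]; ring
      filter_upwards [ae_all_iff.2 hR] with t ht h1 h2
      push_cast at h2
      have hlim : Tendsto (fun R : ℕ => ENNReal.ofReal (2 * (τ * κ') *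
          Real.exp (-(a / 2) * (R + 1 : ℕ)))) atTop (𝓝 0) := by
        rw [← ENNReal.ofReal_zero]
        refine ENNReal.tendsto_ofReal ?_
        rw [← mul_zero (2 * (τ * κ'))]
        refine Tendsto.const_mul _ (Real.tendsto_exp_atBot.comp ?_)
        exact (tendsto_natCast_atTop_atTop.comp (tendsto_add_atTop_nat 1)).const_mul_atTop_of_neg
          (by linarith)
      exact le_antisymm (ge_of_tendsto' hlim fun R => ht R h1 (by linarith)) bot_le
  obtain ⟨n, hn⟩ := exists_nat_ge (T / τ)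
  filter_upwards [step n] with t ht h1
  refine ht h1 (h1.2.trans ?_)
  rw [div_le_iff₀ hτpos] at hn
  exact hn

end Vale.Agent.P140
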