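import Mathlib
import Vale.Agent.P140.Mild
import Vale.Agent.P140.Conserve
import Vale.Agent.P140.Gronwall

/-! Weak-strong uniqueness: negative part of the difference, mass and energy. -/

noncomputable section

open MeasureTheory Set Filter
open scoped ENNReal Topology

namespace Vale.Agent.P140

attribute [local irreducible] gain2 loss2

/-- Gain part of the bound for the positive part of `G - F`. -/
def srcA (G F : X × V → ℝ) (z : X × V) : ℝ≥0∞ :=
  gain2 (fun u => max (G (z.1, u) - F (z.1, u)) 0) (fun u => F (z.1, u)) z.2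
    + gain2 (fun u => G (z.1, u)) (fun u => |G (z.1, u) - F (z.1, u)|) z.2
    + loss2 (fun u => G (z.1, u)) (fun u => |G (z.1, u) - F (z.1, u)|) z.2

/-- Loss part of the bound for the positive part of `G - F`. -/
def srcB (G F : X × V → ℝ) (z : X × V) : ℝ≥0∞ :=
  loss2 (fun u => max (G (z.1, u) - F (z.1, u)) 0) (fun u => F (z.1, u)) z.2

lemma src_bound {G F : X × V → ℝ} (hGm : Measurable G) (hFm : Measurable F) (hG : ∀ z, 0 ≤ G z)
    (hF : ∀ z, 0 ≤ F z) (z : X × V) (hlt : F z < G z) (h1 : gainAt F z ≠ ⊤) (h2 : lossAt G z ≠ ⊤)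
    (hA : srcA G F z ≠ ⊤) :
    collAt G z - collAt F z ≤ (srcA G F z).toReal - (srcB G F z).toReal := by
  have hg := gain_diff (f := fun u => G (z.1, u)) (g := fun u => F (z.1, u))
    (by fun_prop) (by fun_prop) (fun u => hG _) (fun u => hF _) z.2
  have hl := loss_diff (f := fun u => G (z.1, u)) (g := fun u => F (z.1, u))
    (by fun_prop) (by fun_prop) (fun u => hG _) (fun u => hF _) z.2 hlt.le
  simp only [srcA, ne_eq, ENNReal.add_eq_top, not_or] at hA
  obtain ⟨⟨a1, a2⟩, a3⟩ := hA
  simp only [collAt, srcA, srcB, gainAt, lossAt] at *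
  rw [ENNReal.toReal_add (ENNReal.add_ne_top.2 ⟨a1, a2⟩) a3, ENNReal.toReal_add a1 a2]
  have hg' := ENNReal.toReal_mono (ENNReal.add_ne_top.2 ⟨ENNReal.add_ne_top.2 ⟨h1, a1⟩, a2⟩) hg
  rw [ENNReal.toReal_add (ENNReal.add_ne_top.2 ⟨h1, a1⟩) a2, ENNReal.toReal_add h1 a1] at hg'
  have hfin := ne_top_of_le_ne_top (ENNReal.add_ne_top.2 ⟨h2, a3⟩) hl
  rw [ENNReal.add_ne_top] at hfin
  have hl' := ENNReal.toReal_mono (ENNReal.add_ne_top.2 ⟨h2, a3⟩) hl
  rw [ENNReal.toReal_add h2 a3, ENNReal.toReal_add hfin.1 hfin.2] at hl'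
  linarith

lemma measurable_src {G F : ℝ → X × V → ℝ} (hG : Measurable (Function.uncurry G))
    (hF : Measurable (Function.uncurry F)) :
    Measurable (fun p : ℝ × (X × V) => srcA (G p.1) (F p.1) p.2) ∧
      Measurable (fun p : ℝ × (X × V) => srcB (G p.1) (F p.1) p.2) := by
  have hg := measurable_slices hG
  have hf := measurable_slices hF
  have hm : Measurable (Function.uncurry fun (q : ℝ × X) (u : V) =>
      max (G q.1 (q.2, u) - F q.1 (q.2, u)) 0) := (hg.sub hf).max measurable_const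
  have ha : Measurable (Function.uncurry fun (q : ℝ × X) (u : V) =>
      |G q.1 (q.2, u) - F q.1 (q.2, u)|) := continuous_abs.measurable.comp (hg.sub hf)
  have hp : Measurable fun p : ℝ × (X × V) => ((p.1, p.2.1), p.2.2) := by fun_prop
  have m1 := (measurable_gain2 (g := fun (q : ℝ × X) (u : V) => F q.1 (q.2, u)) hm hf).comp hp
  have m2 := (measurable_gain2 (f := fun (q : ℝ × X) (u : V) => G q.1 (q.2, u)) hg ha).comp hp
  have m3 := (measurable_loss2 (f := fun (q : ℝ × X) (u : V) => G q.1 (q.2, u)) hg ha).comp hp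
  have m4 := (measurable_loss2 (g := fun (q : ℝ × X) (u : V) => F q.1 (q.2, u)) hm hf).comp hp
  simp only [Function.comp_def] at m1 m2 m3 m4
  constructor
  · simp only [srcA]; exact (m1.add m2).add m3
  · simp only [srcB]; exact m4

/-- Weighted `L¹` size of the difference. -/
def absMom (G F : X × V → ℝ) : ℝ≥0∞ := ∫⁻ z, ENNReal.ofReal (|G z - F z| * (1 + ‖z.2‖))

/-- `L¹` size of the positive part of the difference. -/
def posMass (G F : X × V → ℝ) : ℝ≥0∞ := ∫⁻ z, ENNReal.ofReal (G z - F z)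

lemma src_integrals {G F : X × V → ℝ} {A : ℝ} (hGm : Measurable G) (hFm : Measurable F)
    (hG : ∀ z, 0 ≤ G z) (hF : ∀ z, 0 ≤ F z)
    (hA : ∀ᵐ x : X, mom1 (fun u => G (x, u)) ≤ ENNReal.ofReal A)
    (hsA : Measurable (srcA G F)) (hsB : Measurable (srcB G F)) :
    (∫⁻ z, srcB G F z ≤ ENNReal.ofReal A * sig univ *
        ∫⁻ z, ENNReal.ofReal (F z * (1 + ‖z.2‖))) ∧
      ∫⁻ z, srcA G F z ≤ (∫⁻ z, srcB G F z) + 2 * ENNReal.ofReal A * sig univ * absMom G F := by
  set K : X → V → ℝ := fun x u => max (G (x, u) - F (x, u)) 0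
  set L : X → V → ℝ := fun x u => |G (x, u) - F (x, u)|
  have hKm : ∀ x, Measurable (K x) := fun x => by fun_prop
  have hLm : ∀ x, Measurable (L x) := fun x => by fun_prop
  have hGx : ∀ x, Measurable fun u => G (x, u) := fun x => by fun_prop
  have hFx : ∀ x, Measurable fun u => F (x, u) := fun x => by fun_prop
  have mF : Measurable fun z : X × V => ENNReal.ofReal (F z * (1 + ‖z.2‖)) := by fun_prop
  have mA : Measurable fun z : X × V => ENNReal.ofReal (|G z - F z| * (1 + ‖z.2‖)) := by fun_prop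
  have hB : ∫⁻ z, srcB G F z = ∫⁻ x : X, ∫⁻ v, loss2 (K x) (fun u => F (x, u)) v :=
    lintegral_prod _ hsB.aemeasurable
  have hP : ∫⁻ x : X, ∫⁻ v, loss2 (fun u => G (x, u)) (L x) v
      ≤ ENNReal.ofReal A * sig univ * absMom G F := by
    have e : absMom G F = ∫⁻ x : X, mom1 (L x) := lintegral_prod _ mA.aemeasurable
    rw [e, ← lintegral_const_mul' _ _ (ENNReal.mul_ne_top ENNReal.ofReal_ne_top (measure_ne_top _ _))]
    refine lintegral_mono_ae ?_
    filter_upwards [hA] with x hx
    refine (lintegral_loss2_le (hGx x) (fun u => hG _) (hLm x) fun u => abs_nonneg _).trans ?_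
    rw [mul_right_comm]
    gcongr
  constructor
  · rw [hB]
    have e : ∫⁻ z, ENNReal.ofReal (F z * (1 + ‖z.2‖)) = ∫⁻ x : X, mom1 (fun u => F (x, u)) :=
      lintegral_prod _ mF.aemeasurable
    rw [e, ← lintegral_const_mul' _ _ (ENNReal.mul_ne_top ENNReal.ofReal_ne_top (measure_ne_top _ _))]
    refine lintegral_mono_ae ?_
    filter_upwards [hA] with x hx
    refine (lintegral_loss2_le (hKm x) (fun u => le_max_right _ _) (hFx x) fun u => hF _).trans ?_
    rw [mul_right_comm]
    gcongr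
    refine le_trans (lintegral_mono fun u => ENNReal.ofReal_le_ofReal ?_) hx
    refine mul_le_mul_of_nonneg_right (max_le ?_ (hG _)) (by positivity)
    have := hF (x, u); linarith
  · have e1 : ∫⁻ z, srcA G F z = ∫⁻ x : X, ∫⁻ v, (gain2 (K x) (fun u => F (x, u)) v
        + gain2 (fun u => G (x, u)) (L x) v + loss2 (fun u => G (x, u)) (L x) v) :=
      lintegral_prod _ hsA.aemeasurable
    have e2 : ∀ x : X, ∫⁻ v, (gain2 (K x) (fun u => F (x, u)) v
        + gain2 (fun u => G (x, u)) (L x) v + loss2 (fun u => G (x, u)) (L x) v)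
        = (∫⁻ v, loss2 (K x) (fun u => F (x, u)) v)
          + 2 * ∫⁻ v, loss2 (fun u => G (x, u)) (L x) v := by
      intro x
      have m1 : Measurable fun v => gain2 (K x) (fun u => F (x, u)) v := by
        have := (measurable_gain2 (α := Unit) (f := fun _ => K x) (g := fun _ u => F (x, u))
          ((hKm x).comp measurable_snd) ((hFx x).comp measurable_snd)).comp
          (measurable_prodMk_left (x := ()) (β := V))
        simpa only [Function.comp_def] using this
      have m2 : Measurable fun v => gain2 (fun u => G (x, u)) (L x) v := by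
        have := (measurable_gain2 (α := Unit) (f := fun _ u => G (x, u)) (g := fun _ => L x)
          ((hGx x).comp measurable_snd) ((hLm x).comp measurable_snd)).comp
          (measurable_prodMk_left (x := ()) (β := V))
        simpa only [Function.comp_def] using this
      have m12 : Measurable fun v => gain2 (K x) (fun u => F (x, u)) v
          + gain2 (fun u => G (x, u)) (L x) v := m1.add m2
      rw [lintegral_add_left m12, lintegral_add_left m1, lintegral_gain2 (hKm x) (hFx x),
        lintegral_gain2 (hGx x) (hLm x), two_mul, add_assoc]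
    have m4 : Measurable fun x : X => ∫⁻ v, loss2 (K x) (fun u => F (x, u)) v :=
      hsB.lintegral_prod_right'
    rw [e1, lintegral_congr e2, lintegral_add_left m4, hB, lintegral_const_mul' _ _ ENNReal.ofNat_ne_top,
      mul_assoc 2 (ENNReal.ofReal A) (sig univ), mul_assoc 2]
    gcongr

lemma absMom_bound {G F : X × V → ℝ} {a A : ℝ} (ha : 0 < a) (hA : 0 ≤ A) (hGm : Measurable G)
    (hG : ∀ z, 0 ≤ G z) (hFm : Measurable F) (hF : ∀ z, 0 ≤ F z)
    (he : ∫⁻ z, ENNReal.ofReal (Real.exp (a * ‖z.2‖) * G z) ≤ ENNReal.ofReal A)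
    (hFi : Integrable F) (hF2 : Integrable fun z => ‖z.2‖ ^ 2 * F z)
    (hmass : ∫ z, F z = ∫ z, G z) (hen : ∫ z, ‖z.2‖ ^ 2 * F z ≤ ∫ z, ‖z.2‖ ^ 2 * G z) :
    posMass G F ≤ ENNReal.ofReal A ∧ (posMass G F = 0 → F =ᵐ[volume] G) ∧
    (posMass G F = 0 → absMom G F = 0) ∧
    (∫⁻ z, ENNReal.ofReal (F z * (1 + ‖z.2‖)) ≠ ⊤) ∧
    (∫⁻ z, ENNReal.ofReal (F z * (1 + ‖z.2‖)) ≤ ENNReal.ofReal (2 * A + 8 / a ^ 2 * A)) ∧
    ∀ R : ℝ, 1 ≤ R → absMom G F ≤ ENNReal.ofReal (6 * R) * posMass G F
      + ENNReal.ofReal (16 / a ^ 2 * A * Real.exp (-(a / 2) * R)) := by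
  have hEi : Integrable (fun z : X × V => Real.exp (a * ‖z.2‖) * G z) := by
    refine ⟨by fun_prop, ?_⟩
    rw [hasFiniteIntegral_iff_ofReal (Eventually.of_forall fun z =>
      mul_nonneg (Real.exp_pos _).le (hG z))]
    exact he.trans_lt ENNReal.ofReal_lt_top
  have hE : ∫ z, Real.exp (a * ‖z.2‖) * G z ≤ A := by
    rw [integral_eq_lintegral_of_nonneg_ae (Eventually.of_forall fun z =>
      mul_nonneg (Real.exp_pos _).le (hG z)) hEi.aestronglyMeasurable]
    exact ENNReal.toReal_le_of_le_ofReal hA he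
  have hquad : ∀ r : ℝ, 0 ≤ r → r ^ 2 ≤ 8 / a ^ 2 * Real.exp (a * r / 2) := by
    intro r hr
    have h := Real.pow_div_factorial_le_exp (a * r / 2) (by positivity) 2
    norm_num [Nat.factorial] at h
    rw [div_mul_eq_mul_div, le_div_iff₀ (pow_pos ha 2)]
    nlinarith
  have hsq : ∀ r : ℝ, 0 ≤ r → r ^ 2 ≤ 8 / a ^ 2 * Real.exp (a * r) := fun r hr =>
    (hquad r hr).trans (mul_le_mul_of_nonneg_left
      (Real.exp_le_exp.2 (by nlinarith [mul_nonneg ha.le hr])) (by positivity))
  have hGi : Integrable G := hEi.mono' hGm.aestronglyMeasurable (Eventually.of_forall fun z => by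
    rw [Real.norm_eq_abs, abs_of_nonneg (hG z)]
    exact le_mul_of_one_le_left (hG z) (Real.one_le_exp (by positivity)))
  have hG2 : Integrable fun z : X × V => ‖z.2‖ ^ 2 * G z :=
    (hEi.const_mul (8 / a ^ 2)).mono' (by fun_prop) (Eventually.of_forall fun z => by
      rw [Real.norm_eq_abs, abs_of_nonneg (mul_nonneg (sq_nonneg _) (hG z)), ← mul_assoc]
      exact mul_le_mul_of_nonneg_right (hsq _ (norm_nonneg _)) (hG z))
  have hG2A : ∫ z, ‖z.2‖ ^ 2 * G z ≤ 8 / a ^ 2 * A := by
    refine le_trans (integral_mono hG2 (hEi.const_mul (8 / a ^ 2)) fun z => ?_) ?_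
    · dsimp only
      rw [← mul_assoc]
      exact mul_le_mul_of_nonneg_right (hsq _ (norm_nonneg _)) (hG z)
    · rw [integral_const_mul]; exact mul_le_mul_of_nonneg_left hE (by positivity)
  have hGA : ∫ z, G z ≤ A := le_trans (integral_mono hGi hEi fun z =>
    le_mul_of_one_le_left (hG z) (Real.one_le_exp (by positivity))) hE
  set p : X × V → ℝ := fun z => max (G z - F z) 0 with hp
  have hpi : Integrable p := (hGi.sub hFi).pos_part
  have hpE : posMass G F = ENNReal.ofReal (∫ z, p z) := by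
    rw [ofReal_integral_eq_lintegral_ofReal hpi (Eventually.of_forall fun z => le_max_right _ _)]
    refine lintegral_congr fun z => ?_
    simp [hp, ENNReal.ofReal_max]
  have hpG : ∀ z, p z ≤ G z := fun z => max_le (by linarith [hF z]) (hG z)
  have hp0 : 0 ≤ ∫ z, p z := integral_nonneg fun z => le_max_right _ _
  have hk : Integrable (fun z => G z - F z) := hGi.sub hFi
  have hk0 : ∫ z, (G z - F z) = 0 := by rw [integral_sub hGi hFi, hmass, sub_self]
  have hzero : posMass G F = 0 → F =ᵐ[volume] G := by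
    intro h0
    rw [hpE, ENNReal.ofReal_eq_zero] at h0
    have hp' : p =ᵐ[volume] 0 :=
      (integral_eq_zero_iff_of_nonneg (fun z => le_max_right _ _) hpi).1 (le_antisymm h0 hp0)
    have hle : ∀ᵐ z, 0 ≤ F z - G z := by
      filter_upwards [hp'] with z hz
      have := le_max_left (G z - F z) 0
      simp only [hp, Pi.zero_apply] at hz
      linarith
    have := (integral_eq_zero_iff_of_nonneg_ae hle (hFi.sub hGi)).1
      (by rw [integral_sub hFi hGi, hmass, sub_self])
    filter_upwards [this] with z hz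
    simpa [sub_eq_zero] using hz
  have hm1 : Integrable fun z : X × V => F z + ‖z.2‖ ^ 2 * F z := hFi.add hF2
  have hFm1 : ∫⁻ z, ENNReal.ofReal (F z * (1 + ‖z.2‖))
      ≤ ENNReal.ofReal (2 * A + 8 / a ^ 2 * A) := by
    have hle : ∀ z : X × V, F z * (1 + ‖z.2‖) ≤ 2 * F z + ‖z.2‖ ^ 2 * F z := fun z => by
      nlinarith [mul_nonneg (hF z) (sq_nonneg (‖z.2‖ - 1 / 2)), hF z]
    refine le_trans (lintegral_mono fun z => ENNReal.ofReal_le_ofReal (hle z)) ?_
    have hsum : Integrable fun z : X × V => 2 * F z + ‖z.2‖ ^ 2 * F z := (hFi.const_mul 2).add hF2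
    rw [← ofReal_integral_eq_lintegral_ofReal hsum
      (Eventually.of_forall fun z => add_nonneg (mul_nonneg zero_le_two (hF z))
        (mul_nonneg (sq_nonneg _) (hF z)))]
    refine ENNReal.ofReal_le_ofReal ?_
    rw [integral_add (hFi.const_mul 2) hF2, integral_const_mul, hmass]
    linarith
  refine ⟨?_, hzero, ?_, ne_top_of_le_ne_top ENNReal.ofReal_ne_top hFm1, hFm1, ?_⟩
  · rw [hpE]
    exact ENNReal.ofReal_le_ofReal ((integral_mono hpi hGi hpG).trans hGA)
  · intro h0
    have hz := hzero h0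
    unfold absMom
    rw [lintegral_eq_zero_iff (by fun_prop)]
    filter_upwards [hz] with z hz
    simp [hz]
  intro R hR
  have hRpos : 0 < R := by linarith
  set E := Real.exp (-(a / 2) * R) with hEdef
  have hp2i : Integrable fun z : X × V => ‖z.2‖ ^ 2 * p z :=
    hG2.mono' (((continuous_norm.measurable.comp measurable_snd).pow_const 2).mul
      ((hGm.sub hFm).max measurable_const)).aestronglyMeasurable (Eventually.of_forall fun z => by
        rw [Real.norm_eq_abs, abs_of_nonneg (mul_nonneg (sq_nonneg _) (le_max_right _ _))]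
        exact mul_le_mul_of_nonneg_left (hpG z) (sq_nonneg _))
  have hk2 : Integrable fun z : X × V => ‖z.2‖ ^ 2 * (G z - F z) := by
    simp only [mul_sub]
    exact hG2.sub hF2
  have htail : ∀ z, ‖z.2‖ ^ 2 * p z
      ≤ R ^ 2 * p z + 8 / a ^ 2 * E * (Real.exp (a * ‖z.2‖) * G z) := by
    intro z
    have hnn : 0 ≤ 8 / a ^ 2 * E * (Real.exp (a * ‖z.2‖) * G z) := by
      have := hG z; positivity
    rcases le_or_gt ‖z.2‖ R with h | h
    · have := mul_le_mul_of_nonneg_right (pow_le_pow_left₀ (norm_nonneg _) h 2)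
        (le_max_right (G z - F z) 0 : 0 ≤ p z)
      linarith
    · have h1 : ‖z.2‖ ^ 2 ≤ 8 / a ^ 2 * E * Real.exp (a * ‖z.2‖) := by
        refine (hquad _ (norm_nonneg _)).trans ?_
        rw [mul_assoc, hEdef, ← Real.exp_add]
        exact mul_le_mul_of_nonneg_left (Real.exp_le_exp.2 (by nlinarith)) (by positivity)
      calc ‖z.2‖ ^ 2 * p z ≤ ‖z.2‖ ^ 2 * G z := mul_le_mul_of_nonneg_left (hpG z) (sq_nonneg _)
        _ ≤ 8 / a ^ 2 * E * Real.exp (a * ‖z.2‖) * G z := mul_le_mul_of_nonneg_right h1 (hG z)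
        _ ≤ _ := by
            have : 0 ≤ R ^ 2 * p z := mul_nonneg (sq_nonneg _) (le_max_right _ _)
            linarith
  have hp2 : ∫ z, ‖z.2‖ ^ 2 * p z ≤ R ^ 2 * (∫ z, p z) + 8 / a ^ 2 * E * A := by
    refine le_trans (integral_mono hp2i ((hpi.const_mul _).add (hEi.const_mul _)) htail) ?_
    simp only [Pi.add_apply]
    rw [integral_add (hpi.const_mul _) (hEi.const_mul _), integral_const_mul, integral_const_mul]
    have : (0 : ℝ) ≤ 8 / a ^ 2 * E := by positivity
    nlinarith [mul_le_mul_of_nonneg_left hE this]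
  have hpt : ∀ z, |G z - F z| * (1 + ‖z.2‖) ≤ (1 + R) * (2 * p z - (G z - F z))
      + R⁻¹ * (2 * (‖z.2‖ ^ 2 * p z) - ‖z.2‖ ^ 2 * (G z - F z)) := by
    intro z
    have habs : |G z - F z| = 2 * p z - (G z - F z) := by
      rcases le_total 0 (G z - F z) with h | h
      · rw [hp]; simp [max_eq_left h, abs_of_nonneg h]; ring
      · rw [hp]; simp [max_eq_right h, abs_of_nonpos h]
    have hr : 1 + ‖z.2‖ ≤ (1 + R) + R⁻¹ * ‖z.2‖ ^ 2 := by
      have e : R⁻¹ * ‖z.2‖ ^ 2 - ‖z.2‖ + R = R⁻¹ * (‖z.2‖ - R) ^ 2 + ‖z.2‖ := by field_simp; ring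
      nlinarith [mul_nonneg (inv_nonneg.2 hRpos.le) (sq_nonneg (‖z.2‖ - R)), norm_nonneg z.2]
    calc |G z - F z| * (1 + ‖z.2‖) ≤ |G z - F z| * ((1 + R) + R⁻¹ * ‖z.2‖ ^ 2) :=
          mul_le_mul_of_nonneg_left hr (abs_nonneg _)
      _ = _ := by rw [habs]; ring
  have i1 : Integrable fun z => (1 + R) * (2 * p z - (G z - F z)) :=
    ((hpi.const_mul 2).sub hk).const_mul (1 + R)
  have i2 : Integrable fun z : X × V =>
      R⁻¹ * (2 * (‖z.2‖ ^ 2 * p z) - ‖z.2‖ ^ 2 * (G z - F z)) :=
    ((hp2i.const_mul 2).sub hk2).const_mul R⁻¹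
  have hlhs : Integrable fun z : X × V => |G z - F z| * (1 + ‖z.2‖) :=
    (i1.add i2).mono' (by fun_prop) (Eventually.of_forall fun z => by
      rw [Real.norm_eq_abs, abs_of_nonneg (mul_nonneg (abs_nonneg _) (by positivity))]
      exact hpt z)
  rw [absMom, ← ofReal_integral_eq_lintegral_ofReal hlhs (Eventually.of_forall fun z =>
    mul_nonneg (abs_nonneg _) (by positivity)), hpE, ← ENNReal.ofReal_mul (by linarith),
    ← ENNReal.ofReal_add (by positivity) (by positivity)]
  refine ENNReal.ofReal_le_ofReal ((integral_mono hlhs (i1.add i2) hpt).trans ?_)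
  simp only [Pi.add_apply]
  rw [integral_add i1 i2, integral_const_mul, integral_const_mul,
    integral_sub (hpi.const_mul 2) hk, integral_sub (hp2i.const_mul 2) hk2, hk0,
    integral_const_mul, integral_const_mul]
  have hk2nn : 0 ≤ ∫ z, ‖z.2‖ ^ 2 * (G z - F z) := by
    simp only [mul_sub]; rw [integral_sub hG2 hF2]; linarith
  have hinv : R⁻¹ ≤ 1 := inv_le_one_of_one_le₀ hR
  have h1 : R⁻¹ * (2 * (∫ z, ‖z.2‖ ^ 2 * p z) - ∫ z, ‖z.2‖ ^ 2 * (G z - F z))
      ≤ R⁻¹ * (2 * (R ^ 2 * (∫ z, p z) + 8 / a ^ 2 * E * A)) :=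
    mul_le_mul_of_nonneg_left (by linarith) (inv_nonneg.2 hRpos.le)
  have h2 : R⁻¹ * (2 * (R ^ 2 * (∫ z, p z) + 8 / a ^ 2 * E * A))
      = 2 * R * (∫ z, p z) + R⁻¹ * (16 / a ^ 2 * A * E) := by field_simp; ring
  nlinarith [mul_le_mul_of_nonneg_right hinv (show 0 ≤ 16 / a ^ 2 * A * E by positivity),
    mul_le_mul_of_nonneg_right hR hp0]

/-- Weak-strong uniqueness for mild solutions. -/
theorem uniqueness_core {F₀ : X × V → ℝ} {F G : ℝ → X × V → ℝ} {T a A : ℝ} (ha : 0 < a)
    (hG : IsMild F₀ G T) (hb : IsTame G T a A) (hF : IsMild F₀ F T)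
    (hFi : ∀ᵐ t ∂μt T, Integrable (F t) ∧ Integrable (fun z => ‖z.2‖ ^ 2 * F t z) ∧
      ∫ z, F t z = ∫ z, G t z ∧ ∫ z, ‖z.2‖ ^ 2 * F t z ≤ ∫ z, ‖z.2‖ ^ 2 * G t z) :
    ∀ᵐ t ∂μt T, F t =ᵐ[volume] G t := by
  wlog hA : 0 ≤ A generalizing A
  · refine this (A := 0) ⟨?_, ?_⟩ le_rfl
    · filter_upwards [hb.mom] with p hp
      simpa [ENNReal.ofReal_of_nonpos (le_of_not_ge hA)] using hp
    · filter_upwards [hb.exp] with p hp
      simpa [ENNReal.ofReal_of_nonpos (le_of_not_ge hA)] using hp
  set c := (sig univ).toReal with hc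
  have hsig : sig univ = ENNReal.ofReal c := (ENNReal.ofReal_toReal (measure_ne_top _ _)).symm
  have hc0 : 0 ≤ c := ENNReal.toReal_nonneg
  set y : ℝ → ℝ≥0∞ := fun t => posMass (G t) (F t) with hy
  set Φ : ℝ → ℝ≥0∞ := fun t => 2 * ENNReal.ofReal A * sig univ * absMom (G t) (F t) with hΦ
  set K₁ := 2 * A + 8 / a ^ 2 * A with hK₁
  obtain ⟨SA, hSAd⟩ : ∃ SA : ℝ → X × V → ℝ≥0∞, ∀ t z, srcA (G t) (F t) (shift t z) = SA t z :=
    ⟨_, fun _ _ => rfl⟩
  obtain ⟨SB, hSBd⟩ : ∃ SB : ℝ → X × V → ℝ≥0∞, ∀ t z, srcB (G t) (F t) (shift t z) = SB t z :=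
    ⟨_, fun _ _ => rfl⟩
  obtain ⟨msA, msB⟩ := measurable_src hG.measurable hF.measurable
  have hSA : Measurable (Function.uncurry SA) := by
    have h2 := msA.comp measurable_along
    simpa only [Function.comp_def, hSAd, Function.uncurry_def] using h2
  have hSB : Measurable (Function.uncurry SB) := by
    have h2 := msB.comp measurable_along
    simpa only [Function.comp_def, hSBd, Function.uncurry_def] using h2
  have mGs : ∀ t, Measurable (G t) := fun t => hG.measurable.comp measurable_prodMk_left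
  have mFs : ∀ t, Measurable (F t) := fun t => hF.measurable.comp measurable_prodMk_left
  have msAt : ∀ t, Measurable (srcA (G t) (F t)) := fun t => by
    have h2 := msA.comp (measurable_prodMk_left (x := t) (β := X × V))
    simpa only [Function.comp_def] using h2
  have msBt : ∀ t, Measurable (srcB (G t) (F t)) := fun t => by
    have h2 := msB.comp (measurable_prodMk_left (x := t) (β := X × V))
    simpa only [Function.comp_def] using h2
  -- facts at almost every time
  have facts : ∀ᵐ t ∂μt T, y t ≤ ENNReal.ofReal A ∧ (y t = 0 → F t =ᵐ[volume] G t) ∧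
      (y t = 0 → Φ t = 0) ∧
      (∫⁻ z, SB t z ≤ ENNReal.ofReal A * sig univ * ENNReal.ofReal K₁) ∧
      (∫⁻ z, SA t z ≤ (∫⁻ z, SB t z) + Φ t) ∧ Φ t ≠ ⊤ ∧
      ∀ R : ℕ, 1 ≤ R → Φ t ≤ ENNReal.ofReal (2 * A * c * 6 * R) * y t +
        ENNReal.ofReal (2 * A * c * (16 / a ^ 2 * A) * Real.exp (-(a / 2) * R)) := by
    filter_upwards [hFi, hb.exp, Measure.ae_ae_of_ae_prod hb.mom] with t ⟨i1, i2, i3, i4⟩ he hm
    obtain ⟨b1, b2, b3, -, b5, b6⟩ := absMom_bound ha hA (mGs t) (hG.nonneg t) (mFs t) (hF.nonneg t)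
      he i1 i2 i3 i4
    obtain ⟨s1, s2⟩ := src_integrals (mGs t) (mFs t) (hG.nonneg t) (hF.nonneg t) hm (msAt t) (msBt t)
    have eA : ∫⁻ z, SA t z = ∫⁻ z, srcA (G t) (F t) z := by
      have h2 := lintegral_shift t (msAt t); simpa only [hSAd] using h2
    have eB : ∫⁻ z, SB t z = ∫⁻ z, srcB (G t) (F t) z := by
      have h2 := lintegral_shift t (msBt t); simpa only [hSBd] using h2
    have hb' : ∀ R : ℕ, 1 ≤ R → Φ t ≤ ENNReal.ofReal (2 * A * c * 6 * R) * y t +
        ENNReal.ofReal (2 * A * c * (16 / a ^ 2 * A) * Real.exp (-(a / 2) * R)) := by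
      intro R hR
      calc Φ t ≤ 2 * ENNReal.ofReal A * sig univ * (ENNReal.ofReal (6 * R) * y t
            + ENNReal.ofReal (16 / a ^ 2 * A * Real.exp (-(a / 2) * R))) := by
            simp only [hΦ]
            gcongr
            exact b6 R (by exact_mod_cast hR)
        _ = _ := by
            have e : 2 * ENNReal.ofReal A * sig univ = ENNReal.ofReal (2 * A * c) := by
              rw [hsig, ← ENNReal.ofReal_ofNat, ← ENNReal.ofReal_mul zero_le_two,
                ← ENNReal.ofReal_mul (by positivity)]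
            rw [e, mul_add, ← mul_assoc, ← ENNReal.ofReal_mul (by positivity),
              ← ENNReal.ofReal_mul (by positivity)]
            simp only [mul_assoc]
    refine ⟨b1, b2, fun h0 => by simp only [hΦ, b3 h0, mul_zero], ?_, ?_, ?_, hb'⟩
    · rw [eB]; exact s1.trans (by gcongr)
    · rw [eA, eB]; exact s2
    · refine ne_top_of_le_ne_top ?_ (hb' 1 le_rfl)
      exact ENNReal.add_ne_top.2 ⟨ENNReal.mul_ne_top ENNReal.ofReal_ne_top
        (ne_top_of_le_ne_top ENNReal.ofReal_ne_top b1), ENNReal.ofReal_ne_top⟩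
  -- finiteness along characteristics
  have totB : ∫⁻ t in Ioc 0 T, ∫⁻ z, SB t z ≠ ⊤ := by
    refine ne_top_of_le_ne_top ?_ (lintegral_mono_ae (facts.mono fun t ht => ht.2.2.2.1))
    rw [lintegral_const, Measure.restrict_apply_univ, hsig]
    exact ENNReal.mul_ne_top (by simp [ENNReal.mul_eq_top]) measure_Ioc_lt_top.ne
  have totA : ∫⁻ t in Ioc 0 T, ∫⁻ z, SA t z ≠ ⊤ := by
    set B1 := ENNReal.ofReal A * sig univ * ENNReal.ofReal K₁ +
      (ENNReal.ofReal (2 * A * c * 6 * (1 : ℕ)) * ENNReal.ofReal A +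
        ENNReal.ofReal (2 * A * c * (16 / a ^ 2 * A) * Real.exp (-(a / 2) * (1 : ℕ))))
    have hB1 : ∀ᵐ t ∂μt T, ∫⁻ z, SA t z ≤ B1 := by
      filter_upwards [facts] with t ⟨b1, _, _, b4, b5, _, b7⟩
      exact b5.trans (add_le_add b4 ((b7 1 le_rfl).trans (by gcongr)))
    refine ne_top_of_le_ne_top ?_ (lintegral_mono_ae hB1)
    rw [lintegral_const, Measure.restrict_apply_univ]
    exact ENNReal.mul_ne_top (by simp [B1, hsig, ENNReal.mul_eq_top]) measure_Ioc_lt_top.ne
  rw [lintegral_lintegral_swap hSA.aemeasurable] at totA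
  rw [lintegral_lintegral_swap hSB.aemeasurable] at totB
  have finA : ∀ᵐ z, ∫⁻ t in Ioc 0 T, SA t z < ⊤ :=
    ae_lt_top hSA.lintegral_prod_left' totA
  have finB : ∀ᵐ z, ∫⁻ t in Ioc 0 T, SB t z < ⊤ :=
    ae_lt_top hSB.lintegral_prod_left' totB
  -- the inequality along characteristics
  have along : ∀ᵐ z, ∀ᵐ t ∂μt T, ENNReal.ofReal (G t (shift t z) - F t (shift t z))
      + ∫⁻ s in Ioc 0 t, SB s z ≤ ∫⁻ s in Ioc 0 t, SA s z := by
    filter_upwards [hG.eq, hF.eq, hG.gain_fin, hG.loss_fin, hF.gain_fin, hF.loss_fin, finA, finB]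
      with z eg ef g1 g2 f1 f2 fA fB
    rcases le_or_gt T 0 with hT | hT
    · simp [μt, Ioc_eq_empty_of_le hT]
    set cG : ℝ → ℝ := fun s => collAt (G s) (shift s z) with hcG
    set cF : ℝ → ℝ := fun s => collAt (F s) (shift s z) with hcF
    have mA : Measurable fun s => SA s z := by
      have h2 := hSA.comp (measurable_prodMk_right (y := z) (α := ℝ))
      simpa only [Function.comp_def, Function.uncurry_def] using h2
    have mB : Measurable fun s => SB s z := by
      have h2 := hSB.comp (measurable_prodMk_right (y := z) (α := ℝ))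
      simpa only [Function.comp_def, Function.uncurry_def] using h2
    have hz : Measurable fun s : ℝ => (s, shift s z) := by
      have h2 := measurable_along.comp (measurable_prodMk_right (y := z) (α := ℝ))
      simpa only [Function.comp_def] using h2
    have aux : ∀ {H : ℝ → X × V → ℝ}, Measurable (Function.uncurry H) →
        (Measurable fun s => gainAt (H s) (shift s z)) ∧
          Measurable fun s => lossAt (H s) (shift s z) := by
      intro H hH
      have h1 := (measurable_gainAt hH).comp hz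
      have h2 := (measurable_lossAt hH).comp hz
      simp only [Function.comp_def] at h1 h2
      exact ⟨h1, h2⟩
    have collI : ∀ {H : ℝ → X × V → ℝ}, Measurable (Function.uncurry H) →
        ∫⁻ t in Ioc 0 T, gainAt (H t) (shift t z) < ⊤ →
        ∫⁻ t in Ioc 0 T, lossAt (H t) (shift t z) < ⊤ →
        IntervalIntegrable (fun s => collAt (H s) (shift s z)) volume 0 T := by
      intro H hH i1 i2
      refine (intervalIntegrable_iff_integrableOn_Ioc_of_le hT.le).2 ?_
      simp only [collAt]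
      exact (integrable_toReal_of_lintegral_ne_top (aux hH).1.aemeasurable i1.ne).sub
        (integrable_toReal_of_lintegral_ne_top (aux hH).2.aemeasurable i2.ne)
    have iG : IntervalIntegrable cG volume 0 T := collI hG.measurable g1 g2
    have iF : IntervalIntegrable cF volume 0 T := collI hF.measurable f1 f2
    have hk : ∀ᵐ s ∂μt T, ∫ u in (0 : ℝ)..s, (cG u - cF u) = G s (shift s z) - F s (shift s z) := by
      filter_upwards [eg, ef, ae_restrict_mem measurableSet_Ioc] with s h1 h2 hs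
      have hsub : uIcc 0 s ⊆ uIcc 0 T := by
        rw [uIcc_of_le hs.1.le, uIcc_of_le hT.le]; exact Icc_subset_Icc_right hs.2
      rw [intervalIntegral.integral_sub (iG.mono_set hsub) (iF.mono_set hsub), h1, h2]
      simp only [hcG, hcF]; ring
    have pw : ∀ᵐ s ∂μt T, (if 0 < ∫ u in (0 : ℝ)..s, (cG u - cF u) then cG s - cF s else 0)
        ≤ (SA s z).toReal - (SB s z).toReal := by
      filter_upwards [hk, ae_lt_top (aux hF.measurable).1 f1.ne, ae_lt_top (aux hG.measurable).2 g2.ne,
        ae_lt_top mA fA.ne] with s hs a1 a2 a3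
      rw [hs]
      split_ifs with hpos
      · have h2 := src_bound (mGs s) (mFs s) (hG.nonneg s) (hF.nonneg s) (shift s z) (by linarith)
          a1.ne a2.ne (by rw [hSAd]; exact a3.ne)
        simpa only [hSAd, hSBd] using h2
      · have h0 : SB s z = 0 := by
          rw [← hSBd, srcB]
          exact loss2_max_eq_zero (f := fun u => G s ((shift s z).1, u))
            (g := fun u => F s ((shift s z).1, u)) (le_of_sub_nonpos (le_of_not_gt hpos))
        simp [h0]
    filter_upwards [hk, ae_restrict_mem measurableSet_Ioc] with t hkt ht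
    have hsub : Ioc 0 t ⊆ Ioc 0 T := Ioc_subset_Ioc_right ht.2
    have ha' := ((lintegral_mono_set hsub).trans_lt fA).ne
    have hb' := ((lintegral_mono_set hsub).trans_lt fB).ne
    have iA := integrable_toReal_of_lintegral_ne_top mA.aemeasurable ha'
    have iB := integrable_toReal_of_lintegral_ne_top mB.aemeasurable hb'
    have hp := posPart_primitive (iG.sub iF) t (Ioc_subset_Icc_self ht)
    rw [hkt] at hp
    have hle : max (G t (shift t z) - F t (shift t z)) 0
        ≤ (∫⁻ s in Ioc 0 t, SA s z).toReal - (∫⁻ s in Ioc 0 t, SB s z).toReal := by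
      rw [hp, intervalIntegral.integral_of_le ht.1.le,
        ← integral_toReal mA.aemeasurable (ae_lt_top mA ha'),
        ← integral_toReal mB.aemeasurable (ae_lt_top mB hb'), ← integral_sub iA iB]
      refine integral_mono_ae ?_ (iA.sub iB) (ae_restrict_of_ae_restrict_of_subset hsub pw)
      have hi : IntegrableOn (fun s => cG s - cF s) (Ioc 0 T) :=
        (intervalIntegrable_iff_integrableOn_Ioc_of_le hT.le).1 (iG.sub iF)
      have hcont : ContinuousOn (fun s => ∫ u in (0 : ℝ)..s, (cG u - cF u)) (Ioc 0 T) := by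
        have h3 := (primitive_facts (c := 0) hT.le (iG.sub iF)).1.continuousOn
        simp only [zero_add] at h3
        exact h3.mono (Ioc_subset_Icc_self.trans Icc_subset_uIcc)
      refine (hi.mono_set hsub).norm.mono' ?_ (Eventually.of_forall fun s => ?_)
      · obtain ⟨h', hh'm, hh'e⟩ := (hcont.mono hsub).aemeasurable (μ := volume) measurableSet_Ioc
        refine AEStronglyMeasurable.congr (f := fun s => ({s | 0 < h' s}).indicator
          (fun s => cG s - cF s) s) ?_ ?_
        · exact (hi.mono_set hsub).aestronglyMeasurable.indicator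
            (measurableSet_lt measurable_const hh'm)
        · filter_upwards [hh'e] with s hs
          simp only [indicator_apply, mem_setOf_eq, hs]
      · split_ifs <;> simp
    calc ENNReal.ofReal (G t (shift t z) - F t (shift t z)) + ∫⁻ s in Ioc 0 t, SB s z
        = ENNReal.ofReal (max (G t (shift t z) - F t (shift t z)) 0)
          + ENNReal.ofReal (∫⁻ s in Ioc 0 t, SB s z).toReal := by
            rw [ENNReal.ofReal_toReal hb']; congr 1; simp [ENNReal.ofReal_max]
      _ = ENNReal.ofReal (max (G t (shift t z) - F t (shift t z)) 0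
          + (∫⁻ s in Ioc 0 t, SB s z).toReal) :=
            (ENNReal.ofReal_add (le_max_right _ _) ENNReal.toReal_nonneg).symm
      _ ≤ ENNReal.ofReal (∫⁻ s in Ioc 0 t, SA s z).toReal :=
            ENNReal.ofReal_le_ofReal (by linarith)
      _ ≤ _ := ENNReal.ofReal_toReal_le
  have mk : Measurable fun p : ℝ × (X × V) =>
      ENNReal.ofReal (G p.1 (shift p.1 p.2) - F p.1 (shift p.1 p.2)) := by
    have h2 := ((hG.measurable.sub hF.measurable).ennreal_ofReal).comp measurable_along
    simpa only [Function.comp_def, Pi.sub_apply, Function.uncurry_def] using h2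
  have along' : ∀ᵐ t ∂μt T, ∀ᵐ z, ENNReal.ofReal (G t (shift t z) - F t (shift t z))
      + ∫⁻ s in Ioc 0 t, SB s z ≤ ∫⁻ s in Ioc 0 t, SA s z :=
    (Measure.ae_ae_comm (p := fun t z => ENNReal.ofReal (G t (shift t z) - F t (shift t z))
      + ∫⁻ s in Ioc 0 t, SB s z ≤ ∫⁻ s in Ioc 0 t, SA s z)
      (measurableSet_le (mk.add (measurable_cum hSB)) (measurable_cum hSA))).2 along
  have hmain : ∀ᵐ t ∂μt T, y t ≤ ∫⁻ s in Ioc 0 t, Φ s := by
    filter_upwards [along', ae_restrict_mem measurableSet_Ioc] with t ht htm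
    have h1 := lintegral_mono_ae ht
    have mkt : Measurable fun z => ENNReal.ofReal (G t (shift t z) - F t (shift t z)) := by
      have h2 := mk.comp (measurable_prodMk_left (x := t) (β := X × V))
      simpa only [Function.comp_def] using h2
    rw [lintegral_add_left mkt,
      ← lintegral_lintegral_swap (f := fun s z => SB s z) hSB.aemeasurable,
      ← lintegral_lintegral_swap (f := fun s z => SA s z) hSA.aemeasurable] at h1
    have e1 : ∫⁻ z, ENNReal.ofReal (G t (shift t z) - F t (shift t z)) = y t :=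
      lintegral_shift t (f := fun z => ENNReal.ofReal (G t z - F t z))
        ((mGs t).sub (mFs t)).ennreal_ofReal
    rw [e1] at h1
    have mB' : Measurable fun s => ∫⁻ z, SB s z := hSB.lintegral_prod_right'
    have hsub : Ioc 0 t ⊆ Ioc 0 T := Ioc_subset_Ioc_right htm.2
    have hfin : ∫⁻ s in Ioc 0 t, ∫⁻ z, SB s z ≠ ⊤ := by
      refine ne_top_of_le_ne_top ?_ (lintegral_mono_set hsub)
      rw [lintegral_lintegral_swap hSB.aemeasurable]; exact totB
    have h2 : y t + ∫⁻ s in Ioc 0 t, ∫⁻ z, SB s z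
        ≤ (∫⁻ s in Ioc 0 t, Φ s) + ∫⁻ s in Ioc 0 t, ∫⁻ z, SB s z := by
      refine h1.trans ?_
      rw [add_comm (∫⁻ s in Ioc 0 t, Φ s), ← lintegral_add_left mB']
      exact lintegral_mono_ae
        ((ae_restrict_of_ae_restrict_of_subset hsub facts).mono fun s hs => hs.2.2.2.2.1)
    exact (ENNReal.add_le_add_iff_right hfin).1 h2
  rw [μt, ae_restrict_iff' measurableSet_Ioc] at facts hmain ⊢
  have hz := gronwall_zero (y := y) (Φ := Φ) (T := T) (κ := 2 * A * c * 6 + 1)
    (κ' := 2 * A * c * (16 / a ^ 2 * A)) (a := a / 2) hA (by positivity) (by positivity)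
    (by positivity) (facts.mono fun t ht htm => (ht htm).1)
    (facts.mono fun t ht htm => (ht htm).2.2.1)
    (fun R hR => facts.mono fun t ht htm => ((ht htm).2.2.2.2.2.2 R hR).trans (by gcongr; linarith))
    hmain
  filter_upwards [hz, facts] with t h1 h2 htm
  exact (h2 htm).2.1 (h1 htm)

end Vale.Agent.P140
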