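import Mathlib
import Vale.Agent.P140.Mild
import Vale.Agent.P140.Conserve

/-! Local mild solutions below a moving Maxwellian, by Picard iteration. -/

noncomputable section

open MeasureTheory Set Filter
open scoped ENNReal Topology

namespace Vale.Agent.P140

attribute [local irreducible] gain2 loss2

/-- Moving Gaussian weight. -/
def wgt (a κ t : ℝ) (v : V) : ℝ := Real.exp (-(a - κ * t) * ‖v‖ ^ 2)

lemma wgt_pos (a κ t : ℝ) (v : V) : 0 < wgt a κ t v := Real.exp_pos _

lemma wgt_post (a κ t : ℝ) (v w : V) (o : S2) :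
    wgt a κ t (vpost v w o) * wgt a κ t (wpost v w o) = wgt a κ t v * wgt a κ t w := by
  simp only [wgt, ← Real.exp_add, ← mul_add, norm_sq_post]

lemma exp_gauss_le {b : ℝ} (hb : 0 < b) {r : ℝ} (hr : 0 ≤ r) :
    (1 + r) * Real.exp r * Real.exp (-b * r ^ 2)
      ≤ 120 * Real.exp (1 + 1 / b) * ((1 + r) ^ 4)⁻¹ := by
  have h1 := Real.pow_div_factorial_le_exp (1 + r) (by positivity) 5
  norm_num [Nat.factorial] at h1
  have h2 : r + (1 + r) + -b * r ^ 2 ≤ 1 + 1 / b := by
    have e : 1 / b + b * r ^ 2 - 2 * r = b * (r - 1 / b) ^ 2 := by field_simp; ring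
    nlinarith [mul_nonneg hb.le (sq_nonneg (r - 1 / b))]
  rw [← div_eq_mul_inv, le_div_iff₀ (by positivity)]
  calc (1 + r) * Real.exp r * Real.exp (-b * r ^ 2) * (1 + r) ^ 4
      = (1 + r) ^ 5 * (Real.exp r * Real.exp (-b * r ^ 2)) := by ring
    _ ≤ (120 * Real.exp (1 + r)) * (Real.exp r * Real.exp (-b * r ^ 2)) :=
        mul_le_mul_of_nonneg_right (by linarith) (by positivity)
    _ = 120 * Real.exp (r + (1 + r) + -b * r ^ 2) := by simp only [Real.exp_add]; ring
    _ ≤ _ := mul_le_mul_of_nonneg_left (Real.exp_le_exp.2 h2) (by norm_num)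

lemma integrable_gauss_exp {b : ℝ} (hb : 0 < b) :
    Integrable fun w : V => (1 + ‖w‖) * Real.exp ‖w‖ * Real.exp (-b * ‖w‖ ^ 2) := by
  have h : Integrable fun w : V => (1 + ‖w‖) ^ (-(4 : ℝ)) :=
    integrable_one_add_norm (by rw [finrank_euclideanSpace, Fintype.card_fin]; norm_num)
  refine (h.const_mul (120 * Real.exp (1 + 1 / b))).mono'
    (Continuous.aestronglyMeasurable (by fun_prop)) (Eventually.of_forall fun w => ?_)
  rw [Real.norm_eq_abs, abs_of_nonneg (by positivity), Real.rpow_neg (by positivity),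
    show (4 : ℝ) = ((4 : ℕ) : ℝ) by norm_num, Real.rpow_natCast]
  exact exp_gauss_le hb (norm_nonneg w)

lemma integrable_gauss_mom {b : ℝ} (hb : 0 < b) :
    Integrable fun w : V => (1 + ‖w‖) * Real.exp (-b * ‖w‖ ^ 2) :=
  (integrable_gauss_exp hb).mono' (Continuous.aestronglyMeasurable (by fun_prop))
    (Eventually.of_forall fun w => by
      rw [Real.norm_eq_abs, abs_of_nonneg (by positivity)]
      exact mul_le_mul_of_nonneg_right
        (le_mul_of_one_le_right (by positivity) (Real.one_le_exp (norm_nonneg w))) (Real.exp_pos _).le)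

/-- Clipped collision integrand. -/
def kern (f : V → ℝ) (v : V) (p : V × S2) : ℝ :=
  |rel v p.1 p.2| * (max (f (vpost v p.1 p.2)) 0 * max (f (wpost v p.1 p.2)) 0
    - f v * max (f p.1) 0)

/-- Clipped collision operator. -/
def clipQ (f : V → ℝ) (v : V) : ℝ := ∫ p, kern f v p ∂((volume : Measure V).prod sig)

/-- The constant in the collision bounds. -/
def kconst (a : ℝ) : ℝ :=
  ∫ p : V × S2, (1 + ‖p.1‖) * Real.exp (-(a / 2) * ‖p.1‖ ^ 2) ∂((volume : Measure V).prod sig)

lemma integrable_kconst {a : ℝ} (ha : 0 < a) :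
    Integrable (fun p : V × S2 => (1 + ‖p.1‖) * Real.exp (-(a / 2) * ‖p.1‖ ^ 2))
      ((volume : Measure V).prod sig) :=
  (integrable_gauss_mom (by positivity : 0 < a / 2)).comp_fst _

lemma kconst_nonneg (a : ℝ) : 0 ≤ kconst a := integral_nonneg fun p => by positivity

lemma measurable_kern {f : V → ℝ} (hf : Measurable f) (v : V) : Measurable (kern f v) := by
  have hv : Measurable fun p : V × S2 => (v, p) := measurable_prodMk_left
  exact (continuous_abs.measurable.comp (continuous_rel.measurable.comp hv)).mul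
    ((((hf.comp (continuous_vpost.measurable.comp hv)).max measurable_const).mul
      ((hf.comp (continuous_wpost.measurable.comp hv)).max measurable_const)).sub
      (((hf.comp measurable_fst).max measurable_const).const_mul _))

lemma abs_max_sub_max (x y : ℝ) : |max x 0 - max y 0| ≤ |x - y| :=
  abs_max_sub_max_le_abs x y 0

section Bounds

variable {a κ t P : ℝ} {f g : V → ℝ}

lemma pmax_le (hf : ∀ u, |f u| ≤ P * wgt a κ t u) (u : V) :
    |max (f u) 0| ≤ P * wgt a κ t u := by
  rw [abs_of_nonneg (le_max_right _ _)]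
  exact max_le ((le_abs_self _).trans (hf u)) ((abs_nonneg _).trans (hf u))

lemma kern_base (hab : a / 2 ≤ a - κ * t) {r : ℝ} (hr : 0 ≤ r) (v : V) (p : V × S2) :
    |rel v p.1 p.2| * (r * (wgt a κ t v * wgt a κ t p.1))
      ≤ r * ((1 + ‖v‖) * wgt a κ t v) * ((1 + ‖p.1‖) * Real.exp (-(a / 2) * ‖p.1‖ ^ 2)) := by
  have h1 := abs_rel_le v p.1 p.2
  have h2 : wgt a κ t p.1 ≤ Real.exp (-(a / 2) * ‖p.1‖ ^ 2) :=
    Real.exp_le_exp.2 (mul_le_mul_of_nonneg_right (by linarith) (sq_nonneg _))
  calc |rel v p.1 p.2| * (r * (wgt a κ t v * wgt a κ t p.1))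
      ≤ ((1 + ‖v‖) * (1 + ‖p.1‖)) * (r * (wgt a κ t v * Real.exp (-(a / 2) * ‖p.1‖ ^ 2))) :=
        mul_le_mul h1 (mul_le_mul_of_nonneg_left (mul_le_mul_of_nonneg_left h2 (wgt_pos a κ t v).le) hr)
          (mul_nonneg hr (mul_nonneg (wgt_pos a κ t v).le (wgt_pos a κ t p.1).le)) (by positivity)
    _ = _ := by ring

lemma abs_kern_le (hab : a / 2 ≤ a - κ * t) (hP : 0 ≤ P) (hf : ∀ u, |f u| ≤ P * wgt a κ t u)
    (v : V) (p : V × S2) : |kern f v p| ≤ 2 * P ^ 2 * ((1 + ‖v‖) * wgt a κ t v)
      * ((1 + ‖p.1‖) * Real.exp (-(a / 2) * ‖p.1‖ ^ 2)) := by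
  refine le_trans ?_ (kern_base hab (by positivity) v p)
  rw [kern, abs_mul, abs_abs]
  refine mul_le_mul_of_nonneg_left ?_ (abs_nonneg _)
  refine (abs_sub _ _).trans ?_
  rw [abs_mul, abs_mul]
  have hw := fun u => (wgt_pos a κ t u).le
  have h1 := mul_le_mul (pmax_le hf (vpost v p.1 p.2)) (pmax_le hf (wpost v p.1 p.2))
    (abs_nonneg _) (mul_nonneg hP (hw _))
  have h2 := mul_le_mul (hf v) (pmax_le hf p.1) (abs_nonneg _) (mul_nonneg hP (hw _))
  have e : P * wgt a κ t (vpost v p.1 p.2) * (P * wgt a κ t (wpost v p.1 p.2))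
      = P * wgt a κ t v * (P * wgt a κ t p.1) := by
    linear_combination (P * P) * wgt_post a κ t v p.1 p.2
  nlinarith

lemma abs_kern_sub_le (hab : a / 2 ≤ a - κ * t) (hP : 0 ≤ P) (hf : ∀ u, |f u| ≤ P * wgt a κ t u)
    (hg : ∀ u, |g u| ≤ P * wgt a κ t u) {δ : ℝ} (hδ : 0 ≤ δ)
    (hd : ∀ u, |f u - g u| ≤ δ * wgt a κ t u) (v : V) (p : V × S2) :
    |kern f v p - kern g v p| ≤ 4 * P * δ * ((1 + ‖v‖) * wgt a κ t v)
      * ((1 + ‖p.1‖) * Real.exp (-(a / 2) * ‖p.1‖ ^ 2)) := by
  refine le_trans ?_ (kern_base hab (by positivity) v p)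
  rw [kern, kern, ← mul_sub, abs_mul, abs_abs]
  refine mul_le_mul_of_nonneg_left ?_ (abs_nonneg _)
  set A := vpost v p.1 p.2
  set B := wpost v p.1 p.2
  have hw := fun u => (wgt_pos a κ t u).le
  have hdm : ∀ u, |max (f u) 0 - max (g u) 0| ≤ δ * wgt a κ t u := fun u =>
    (abs_max_sub_max _ _).trans (hd u)
  have e : ∀ x y x' y' : ℝ, |x * y - x' * y'| ≤ |x - x'| * |y| + |x'| * |y - y'| := by
    intro x y x' y'
    rw [← abs_mul, ← abs_mul, show x * y - x' * y' = (x - x') * y + x' * (y - y') by ring]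
    exact abs_add_le _ _
  have h1 := (e (max (f A) 0) (max (f B) 0) (max (g A) 0) (max (g B) 0)).trans
    (add_le_add (mul_le_mul (hdm A) (pmax_le hf B) (abs_nonneg _) (mul_nonneg hδ (hw _)))
      (mul_le_mul (pmax_le hg A) (hdm B) (abs_nonneg _) (mul_nonneg hP (hw _))))
  have h2 := (e (f v) (max (f p.1) 0) (g v) (max (g p.1) 0)).trans
    (add_le_add (mul_le_mul (hd v) (pmax_le hf p.1) (abs_nonneg _) (mul_nonneg hδ (hw _)))
      (mul_le_mul (hg v) (hdm p.1) (abs_nonneg _) (mul_nonneg hP (hw _))))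
  have hw' : (P * δ) * (wgt a κ t A * wgt a κ t B) = (P * δ) * (wgt a κ t v * wgt a κ t p.1) :=
    congrArg _ (wgt_post a κ t v p.1 p.2)
  refine le_trans ((le_of_eq (by congr 1; ring)).trans
    (abs_sub (max (f A) 0 * max (f B) 0 - max (g A) 0 * max (g B) 0)
      (f v * max (f p.1) 0 - g v * max (g p.1) 0))) ?_
  linarith

lemma integrable_kern (ha : 0 < a) (hab : a / 2 ≤ a - κ * t) (hP : 0 ≤ P) (hfm : Measurable f)
    (hf : ∀ u, |f u| ≤ P * wgt a κ t u) (v : V) :
    Integrable (kern f v) ((volume : Measure V).prod sig) :=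
  ((integrable_kconst ha).const_mul (2 * P ^ 2 * ((1 + ‖v‖) * wgt a κ t v))).mono'
    (measurable_kern hfm v).aestronglyMeasurable
    (Eventually.of_forall fun p => (Real.norm_eq_abs _).trans_le (abs_kern_le hab hP hf v p))

lemma abs_clipQ_le (ha : 0 < a) (hab : a / 2 ≤ a - κ * t) (hP : 0 ≤ P) (hfm : Measurable f)
    (hf : ∀ u, |f u| ≤ P * wgt a κ t u) (v : V) :
    |clipQ f v| ≤ 2 * P ^ 2 * kconst a * ((1 + ‖v‖) * wgt a κ t v) := by
  refine abs_integral_le_integral_abs.trans ?_
  refine (integral_mono (integrable_kern ha hab hP hfm hf v).abs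
    ((integrable_kconst ha).const_mul _) (abs_kern_le hab hP hf v)).trans_eq ?_
  rw [integral_const_mul, kconst]; ring

lemma abs_clipQ_sub_le (ha : 0 < a) (hab : a / 2 ≤ a - κ * t) (hP : 0 ≤ P) (hfm : Measurable f)
    (hgm : Measurable g) (hf : ∀ u, |f u| ≤ P * wgt a κ t u) (hg : ∀ u, |g u| ≤ P * wgt a κ t u)
    {δ : ℝ} (hδ : 0 ≤ δ) (hd : ∀ u, |f u - g u| ≤ δ * wgt a κ t u) (v : V) :
    |clipQ f v - clipQ g v| ≤ 4 * P * kconst a * δ * ((1 + ‖v‖) * wgt a κ t v) := by
  have i1 := integrable_kern ha hab hP hfm hf v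
  have i2 := integrable_kern ha hab hP hgm hg v
  rw [clipQ, clipQ, ← integral_sub i1 i2]
  refine abs_integral_le_integral_abs.trans ?_
  refine (integral_mono (i1.sub i2).abs
    ((integrable_kconst ha).const_mul _) (abs_kern_sub_le hab hP hf hg hδ hd v)).trans_eq ?_
  rw [integral_const_mul, kconst]; ring

lemma clipQ_nonneg {v : V} (hfv : f v ≤ 0) : 0 ≤ clipQ f v := by
  refine integral_nonneg fun p => mul_nonneg (abs_nonneg _) (sub_nonneg.2 ?_)
  exact (mul_nonpos_of_nonpos_of_nonneg hfv (le_max_right _ _)).trans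
    (mul_nonneg (le_max_right _ _) (le_max_right _ _))

end Bounds

lemma integral_weight_le {a τ : ℝ} (ha : 0 < a) (hτ : 0 < τ) {t : ℝ} (ht : t ∈ Icc 0 τ) (v : V) :
    ∫ s in (0 : ℝ)..t, (1 + ‖v‖) * wgt a (a / (2 * τ)) s v
      ≤ τ * (1 + Real.sqrt (2 / a)) * wgt a (a / (2 * τ)) t v := by
  set κ := a / (2 * τ) with hκ
  set r := ‖v‖ with hr
  have hr0 : 0 ≤ r := norm_nonneg v
  have hκpos : 0 < κ := by positivity
  have hw : Continuous fun s => wgt a κ s v := by unfold wgt; fun_prop
  have hle : ∀ s ∈ Icc 0 t, wgt a κ s v ≤ wgt a κ t v := fun s hs => Real.exp_le_exp.2 (by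
    have := mul_le_mul_of_nonneg_right (mul_le_mul_of_nonneg_left hs.2 hκpos.le) (sq_nonneg r)
    linarith)
  have e : ∫ s in (0 : ℝ)..t, (1 + r) * wgt a κ s v
      = (∫ s in (0 : ℝ)..t, wgt a κ s v) + r * ∫ s in (0 : ℝ)..t, wgt a κ s v := by
    rw [intervalIntegral.integral_const_mul]; ring
  rw [e]
  have h1 : ∫ s in (0 : ℝ)..t, wgt a κ s v ≤ t * wgt a κ t v := by
    refine (intervalIntegral.integral_mono_on ht.1 (hw.intervalIntegrable _ _)
      intervalIntegrable_const hle).trans_eq ?_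
    simp
  have hI0 : 0 ≤ ∫ s in (0 : ℝ)..t, wgt a κ s v :=
    intervalIntegral.integral_nonneg ht.1 fun s _ => (wgt_pos a κ s v).le
  have h2 : r * ∫ s in (0 : ℝ)..t, wgt a κ s v ≤ τ * Real.sqrt (2 / a) * wgt a κ t v := by
    rcases le_or_gt r (Real.sqrt (2 / a)) with h | h
    · calc r * ∫ s in (0 : ℝ)..t, wgt a κ s v ≤ Real.sqrt (2 / a) * (τ * wgt a κ t v) :=
            mul_le_mul h (h1.trans (mul_le_mul_of_nonneg_right ht.2 (wgt_pos a κ t v).le)) hI0
              (Real.sqrt_nonneg _)
        _ = _ := by ring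
    · have hrpos : 0 < r := lt_of_le_of_lt (Real.sqrt_nonneg _) h
      have hd : ∀ s : ℝ, HasDerivAt (fun u => wgt a κ u v / (κ * r)) (r * wgt a κ s v) s := by
        intro s
        have h3 : HasDerivAt (fun u : ℝ => -(a - κ * u) * r ^ 2) (κ * r ^ 2) s := by
          simpa using ((((hasDerivAt_id s).const_mul κ).const_sub a).neg).mul_const (r ^ 2)
        exact (h3.exp.div_const (κ * r)).congr_deriv (by simp only [wgt, ← hr]; field_simp)
      rw [← intervalIntegral.integral_const_mul, intervalIntegral.integral_eq_sub_of_hasDerivAt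
        (fun s _ => hd s) ((hw.const_mul r).intervalIntegrable _ _)]
      have h4 : 0 ≤ wgt a κ 0 v / (κ * r) := div_nonneg (wgt_pos a κ 0 v).le (by positivity)
      have h5 : 1 / (κ * r) ≤ τ * Real.sqrt (2 / a) := by
        rw [div_le_iff₀ (by positivity)]
        have h6 : 2 / a ≤ Real.sqrt (2 / a) * r := by
          calc 2 / a = Real.sqrt (2 / a) * Real.sqrt (2 / a) := (Real.mul_self_sqrt (by positivity)).symm
            _ ≤ _ := mul_le_mul_of_nonneg_left h.le (Real.sqrt_nonneg _)
        calc (1 : ℝ) = τ * κ * (2 / a) := by rw [hκ]; field_simp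
          _ ≤ τ * κ * (Real.sqrt (2 / a) * r) := mul_le_mul_of_nonneg_left h6 (by positivity)
          _ = _ := by ring
      calc wgt a κ t v / (κ * r) - wgt a κ 0 v / (κ * r) ≤ 1 / (κ * r) * wgt a κ t v := by
            rw [one_div_mul_eq_div]; linarith
        _ ≤ _ := mul_le_mul_of_nonneg_right h5 (wgt_pos a κ t v).le
  have h7 := mul_le_mul_of_nonneg_right ht.2 (wgt_pos a κ t v).le
  linarith

lemma measurable_clipQ {F : ℝ → X × V → ℝ} (hF : Measurable (Function.uncurry F)) :
    Measurable fun p : ℝ × (X × V) => clipQ (fun u => F p.1 (p.2.1, u)) p.2.2 := by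
  have hv : Measurable fun q : (ℝ × (X × V)) × V × S2 => (q.1.2.2, q.2) := by fun_prop
  have hp : Measurable fun q : (ℝ × (X × V)) × V × S2 => (q.1.1, q.1.2.1) := by fun_prop
  have hs := measurable_slices hF
  have m1 : Measurable fun q : (ℝ × (X × V)) × V × S2 =>
      F q.1.1 (q.1.2.1, vpost q.1.2.2 q.2.1 q.2.2) := by
    have h2 := hs.comp (hp.prodMk (continuous_vpost.measurable.comp hv))
    simpa only [Function.comp_def] using h2
  have m2 : Measurable fun q : (ℝ × (X × V)) × V × S2 =>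
      F q.1.1 (q.1.2.1, wpost q.1.2.2 q.2.1 q.2.2) := by
    have h2 := hs.comp (hp.prodMk (continuous_wpost.measurable.comp hv))
    simpa only [Function.comp_def] using h2
  have m3 : Measurable fun q : (ℝ × (X × V)) × V × S2 => F q.1.1 (q.1.2.1, q.1.2.2) := by
    have h2 := hs.comp (hp.prodMk (measurable_fst.comp hv))
    simpa only [Function.comp_def] using h2
  have m4 : Measurable fun q : (ℝ × (X × V)) × V × S2 => F q.1.1 (q.1.2.1, q.2.1) := by
    have h2 := hs.comp (hp.prodMk (measurable_fst.comp measurable_snd))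
    simpa only [Function.comp_def] using h2
  have m0 : Measurable fun q : (ℝ × (X × V)) × V × S2 => |rel q.1.2.2 q.2.1 q.2.2| := by
    have h2 := (continuous_abs.measurable.comp continuous_rel.measurable).comp hv
    simpa only [Function.comp_def] using h2
  have hk : Measurable fun q : (ℝ × (X × V)) × V × S2 =>
      kern (fun u => F q.1.1 (q.1.2.1, u)) q.1.2.2 q.2 :=
    m0.mul (((m1.max measurable_const).mul (m2.max measurable_const)).sub
      (m3.mul (m4.max measurable_const)))
  exact hk.stronglyMeasurable.integral_prod_right'.measurable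

/-- The nonlinearity along characteristics. -/
def source (F : ℝ → X × V → ℝ) (s : ℝ) (y : X × V) : ℝ :=
  clipQ (fun u => F s ((shift s y).1, u)) y.2

lemma measurable_source {F : ℝ → X × V → ℝ} (hF : Measurable (Function.uncurry F)) :
    Measurable fun p : ℝ × (X × V) => source F p.1 p.2 := by
  have h2 := (measurable_clipQ hF).comp measurable_along
  simp only [Function.comp_def, shift_snd] at h2
  exact h2

/-- One Picard step. -/
def picard (f₀ : X × V → ℝ) (τ : ℝ) (F : ℝ → X × V → ℝ) (t : ℝ) (z : X × V) : ℝ :=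
  (Icc 0 τ).indicator
    (fun t => f₀ (shift (-t) z) + ∫ s in Ioc 0 t, source F s (shift (-t) z)) t

lemma measurable_picard {f₀ : X × V → ℝ} {τ : ℝ} {F : ℝ → X × V → ℝ} (hf₀ : Measurable f₀)
    (hF : Measurable (Function.uncurry F)) : Measurable (Function.uncurry (picard f₀ τ F)) := by
  have hind : Measurable fun q : (ℝ × (X × V)) × ℝ =>
      (Ioc 0 q.1.1).indicator (fun s => source F s q.1.2) q.2 := by
    simp only [indicator_apply, mem_Ioc]
    refine Measurable.ite ?_ ((measurable_source hF).comp (measurable_snd.prodMk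
      (measurable_snd.comp measurable_fst))) measurable_const
    exact (measurableSet_lt measurable_const measurable_snd).inter
      (measurableSet_le measurable_snd (measurable_fst.comp measurable_fst))
  have hI : Measurable fun p : ℝ × (X × V) => ∫ s in Ioc 0 p.1, source F s p.2 := by
    have h3 := hind.stronglyMeasurable.integral_prod_right'
      (ν := (volume : Measure ℝ)) |>.measurable
    simpa only [integral_indicator measurableSet_Ioc] using h3
  have hb : Measurable fun p : ℝ × (X × V) => (p.1, shift (-p.1) p.2) := by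
    refine measurable_fst.prodMk ?_
    exact measurable_shift_uncurry.comp (measurable_fst.neg.prodMk measurable_snd)
  have hJ : Measurable fun p : ℝ × (X × V) =>
      f₀ (shift (-p.1) p.2) + ∫ s in Ioc 0 p.1, source F s (shift (-p.1) p.2) := by
    have h4 := hI.comp hb
    have h5 := (hf₀.comp measurable_snd).comp hb
    simp only [Function.comp_def] at h4 h5
    exact h5.add h4
  unfold picard Function.uncurry
  simp only [indicator_apply]
  exact Measurable.ite (measurableSet_Icc.preimage measurable_fst) hJ measurable_const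

section Iteration

variable {a τ P C : ℝ} {f₀ : X × V → ℝ} {F G : ℝ → X × V → ℝ}

/-- Uniform bound by the moving weight on `[0,τ]`. -/
def Below (a τ P : ℝ) (F : ℝ → X × V → ℝ) : Prop :=
  ∀ t ∈ Icc 0 τ, ∀ z, |F t z| ≤ P * wgt a (a / (2 * τ)) t z.2

lemma half_le {a τ t : ℝ} (ha : 0 < a) (hτ : 0 < τ) (ht : t ≤ τ) :
    a / 2 ≤ a - a / (2 * τ) * t := by
  have h : a / (2 * τ) * t ≤ a / (2 * τ) * τ := mul_le_mul_of_nonneg_left ht (by positivity)
  have e : a / (2 * τ) * τ = a / 2 := by field_simp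
  linarith

lemma abs_source_le (ha : 0 < a) (hτ : 0 < τ) (hP : 0 ≤ P) (hF : Measurable (Function.uncurry F))
    (hb : Below a τ P F) {s : ℝ} (hs : s ∈ Icc 0 τ) (y : X × V) :
    |source F s y| ≤ 2 * P ^ 2 * kconst a * ((1 + ‖y.2‖) * wgt a (a / (2 * τ)) s y.2) :=
  abs_clipQ_le ha (half_le ha hτ hs.2) hP (hF.comp (by fun_prop :
    Measurable fun u : V => (s, ((shift s y).1, u)))) (fun u => hb s hs _) y.2

lemma integrableOn_source (ha : 0 < a) (hτ : 0 < τ) (hP : 0 ≤ P)
    (hF : Measurable (Function.uncurry F)) (hb : Below a τ P F) {t : ℝ} (ht : t ∈ Icc 0 τ)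
    (y : X × V) : IntegrableOn (fun s => source F s y) (Ioc 0 t) := by
  have hc : Continuous fun s =>
      2 * P ^ 2 * kconst a * ((1 + ‖y.2‖) * wgt a (a / (2 * τ)) s y.2) := by
    unfold wgt; fun_prop
  have hm : Measurable fun s => source F s y := by
    have h2 := (measurable_source hF).comp (measurable_prodMk_right (y := y) (α := ℝ))
    simpa only [Function.comp_def] using h2
  refine (hc.integrableOn_Ioc).mono' hm.aestronglyMeasurable ?_
  filter_upwards [ae_restrict_mem measurableSet_Ioc] with s hs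
  rw [Real.norm_eq_abs]
  exact abs_source_le ha hτ hP hF hb ⟨hs.1.le, hs.2.trans ht.2⟩ y

lemma picard_below (ha : 0 < a) (hτ : 0 < τ) (hP : 0 ≤ P) (hf₀ : ∀ z, |f₀ z| ≤ C * wgt a 0 0 z.2)
    (hC : 0 ≤ C) (hsmall : C + 2 * P ^ 2 * kconst a * (τ * (1 + Real.sqrt (2 / a))) ≤ P)
    (hF : Measurable (Function.uncurry F)) (hb : Below a τ P F) :
    Below a τ P (picard f₀ τ F) := by
  intro t ht z
  rw [picard, indicator_of_mem ht]
  set y := shift (-t) z
  set κ := a / (2 * τ) with hκ
  have hy : y.2 = z.2 := rfl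
  have h0 : |f₀ y| ≤ C * wgt a κ t z.2 := by
    refine (hf₀ y).trans (mul_le_mul_of_nonneg_left ?_ hC)
    rw [hy, wgt, wgt]
    refine Real.exp_le_exp.2 ?_
    have : 0 ≤ κ * t * ‖z.2‖ ^ 2 := mul_nonneg (mul_nonneg (by positivity) ht.1) (sq_nonneg _)
    linarith
  have hc : Continuous fun s => 2 * P ^ 2 * kconst a * ((1 + ‖y.2‖) * wgt a κ s y.2) := by
    unfold wgt; fun_prop
  have h1 : |∫ s in Ioc 0 t, source F s y|
      ≤ 2 * P ^ 2 * kconst a * (τ * (1 + Real.sqrt (2 / a))) * wgt a κ t z.2 := by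
    refine abs_integral_le_integral_abs.trans ?_
    refine (setIntegral_mono_on (integrableOn_source ha hτ hP hF hb ht y).abs hc.integrableOn_Ioc
      measurableSet_Ioc fun s hs => abs_source_le ha hτ hP hF hb ⟨hs.1.le, hs.2.trans ht.2⟩ y).trans ?_
    rw [← intervalIntegral.integral_of_le ht.1, intervalIntegral.integral_const_mul]
    refine (mul_le_mul_of_nonneg_left (integral_weight_le ha hτ ht y.2)
      (by have := kconst_nonneg a; positivity : 0 ≤ 2 * P ^ 2 * kconst a)).trans_eq ?_
    rw [hy]; ring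
  refine (abs_add_le _ _).trans ((add_le_add h0 h1).trans ?_)
  rw [← add_mul]
  exact mul_le_mul_of_nonneg_right hsmall (wgt_pos a κ t z.2).le

lemma picard_contract (ha : 0 < a) (hτ : 0 < τ) (hP : 0 ≤ P)
    (hsmall : 4 * P * kconst a * (τ * (1 + Real.sqrt (2 / a))) ≤ 1 / 2)
    (hF : Measurable (Function.uncurry F)) (hbF : Below a τ P F)
    (hG : Measurable (Function.uncurry G)) (hbG : Below a τ P G) {δ : ℝ} (hδ : 0 ≤ δ)
    (hd : Below a τ δ (fun t z => F t z - G t z)) :
    Below a τ (δ / 2) (fun t z => picard f₀ τ F t z - picard f₀ τ G t z) := by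
  intro t ht z
  simp only [picard, indicator_of_mem ht, add_sub_add_left_eq_sub]
  set y := shift (-t) z
  set κ := a / (2 * τ) with hκ
  have hy : y.2 = z.2 := rfl
  have iF := integrableOn_source ha hτ hP hF hbF ht y
  have iG := integrableOn_source ha hτ hP hG hbG ht y
  have hc : Continuous fun s => 4 * P * kconst a * δ * ((1 + ‖y.2‖) * wgt a κ s y.2) := by
    unfold wgt; fun_prop
  rw [← integral_sub iF iG]
  refine abs_integral_le_integral_abs.trans ?_
  refine (setIntegral_mono_on (iF.sub iG).abs hc.integrableOn_Ioc measurableSet_Ioc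
    fun s hs => ?_).trans ?_
  · have hs' : s ∈ Icc 0 τ := ⟨hs.1.le, hs.2.trans ht.2⟩
    exact abs_clipQ_sub_le ha (half_le ha hτ hs'.2) hP
      (hF.comp (by fun_prop : Measurable fun u : V => (s, ((shift s y).1, u))))
      (hG.comp (by fun_prop : Measurable fun u : V => (s, ((shift s y).1, u))))
      (fun u => hbF s hs' _) (fun u => hbG s hs' _) hδ (fun u => hd s hs' _) y.2
  · rw [← intervalIntegral.integral_of_le ht.1, intervalIntegral.integral_const_mul]
    refine (mul_le_mul_of_nonneg_left (hy ▸ integral_weight_le ha hτ ht y.2)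
      (by have := kconst_nonneg a; positivity)).trans ?_
    calc 4 * P * kconst a * δ * (τ * (1 + Real.sqrt (2 / a)) * wgt a κ t z.2)
        = 4 * P * kconst a * (τ * (1 + Real.sqrt (2 / a))) * (δ * wgt a κ t z.2) := by ring
      _ ≤ 1 / 2 * (δ * wgt a κ t z.2) :=
          mul_le_mul_of_nonneg_right hsmall (mul_nonneg hδ (wgt_pos a κ t z.2).le)
      _ = _ := by ring

end Iteration

/-- Local existence of a tame mild solution. -/
theorem exists_local {f₀ : X × V → ℝ} {a C : ℝ} (ha : 0 < a) (hC : 0 ≤ C) (hf₀m : Measurable f₀)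
    (hf₀ : ∀ z, 0 ≤ f₀ z) (hf₀b : ∀ z, f₀ z ≤ C * Real.exp (-a * ‖z.2‖ ^ 2)) :
    ∀ τ : ℝ, 0 < τ → τ * (1 + Real.sqrt (2 / a)) * (8 * (C + 1) ^ 2 * (kconst a + 1)) ≤ 1 →
    ∃ G A, IsMild f₀ G τ ∧ IsTame G τ 1 A := by
  intro τ hτ hsmall
  set P := C + 1 with hP
  set κ := a / (2 * τ) with hκ
  have hK := kconst_nonneg a
  have hP1 : 1 ≤ P := by linarith
  set ε := τ * (1 + Real.sqrt (2 / a)) with hε
  have hε0 : 0 ≤ ε := by positivity
  have hs1 : C + 2 * P ^ 2 * kconst a * ε ≤ P := by
    have : 2 * P ^ 2 * kconst a * ε ≤ ε * (8 * P ^ 2 * (kconst a + 1)) := by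
      nlinarith [mul_nonneg hε0 (sq_nonneg P), mul_nonneg (mul_nonneg hε0 (sq_nonneg P)) hK]
    linarith
  have hs2 : 4 * P * kconst a * ε ≤ 1 / 2 := by
    have h1 : 4 * P * kconst a * ε ≤ 4 * P ^ 2 * (kconst a + 1) * ε := by
      gcongr
      · nlinarith
      · linarith
    linarith
  have hf₀' : ∀ z, |f₀ z| ≤ C * wgt a 0 0 z.2 := fun z => by
    rw [abs_of_nonneg (hf₀ z), wgt]; simpa using hf₀b z
  let it : ℕ → ℝ → X × V → ℝ := fun n => (picard f₀ τ)^[n] (fun _ _ => 0)
  have hit : ∀ n, it (n + 1) = picard f₀ τ (it n) := fun n => Function.iterate_succ_apply' _ _ _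
  have hm : ∀ n, Measurable (Function.uncurry (it n)) := by
    intro n
    induction n with
    | zero => exact measurable_const
    | succ n ih => rw [hit]; exact measurable_picard hf₀m ih
  have hb : ∀ n, Below a τ P (it n) := by
    intro n
    induction n with
    | zero =>
      intro t _ z
      simp only [it, Function.iterate_zero, id_eq, abs_zero]
      exact mul_nonneg (by linarith) (wgt_pos _ _ _ _).le
    | succ n ih => rw [hit]; exact picard_below ha hτ (by linarith) hf₀' hC hs1 (hm n) ih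
  have hd : ∀ n : ℕ, Below a τ (P / 2 ^ n) (fun t z => it (n + 1) t z - it n t z) := by
    intro n
    induction n with
    | zero =>
      intro t ht z
      simpa [it] using hb 1 t ht z
    | succ n ih =>
      have h2 := picard_contract (f₀ := f₀) ha hτ (by linarith : (0 : ℝ) ≤ P) hs2 (hm (n + 1))
        (hb (n + 1)) (hm n) (hb n) (by positivity) ih
      intro t ht z
      have h3 := h2 t ht z
      simp only [← hit] at h3
      exact h3.trans_eq (by rw [pow_succ, div_div])
  have hout : ∀ n t, t ∉ Icc 0 τ → ∀ z, it n t z = 0 := by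
    intro n t ht z
    cases n with
    | zero => simp [it]
    | succ n => rw [hit, picard, indicator_of_notMem ht]
  have hgeo : ∀ t z n, dist (it n t z) (it (n + 1) t z) ≤ P * wgt a κ t z.2 * (1 / 2) ^ n := by
    intro t z n
    rw [Real.dist_eq, abs_sub_comm]
    by_cases ht : t ∈ Icc 0 τ
    · refine (hd n t ht z).trans_eq ?_
      rw [one_div_pow]; ring
    · rw [hout _ _ ht, hout _ _ ht, sub_self, abs_zero]
      have := wgt_pos a κ t z.2; positivity
  set G : ℝ → X × V → ℝ := fun t z => limUnder atTop fun n => it n t z with hGd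
  have hlim : ∀ t z, Tendsto (fun n => it n t z) atTop (𝓝 (G t z)) := fun t z =>
    (cauchySeq_of_le_geometric _ _ (by norm_num) (hgeo t z)).tendsto_limUnder
  have hGm : Measurable (Function.uncurry G) :=
    measurable_of_tendsto_metrizable hm (tendsto_pi_nhds.2 fun p => hlim p.1 p.2)
  have hGb : Below a τ P G := fun t ht z =>
    le_of_tendsto' ((continuous_abs.tendsto _).comp (hlim t z)) fun n => hb n t ht z
  have hclose : ∀ n : ℕ, Below a τ (2 * P / 2 ^ n) (fun t z => it n t z - G t z) := by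
    intro n t ht z
    have h2 := dist_le_of_le_geometric_of_tendsto (1 / 2) _ (by norm_num) (hgeo t z) (hlim t z) n
    rw [Real.dist_eq] at h2
    refine h2.trans_eq ?_
    rw [one_div_pow]; ring
  -- the fixed point identity
  have hfix : ∀ t ∈ Icc 0 τ, ∀ y, G t (shift t y) = f₀ y + ∫ s in Ioc 0 t, source G s y := by
    intro t ht y
    have h1 : ∀ n : ℕ, |it (n + 1) t (shift t y) - (f₀ y + ∫ s in Ioc 0 t, source G s y)|
        ≤ 2 * P / 2 ^ n / 2 * wgt a κ t y.2 := by
      intro n
      have h2 := picard_contract (f₀ := f₀) ha hτ (by linarith : (0 : ℝ) ≤ P) hs2 (hm n) (hb n) hGm hGb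
        (by positivity) (hclose n) t ht (shift t y)
      have e : picard f₀ τ G t (shift t y) = f₀ y + ∫ s in Ioc 0 t, source G s y := by
        simp only [picard, indicator_of_mem ht, shift_shift, add_neg_cancel, shift_zero]
      simp only [← hit, e, shift_snd] at h2
      exact h2
    refine tendsto_nhds_unique ((hlim t (shift t y)).comp (tendsto_add_atTop_nat 1)) ?_
    refine tendsto_iff_norm_sub_tendsto_zero.2 (squeeze_zero (fun n => norm_nonneg _)
      (fun n => (Real.norm_eq_abs _).trans_le (h1 n)) ?_)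
    have h3 := (tendsto_pow_atTop_nhds_zero_of_lt_one (by norm_num : (0 : ℝ) ≤ 1 / 2)
      (by norm_num : (1 / 2 : ℝ) < 1)).const_mul (P * wgt a κ t y.2)
    rw [mul_zero] at h3
    refine h3.congr fun n => ?_
    rw [one_div_pow]; ring
  -- positivity
  have hnn : ∀ t z, 0 ≤ G t z := by
    intro t z
    by_cases ht : t ∈ Icc 0 τ
    swap
    · exact le_of_eq (tendsto_nhds_unique (tendsto_const_nhds (x := (0 : ℝ)))
        ((hlim t z).congr fun n => hout n t ht z))
    by_contra hneg
    push Not at hneg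
    set y := shift (-t) z with hy
    have hz : shift t y = z := shift_neg t z
    have hI : IntervalIntegrable (fun s => source G s y) volume 0 τ :=
      (intervalIntegrable_iff_integrableOn_Ioc_of_le hτ.le).2
        (integrableOn_source ha hτ (by linarith) hGm hGb ⟨hτ.le, le_rfl⟩ y)
    set g : ℝ → ℝ := fun s => f₀ y + ∫ u in (0 : ℝ)..s, source G u y with hg
    have hgc : ContinuousOn g (Icc 0 τ) :=
      (primitive_facts (c := f₀ y) hτ.le hI).1.continuousOn.mono Icc_subset_uIcc
    have hgG : ∀ s ∈ Icc 0 τ, G s (shift s y) = g s := fun s hs => by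
      rw [hfix s hs y, hg]; simp only [intervalIntegral.integral_of_le hs.1]
    have hgt : g t < 0 := by rw [← hgG t ht, hz]; exact hneg
    set S : Set ℝ := Icc 0 t ∩ g ⁻¹' Ici 0 with hS
    have hSc : IsClosed S :=
      (hgc.mono (Icc_subset_Icc_right ht.2)).preimage_isClosed_of_isClosed isClosed_Icc isClosed_Ici
    have hS0 : (0 : ℝ) ∈ S := ⟨left_mem_Icc.2 ht.1, by simp [hg, hf₀ y]⟩
    have hSb : BddAbove S := ⟨t, fun s hs => hs.1.2⟩
    obtain ⟨hs0, hs0'⟩ := hSc.csSup_mem ⟨0, hS0⟩ hSb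
    set s₀ := sSup S
    have hsub : ∀ u ∈ Icc 0 τ, IntervalIntegrable (fun s => source G s y) volume 0 u := fun u hu =>
      hI.mono_set (by rw [uIcc_of_le hu.1, uIcc_of_le hτ.le]; exact Icc_subset_Icc_right hu.2)
    have hdiff : g t - g s₀ = ∫ u in s₀..t, source G u y := by
      simp only [hg]
      rw [← intervalIntegral.integral_interval_sub_left (hsub t ht)
        (hsub s₀ ⟨hs0.1, hs0.2.trans ht.2⟩)]
      ring
    have hpos : 0 ≤ ∫ u in s₀..t, source G u y := by
      rw [intervalIntegral.integral_of_le hs0.2]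
      refine setIntegral_nonneg measurableSet_Ioc fun u hu => clipQ_nonneg ?_
      have huI : u ∈ Icc 0 τ := ⟨hs0.1.trans hu.1.le, hu.2.trans ht.2⟩
      have hug : g u < 0 := by
        by_contra h
        exact absurd (le_csSup hSb ⟨⟨huI.1, hu.2⟩, not_lt.1 h⟩) (not_le.2 hu.1)
      have : G u ((shift u y).1, y.2) = g u := hgG u huI
      linarith
    have : (0 : ℝ) ≤ g s₀ := hs0'
    linarith
  -- the collision operator
  have hcoll : ∀ s ∈ Icc 0 τ, ∀ y, source G s y = collAt (G s) (shift s y) ∧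
      gainAt (G s) (shift s y) ≤ ENNReal.ofReal (P ^ 2 * kconst a * ((1 + ‖y.2‖) * wgt a κ s y.2)) ∧
      lossAt (G s) (shift s y) ≤ ENNReal.ofReal (P ^ 2 * kconst a * ((1 + ‖y.2‖) * wgt a κ s y.2)) := by
    intro s hs y
    set f : V → ℝ := fun u => G s ((shift s y).1, u) with hf
    have hfm : Measurable f := hGm.comp (by fun_prop : Measurable fun u : V => (s, ((shift s y).1, u)))
    have hfn : ∀ u, 0 ≤ f u := fun u => hnn s _
    have hfb : ∀ u, f u ≤ P * wgt a κ s u := fun u => (le_abs_self _).trans (hGb s hs _)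
    have hv : Measurable fun p : V × S2 => (y.2, p) := measurable_prodMk_left
    set B : V × S2 → ℝ := fun p => P ^ 2 * ((1 + ‖y.2‖) * wgt a κ s y.2)
      * ((1 + ‖p.1‖) * Real.exp (-(a / 2) * ‖p.1‖ ^ 2)) with hB
    have hBi : Integrable B ((volume : Measure V).prod sig) := (integrable_kconst ha).const_mul _
    set u1 : V × S2 → ℝ := fun p =>
      |rel y.2 p.1 p.2| * (f (vpost y.2 p.1 p.2) * f (wpost y.2 p.1 p.2)) with hu1
    set u2 : V × S2 → ℝ := fun p => |rel y.2 p.1 p.2| * (f y.2 * f p.1) with hu2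
    have m1 : Measurable u1 :=
      ((continuous_abs.measurable.comp continuous_rel.measurable).comp hv).mul
        ((hfm.comp (continuous_vpost.measurable.comp hv)).mul
          (hfm.comp (continuous_wpost.measurable.comp hv)))
    have m2 : Measurable u2 :=
      ((continuous_abs.measurable.comp continuous_rel.measurable).comp hv).mul
        ((hfm.comp measurable_fst).const_mul _)
    have b1 : ∀ p, u1 p ≤ B p := by
      intro p
      refine le_trans ?_ (kern_base (half_le ha hτ hs.2) (sq_nonneg P) y.2 p)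
      refine mul_le_mul_of_nonneg_left ?_ (abs_nonneg _)
      rw [← wgt_post a κ s y.2 p.1 p.2]
      refine (mul_le_mul (hfb _) (hfb _) (hfn _)
        (mul_nonneg (by linarith) (wgt_pos _ _ _ _).le)).trans_eq ?_
      ring
    have b2 : ∀ p, u2 p ≤ B p := by
      intro p
      refine le_trans ?_ (kern_base (half_le ha hτ hs.2) (sq_nonneg P) y.2 p)
      refine mul_le_mul_of_nonneg_left ?_ (abs_nonneg _)
      refine (mul_le_mul (hfb _) (hfb _) (hfn _)
        (mul_nonneg (by linarith) (wgt_pos _ _ _ _).le)).trans_eq ?_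
      ring
    have n1 : ∀ p, 0 ≤ u1 p := fun p => mul_nonneg (abs_nonneg _) (mul_nonneg (hfn _) (hfn _))
    have n2 : ∀ p, 0 ≤ u2 p := fun p => mul_nonneg (abs_nonneg _) (mul_nonneg (hfn _) (hfn _))
    have i1 : Integrable u1 ((volume : Measure V).prod sig) := hBi.mono' m1.aestronglyMeasurable
      (Eventually.of_forall fun p => by rw [Real.norm_eq_abs, abs_of_nonneg (n1 p)]; exact b1 p)
    have i2 : Integrable u2 ((volume : Measure V).prod sig) := hBi.mono' m2.aestronglyMeasurable
      (Eventually.of_forall fun p => by rw [Real.norm_eq_abs, abs_of_nonneg (n2 p)]; exact b2 p)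
    have e1 : gain f y.2 = ENNReal.ofReal (∫ p, u1 p ∂((volume : Measure V).prod sig)) :=
      (ofReal_integral_eq_lintegral_ofReal i1 (Eventually.of_forall n1)).symm
    have e2 : loss f y.2 = ENNReal.ofReal (∫ p, u2 p ∂((volume : Measure V).prod sig)) :=
      (ofReal_integral_eq_lintegral_ofReal i2 (Eventually.of_forall n2)).symm
    have eB : ∫ p, B p ∂((volume : Measure V).prod sig)
        = P ^ 2 * kconst a * ((1 + ‖y.2‖) * wgt a κ s y.2) := by
      simp only [hB]; rw [integral_const_mul, kconst]; ring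
    have eg : gainAt (G s) (shift s y) = gain f y.2 := by simp only [gainAt, hf, shift_snd]
    have el : lossAt (G s) (shift s y) = loss f y.2 := by simp only [lossAt, hf, shift_snd]
    refine ⟨?_, ?_, ?_⟩
    · rw [collAt, eg, el, e1, e2, ENNReal.toReal_ofReal (integral_nonneg n1),
        ENNReal.toReal_ofReal (integral_nonneg n2), ← integral_sub i1 i2]
      simp only [source, clipQ, ← hf]
      refine integral_congr_ae (Eventually.of_forall fun p => ?_)
      simp only [kern, hu1, hu2, max_eq_left (hfn _)]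
      ring
    · rw [eg, e1, ← eB]; exact ENNReal.ofReal_le_ofReal (integral_mono i1 hBi b1)
    · rw [el, e2, ← eB]; exact ENNReal.ofReal_le_ofReal (integral_mono i2 hBi b2)
  have hwb : ∀ s ∈ Icc 0 τ, ∀ v : V, wgt a κ s v ≤ Real.exp (-(a / 2) * ‖v‖ ^ 2) := fun s hs v =>
    Real.exp_le_exp.2 (mul_le_mul_of_nonneg_right (by linarith [half_le ha hτ hs.2]) (sq_nonneg _))
  have hfin : ∀ (Q : ℝ → X × V → ℝ≥0∞) (y : X × V),
      (∀ s ∈ Icc 0 τ, Q s y ≤ ENNReal.ofReal (P ^ 2 * kconst a * ((1 + ‖y.2‖) * wgt a κ s y.2))) →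
      ∫⁻ s in Ioc 0 τ, Q s y < ⊤ := by
    intro Q y hQ
    refine lt_of_le_of_lt (setLIntegral_mono measurable_const fun s hs =>
      (hQ s (Ioc_subset_Icc_self hs)).trans (ENNReal.ofReal_le_ofReal
        (mul_le_mul_of_nonneg_left (mul_le_mul_of_nonneg_left
          (hwb s (Ioc_subset_Icc_self hs) y.2) (by positivity)) (by positivity)))) ?_
    rw [setLIntegral_const]
    exact ENNReal.mul_lt_top ENNReal.ofReal_lt_top measure_Ioc_lt_top
  set Ge := fun w : V => (1 + ‖w‖) * Real.exp (-(a / 2) * ‖w‖ ^ 2)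
  set Ee := fun z : X × V => (1 + ‖z.2‖) * Real.exp ‖z.2‖ * Real.exp (-(a / 2) * ‖z.2‖ ^ 2)
  refine ⟨G, P * (∫ w, Ge w) + P * ∫ z, Ee z, ⟨hGm, hnn,
    Eventually.of_forall fun y => hfin (fun s y => gainAt (G s) (shift s y)) y fun s hs => (hcoll s hs y).2.1,
    Eventually.of_forall fun y => hfin (fun s y => lossAt (G s) (shift s y)) y fun s hs => (hcoll s hs y).2.2,
    Eventually.of_forall fun y => ?_⟩, ⟨?_, ?_⟩⟩
  · filter_upwards [ae_restrict_mem measurableSet_Ioc] with t ht
    rw [hfix t (Ioc_subset_Icc_self ht) y, intervalIntegral.integral_of_le ht.1.le]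
    refine congrArg _ (setIntegral_congr_fun measurableSet_Ioc fun s hs => ?_)
    exact (hcoll s ⟨hs.1.le, hs.2.trans ht.2⟩ y).1
  · have hmem : ∀ᵐ p : ℝ × X ∂(μt τ).prod volume, p.1 ∈ Ioc 0 τ :=
      Measure.quasiMeasurePreserving_fst.ae (ae_restrict_mem measurableSet_Ioc)
    have iG : Integrable Ge := integrable_gauss_mom (by positivity)
    filter_upwards [hmem] with p hp
    refine le_trans (lintegral_mono fun w => ENNReal.ofReal_le_ofReal (?_ : _ ≤ P * Ge w)) ?_
    · calc G p.1 (p.2, w) * (1 + ‖w‖) ≤ P * wgt a κ p.1 w * (1 + ‖w‖) :=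
            mul_le_mul_of_nonneg_right ((le_abs_self _).trans (hGb p.1 (Ioc_subset_Icc_self hp) _))
              (by positivity)
        _ ≤ P * Real.exp (-(a / 2) * ‖w‖ ^ 2) * (1 + ‖w‖) := by
            gcongr; exact hwb p.1 (Ioc_subset_Icc_self hp) w
        _ = P * Ge w := by simp only [Ge]; ring
    · rw [← ofReal_integral_eq_lintegral_ofReal (iG.const_mul P)
        (Eventually.of_forall fun w => by positivity), integral_const_mul]
      refine ENNReal.ofReal_le_ofReal (le_add_of_nonneg_right ?_)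
      exact mul_nonneg (by linarith) (integral_nonneg fun z => by positivity)
  · have iE : Integrable Ee := (integrable_gauss_exp (by positivity : 0 < a / 2)).comp_snd _
    filter_upwards [ae_restrict_mem measurableSet_Ioc] with t ht
    refine le_trans (lintegral_mono fun z => ENNReal.ofReal_le_ofReal (?_ : _ ≤ P * Ee z)) ?_
    · calc Real.exp (1 * ‖z.2‖) * G t z
          ≤ Real.exp ‖z.2‖ * (P * Real.exp (-(a / 2) * ‖z.2‖ ^ 2)) := by
            rw [one_mul]
            refine mul_le_mul_of_nonneg_left ?_ (Real.exp_pos _).le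
            exact ((le_abs_self _).trans (hGb t (Ioc_subset_Icc_self ht) z)).trans
              (mul_le_mul_of_nonneg_left (hwb t (Ioc_subset_Icc_self ht) z.2) (by linarith))
        _ ≤ (1 + ‖z.2‖) * (Real.exp ‖z.2‖ * (P * Real.exp (-(a / 2) * ‖z.2‖ ^ 2))) :=
            le_mul_of_one_le_left (by positivity) (le_add_of_nonneg_right (norm_nonneg _))
        _ = P * Ee z := by simp only [Ee]; ring
    · rw [← ofReal_integral_eq_lintegral_ofReal (iE.const_mul P)
        (Eventually.of_forall fun z => by positivity), integral_const_mul]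
      refine ENNReal.ofReal_le_ofReal (le_add_of_nonneg_left ?_)
      exact mul_nonneg (by linarith) (integral_nonneg fun w => by positivity)

end Vale.Agent.P140
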