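import Mathlib
import Vale.Agent.P140.Coll
import Vale.Agent.P140.OneDim

/-! The gain-only majorant in `L¹` with a shrinking exponential velocity weight. -/

noncomputable section

open MeasureTheory Set Filter
open scoped ENNReal Topology

namespace Vale.Agent.P140

/-- Gain integral of a `[0,∞]`-valued function. -/
def gainE (f g : V → ℝ≥0∞) (v : V) : ℝ≥0∞ :=
  ∫⁻ p : V × S2, ENNReal.ofReal |rel v p.1 p.2| * (f (vpost v p.1 p.2) * g (wpost v p.1 p.2))
    ∂((volume : Measure V).prod sig)

/-- Collision frequency of a `[0,∞]`-valued function. -/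
def rateE (g : V → ℝ≥0∞) (v : V) : ℝ≥0∞ :=
  ∫⁻ p : V × S2, ENNReal.ofReal |rel v p.1 p.2| * g p.1 ∂((volume : Measure V).prod sig)

/-- The moment `∫ (1+|v|) f`. -/
def momE (f : V → ℝ≥0∞) : ℝ≥0∞ := ∫⁻ w, ENNReal.ofReal (1 + ‖w‖) * f w

lemma measurable_gainE {α : Type*} [MeasurableSpace α] {f g : α → V → ℝ≥0∞}
    (hf : Measurable (Function.uncurry f)) (hg : Measurable (Function.uncurry g)) :
    Measurable fun p : α × V => gainE (f p.1) (g p.1) p.2 := by
  have hv : Measurable fun q : (α × V) × V × S2 => (q.1.2, q.2) := by fun_prop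
  exact ((((continuous_abs.measurable.comp continuous_rel.measurable).comp hv).ennreal_ofReal).mul
    ((hf.comp ((measurable_fst.comp measurable_fst).prodMk
        (continuous_vpost.measurable.comp hv))).mul
      (hg.comp ((measurable_fst.comp measurable_fst).prodMk
        (continuous_wpost.measurable.comp hv))))).lintegral_prod_right'

lemma measurable_rateE {α : Type*} [MeasurableSpace α] {g : α → V → ℝ≥0∞}
    (hg : Measurable (Function.uncurry g)) :
    Measurable fun p : α × V => rateE (g p.1) p.2 := by
  have hv : Measurable fun q : (α × V) × V × S2 => (q.1.2, q.2) := by fun_prop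
  exact ((((continuous_abs.measurable.comp continuous_rel.measurable).comp hv).ennreal_ofReal).mul
    (hg.comp ((measurable_fst.comp measurable_fst).prodMk
      (measurable_fst.comp measurable_snd)))).lintegral_prod_right'

lemma measurable_gainE1 {f g : V → ℝ≥0∞} (hf : Measurable f) (hg : Measurable g) :
    Measurable (gainE f g) := by
  have h := (measurable_gainE (α := Unit) (f := fun _ => f) (g := fun _ => g)
    (hf.comp measurable_snd) (hg.comp measurable_snd)).comp (measurable_prodMk_left (x := ()) (β := V))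
  simpa only [Function.comp_def] using h

lemma measurable_rateE1 {g : V → ℝ≥0∞} (hg : Measurable g) : Measurable (rateE g) := by
  have h := (measurable_rateE (α := Unit) (g := fun _ => g) (hg.comp measurable_snd)).comp
    (measurable_prodMk_left (x := ()) (β := V))
  simpa only [Function.comp_def] using h

lemma gainE_mono {f f' g g' : V → ℝ≥0∞} (hf : f ≤ f') (hg : g ≤ g') (v : V) :
    gainE f g v ≤ gainE f' g' v :=
  lintegral_mono fun _ => mul_le_mul' le_rfl (mul_le_mul' (hf _) (hg _))

lemma rateE_mono {g g' : V → ℝ≥0∞} (hg : g ≤ g') (v : V) : rateE g v ≤ rateE g' v :=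
  lintegral_mono fun _ => mul_le_mul' le_rfl (hg _)

lemma rateE_congr {g g' : V → ℝ≥0∞} (hg : g =ᵐ[volume] g') (v : V) : rateE g v = rateE g' v := by
  refine lintegral_congr_ae ?_
  filter_upwards [Measure.quasiMeasurePreserving_fst.ae hg] with p hp
  rw [hp]

lemma rateE_le {g : V → ℝ≥0∞} (hg : Measurable g) (v : V) :
    rateE g v ≤ ENNReal.ofReal (1 + ‖v‖) * momE g * sig univ := by
  have hm : Measurable fun w : V => ENNReal.ofReal (1 + ‖w‖) * g w := by fun_prop
  calc rateE g v ≤ ∫⁻ p : V × S2, ENNReal.ofReal (1 + ‖v‖) *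
        (ENNReal.ofReal (1 + ‖p.1‖) * g p.1) ∂((volume : Measure V).prod sig) := by
        refine lintegral_mono fun p => ?_
        rw [← mul_assoc, ← ENNReal.ofReal_mul (by positivity)]
        exact mul_le_mul' (ENNReal.ofReal_le_ofReal (abs_rel_le v p.1 p.2)) le_rfl
    _ = _ := by
        rw [lintegral_const_mul' _ _ ENNReal.ofReal_ne_top,
          lintegral_prod (fun p : V × S2 => ENNReal.ofReal (1 + ‖p.1‖) * g p.1)
            (hm.comp measurable_fst).aemeasurable]
        simp only [lintegral_const]
        rw [lintegral_mul_const _ hm, momE, mul_assoc]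

lemma lintegral_gainE {f g : V → ℝ≥0∞} (hf : Measurable f) (hg : Measurable g) :
    ∫⁻ v, gainE f g v = ∫⁻ v, f v * rateE g v := by
  have hm : Measurable fun q : V × V × S2 =>
      ENNReal.ofReal |rel q.1 q.2.1 q.2.2| * (f q.1 * g q.2.1) :=
    ((continuous_abs.measurable.comp continuous_rel.measurable).ennreal_ofReal).mul
      ((hf.comp measurable_fst).mul (hg.comp (measurable_fst.comp measurable_snd)))
  have h := lintegral_post (Φ := fun a b o => ENNReal.ofReal |rel a b o| * (f a * g b)) hm
  simp only [rel_post, abs_neg] at h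
  refine h.trans (lintegral_congr fun v => ?_)
  simp only [mul_left_comm _ (f v)]
  refine lintegral_const_mul _ ?_
  have hv : Measurable fun p : V × S2 => (v, p) := measurable_prodMk_left
  exact (((continuous_abs.measurable.comp continuous_rel.measurable).comp hv).ennreal_ofReal).mul
    (hg.comp measurable_fst)

lemma lintegral_mul_rateE_le (f : V → ℝ≥0∞) {g : V → ℝ≥0∞} (hf : Measurable f) (hg : Measurable g) :
    ∫⁻ v, f v * rateE g v ≤ momE f * momE g * sig univ := by
  refine (lintegral_mono fun v => mul_le_mul' le_rfl (rateE_le hg v)).trans_eq ?_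
  have hm : Measurable fun w : V => ENNReal.ofReal (1 + ‖w‖) * f w := by fun_prop
  have e : ∀ w, f w * (ENNReal.ofReal (1 + ‖w‖) * momE g * sig univ)
      = ENNReal.ofReal (1 + ‖w‖) * f w * momE g * sig univ := fun w => by ring
  simp only [e]
  rw [lintegral_mul_const _ (hm.mul_const _), lintegral_mul_const _ hm, momE, momE]

/-- Exponential weight. -/
def ew (b : ℝ) (v : V) : ℝ≥0∞ := ENNReal.ofReal (Real.exp (b * ‖v‖))

lemma measurable_ew (b : ℝ) : Measurable (ew b) := by unfold ew; fun_prop

lemma lintegral_ew_gainE {f : V → ℝ≥0∞} (hf : Measurable f) {b : ℝ} (hb : 0 ≤ b) :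
    ∫⁻ v, ew b v * gainE f f v
      ≤ 2 * sig univ * ((∫⁻ v, ew b v * f v) * ∫⁻ v, ENNReal.ofReal ‖v‖ * (ew b v * f v)) := by
  set φ : V → ℝ≥0∞ := fun v => ew b v * f v with hφ
  have hφm : Measurable φ := (measurable_ew b).mul hf
  have hψm : Measurable fun v => ENNReal.ofReal ‖v‖ * φ v := (by fun_prop : Measurable fun v : V =>
    ENNReal.ofReal ‖v‖).mul hφm
  have hrel : Measurable fun q : V × V × S2 => ENNReal.ofReal |rel q.1 q.2.1 q.2.2| :=
    (continuous_abs.measurable.comp continuous_rel.measurable).ennreal_ofReal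
  have hm : Measurable fun q : V × V × S2 => ew b (vpost q.1 q.2.1 q.2.2) *
      (ENNReal.ofReal |rel q.1 q.2.1 q.2.2| * (f q.1 * f q.2.1)) :=
    ((measurable_ew b).comp continuous_vpost.measurable).mul (hrel.mul
      ((hf.comp measurable_fst).mul (hf.comp (measurable_fst.comp measurable_snd))))
  have h := lintegral_post (Φ := fun v w o => ew b (vpost v w o) *
    (ENNReal.ofReal |rel v w o| * (f v * f w))) hm
  simp only [rel_post, abs_neg, vpost_post] at h
  have e : ∫⁻ v, ew b v * gainE f f v = ∫⁻ v : V, ∫⁻ p : V × S2, ew b (vpost v p.1 p.2) *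
      (ENNReal.ofReal |rel v p.1 p.2| * (f v * f p.1)) ∂((volume : Measure V).prod sig) := by
    rw [← h]
    refine lintegral_congr fun v => ?_
    exact (lintegral_const_mul' _ _ ENNReal.ofReal_ne_top).symm
  rw [e]
  calc ∫⁻ v : V, ∫⁻ p : V × S2, ew b (vpost v p.1 p.2) *
        (ENNReal.ofReal |rel v p.1 p.2| * (f v * f p.1)) ∂((volume : Measure V).prod sig)
      ≤ ∫⁻ v : V, ∫⁻ p : V × S2, ((ENNReal.ofReal ‖v‖ * φ v) * φ p.1 +
          φ v * (ENNReal.ofReal ‖p.1‖ * φ p.1)) ∂((volume : Measure V).prod sig) := by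
        refine lintegral_mono fun v => lintegral_mono fun p => ?_
        have h1 : ew b (vpost v p.1 p.2) ≤ ew b v * ew b p.1 := by
          rw [ew, ew, ew, ← ENNReal.ofReal_mul (Real.exp_pos _).le, ← Real.exp_add, ← mul_add]
          refine ENNReal.ofReal_le_ofReal (Real.exp_le_exp.2 (mul_le_mul_of_nonneg_left ?_ hb))
          have h2 := norm_sq_post v p.1 p.2
          nlinarith [norm_nonneg v, norm_nonneg p.1, norm_nonneg (vpost v p.1 p.2),
            sq_nonneg ‖wpost v p.1 p.2‖, mul_nonneg (norm_nonneg v) (norm_nonneg p.1)]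
        refine (mul_le_mul' h1 (mul_le_mul' ((ENNReal.ofReal_le_ofReal
          (abs_rel_le_add v p.1 p.2)).trans ENNReal.ofReal_add_le) le_rfl)).trans_eq ?_
        simp only [hφ]; ring
    _ = _ := by
        have mF : ∀ {k : V → ℝ≥0∞}, Measurable k →
            ∫⁻ p : V × S2, k p.1 ∂((volume : Measure V).prod sig) = (∫⁻ w, k w) * sig univ := by
          intro k hk
          rw [lintegral_prod (fun p : V × S2 => k p.1) (hk.comp measurable_fst).aemeasurable]
          simp only [lintegral_const]
          rw [lintegral_mul_const _ hk]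
        have inner : ∀ v, ∫⁻ p : V × S2, ((ENNReal.ofReal ‖v‖ * φ v) * φ p.1 +
            φ v * (ENNReal.ofReal ‖p.1‖ * φ p.1)) ∂((volume : Measure V).prod sig)
            = (ENNReal.ofReal ‖v‖ * φ v) * ((∫⁻ w, φ w) * sig univ)
              + φ v * ((∫⁻ w, ENNReal.ofReal ‖w‖ * φ w) * sig univ) := by
          intro v
          have m1 : Measurable fun p : V × S2 => φ p.1 := hφm.comp measurable_fst
          have m2 : Measurable fun p : V × S2 => (ENNReal.ofReal ‖v‖ * φ v) * φ p.1 := m1.const_mul _
          rw [lintegral_add_left m2, lintegral_const_mul _ m1,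
            lintegral_const_mul (φ v) (f := fun p : V × S2 => ENNReal.ofReal ‖p.1‖ * φ p.1)
              (hψm.comp measurable_fst), mF hφm, mF hψm]
        simp only [inner]
        rw [lintegral_add_left (hψm.mul_const _), lintegral_mul_const _ hψm,
          lintegral_mul_const _ hφm]
        simp only [hφ]; ring

/-- Exchanging the order in `∫_{0<r<s≤t}`. -/
lemma lintegral_triangle {K : ℝ → ℝ → ℝ≥0∞} (hK : Measurable (Function.uncurry K)) (t : ℝ) :
    ∫⁻ s in Ioc 0 t, ∫⁻ r in Ioc 0 s, K r s = ∫⁻ r in Ioc 0 t, ∫⁻ s in Ioc r t, K r s := by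
  have hT : MeasurableSet {p : ℝ × ℝ | 0 < p.1 ∧ p.1 ≤ p.2 ∧ p.2 ≤ t} :=
    ((measurableSet_lt measurable_const measurable_fst).inter
      ((measurableSet_le measurable_fst measurable_snd).inter
        (measurableSet_le measurable_snd measurable_const)))
  set J : ℝ → ℝ → ℝ≥0∞ := fun r s =>
    ({p : ℝ × ℝ | 0 < p.1 ∧ p.1 ≤ p.2 ∧ p.2 ≤ t}).indicator (Function.uncurry K) (r, s) with hJ
  have hJm : Measurable (Function.uncurry J) := hK.indicator hT
  have e1 : ∫⁻ s in Ioc 0 t, ∫⁻ r in Ioc 0 s, K r s = ∫⁻ s, ∫⁻ r, J r s := by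
    rw [← lintegral_indicator measurableSet_Ioc]
    refine lintegral_congr fun s => ?_
    by_cases hs : s ∈ Ioc 0 t
    · rw [indicator_of_mem hs, ← lintegral_indicator measurableSet_Ioc]
      refine lintegral_congr fun r => ?_
      by_cases hr : r ∈ Ioc 0 s
      · rw [indicator_of_mem hr, hJ]; simp [hr.1, hr.2, hs.2]
      · rw [indicator_of_notMem hr]
        simp only [mem_Ioc, not_and] at hr
        simp only [hJ]
        rw [indicator_of_notMem]
        rintro ⟨h1, h2, -⟩; exact hr h1 h2
    · rw [indicator_of_notMem hs]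
      refine (lintegral_eq_zero_of_ae_eq_zero (Eventually.of_forall fun r => ?_)).symm
      simp only [hJ, Pi.zero_apply]
      rw [indicator_of_notMem]
      rintro ⟨h1, h2, h3⟩; exact hs ⟨h1.trans_le h2, h3⟩
  have e2 : ∫⁻ r in Ioc 0 t, ∫⁻ s in Ioc r t, K r s = ∫⁻ r, ∫⁻ s, J r s := by
    rw [← lintegral_indicator measurableSet_Ioc]
    refine lintegral_congr fun r => ?_
    by_cases hr : r ∈ Ioc 0 t
    · rw [indicator_of_mem hr, Measure.restrict_congr_set Ioc_ae_eq_Icc,
        ← lintegral_indicator measurableSet_Icc]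
      refine lintegral_congr fun s => ?_
      by_cases hs : s ∈ Icc r t
      · rw [indicator_of_mem hs, hJ]; simp [hr.1, hs.1, hs.2]
      · rw [indicator_of_notMem hs]
        simp only [mem_Icc, not_and] at hs
        simp only [hJ]
        rw [indicator_of_notMem]
        rintro ⟨-, h2, h3⟩; exact hs h2 h3
    · rw [indicator_of_notMem hr]
      refine (lintegral_eq_zero_of_ae_eq_zero (Eventually.of_forall fun s => ?_)).symm
      simp only [hJ, Pi.zero_apply]
      rw [indicator_of_notMem]
      rintro ⟨h1, h2, h3⟩; exact hr ⟨h1, h2.trans h3⟩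
  rw [e1, e2]
  exact (lintegral_lintegral_swap hJm.aemeasurable).symm

lemma measurable_cumG {α : Type*} [MeasurableSpace α] {h : ℝ → α → ℝ≥0∞}
    (hh : Measurable (Function.uncurry h)) :
    Measurable fun p : ℝ × α => ∫⁻ s in Ioc 0 p.1, h s p.2 := by
  have e : ∀ p : ℝ × α, ∫⁻ s in Ioc 0 p.1, h s p.2
      = ∫⁻ s, (Ioc 0 p.1).indicator (fun s => h s p.2) s :=
    fun p => (lintegral_indicator measurableSet_Ioc _).symm
  simp only [e]
  have hm : Measurable fun q : (ℝ × α) × ℝ =>
      (Ioc 0 q.1.1).indicator (fun s => h s q.1.2) q.2 := by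
    simp only [indicator_apply, mem_Ioc]
    refine Measurable.ite ?_ (hh.comp (measurable_snd.prodMk
      (measurable_snd.comp measurable_fst))) measurable_const
    exact (measurableSet_lt measurable_const measurable_snd).inter
      (measurableSet_le measurable_snd (measurable_fst.comp measurable_fst))
  exact hm.lintegral_prod_right'

/-- Iterates for the gain-only majorant. -/
def majIter (g : V → ℝ≥0∞) : ℕ → ℝ → V → ℝ≥0∞
  | 0 => fun _ _ => 0
  | n + 1 => fun t v => g v + ∫⁻ s in Ioc 0 t, gainE (majIter g n s) (majIter g n s) v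

/-- The gain-only majorant. -/
def maj (g : V → ℝ≥0∞) (t : ℝ) (v : V) : ℝ≥0∞ := ⨆ n, majIter g n t v

variable {g : V → ℝ≥0∞}

lemma measurable_majIter (hg : Measurable g) :
    ∀ n, Measurable (Function.uncurry (majIter g n)) := by
  intro n
  induction n with
  | zero => exact measurable_const
  | succ n ih =>
    have h1 := measurable_gainE (f := majIter g n) (g := majIter g n) ih ih
    exact (hg.comp measurable_snd).add
      (measurable_cumG (h := fun s v => gainE (majIter g n s) (majIter g n s) v) h1)

lemma measurable_maj (hg : Measurable g) : Measurable (Function.uncurry (maj g)) :=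
  Measurable.iSup (measurable_majIter hg)

lemma monotone_majIter (t : ℝ) (v : V) : Monotone fun n => majIter g n t v := by
  have key : ∀ n t v, majIter g n t v ≤ majIter g (n + 1) t v := by
    intro n
    induction n with
    | zero => intro t v; exact bot_le
    | succ n ih =>
      intro t v
      refine add_le_add le_rfl (lintegral_mono fun s => ?_)
      exact gainE_mono (fun w => ih s w) (fun w => ih s w) v
  exact monotone_nat_of_le_succ fun n => key n t v

lemma maj_eq (hg : Measurable g) (t : ℝ) (v : V) :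
    maj g t v = g v + ∫⁻ s in Ioc 0 t, gainE (maj g s) (maj g s) v := by
  have hm : ∀ n s, Measurable (majIter g n s) := fun n s =>
    (measurable_majIter hg n).comp measurable_prodMk_left
  have e1 : ∀ s, gainE (maj g s) (maj g s) v = ⨆ n, gainE (majIter g n s) (majIter g n s) v := by
    intro s
    have hv : Measurable fun p : V × S2 => (v, p) := measurable_prodMk_left
    simp only [gainE]
    have hI : ∀ n, Measurable fun p : V × S2 => ENNReal.ofReal |rel v p.1 p.2| *
        (majIter g n s (vpost v p.1 p.2) * majIter g n s (wpost v p.1 p.2)) := fun n =>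
      (((continuous_abs.measurable.comp continuous_rel.measurable).comp
        hv).ennreal_ofReal).mul (((hm n s).comp (continuous_vpost.measurable.comp hv)).mul
        ((hm n s).comp (continuous_wpost.measurable.comp hv)))
    rw [← lintegral_iSup hI
      (fun i j hij p => mul_le_mul' le_rfl (mul_le_mul' (monotone_majIter s _ hij)
        (monotone_majIter s _ hij)))]
    refine lintegral_congr fun p => ?_
    rw [← ENNReal.mul_iSup]
    refine congrArg _ (le_antisymm ?_ (iSup_le fun n => mul_le_mul'
      (le_iSup (fun n => majIter g n s (vpost v p.1 p.2)) n)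
      (le_iSup (fun n => majIter g n s (wpost v p.1 p.2)) n)))
    simp only [maj, ENNReal.iSup_mul, ENNReal.mul_iSup]
    exact iSup_le fun i => iSup_le fun j => le_iSup_of_le (max i j) (mul_le_mul'
      (monotone_majIter s _ (le_max_right i j)) (monotone_majIter s _ (le_max_left i j)))
  simp only [e1]
  have hgm : ∀ n, Measurable fun s => gainE (majIter g n s) (majIter g n s) v := fun n => by
    have h1 := (measurable_gainE (f := majIter g n) (g := majIter g n) (measurable_majIter hg n)
      (measurable_majIter hg n)).comp (measurable_prodMk_right (y := v) (α := ℝ))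
    simpa only [Function.comp_def] using h1
  rw [lintegral_iSup hgm (fun i j hij s => gainE_mono (fun w => monotone_majIter s w hij)
    (fun w => monotone_majIter s w hij) v), ENNReal.add_iSup]
  have h0 : maj g t v = ⨆ n, majIter g (n + 1) t v :=
    le_antisymm (iSup_le fun n => (monotone_majIter t v (Nat.le_succ n)).trans
        (le_iSup (fun n => majIter g (n + 1) t v) n))
      (iSup_le fun n => le_iSup (fun n => majIter g n t v) (n + 1))
  exact h0

lemma weighted_identity {e k Q : ℝ → ℝ≥0∞} {gv : ℝ≥0∞} {t : ℝ} (ht : 0 ≤ t)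
    (hk : Measurable k) (hQ : Measurable Q)
    (hftc : ∀ r, r ≤ t → e t + ∫⁻ s in Ioc r t, k s = e r) :
    e t * (gv + ∫⁻ s in Ioc 0 t, Q s) + ∫⁻ s in Ioc 0 t, k s * (gv + ∫⁻ r in Ioc 0 s, Q r)
      = e 0 * gv + ∫⁻ r in Ioc 0 t, e r * Q r := by
  have tri := lintegral_triangle (K := fun r s => k s * Q r)
    ((hk.comp measurable_snd).mul (hQ.comp measurable_fst)) t
  simp only [lintegral_const_mul _ hQ, lintegral_mul_const _ hk] at tri
  simp only [mul_add]
  rw [lintegral_add_left (hk.mul_const _), lintegral_mul_const _ hk, tri,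
    ← lintegral_const_mul _ hQ, add_add_add_comm, ← add_mul, hftc 0 ht,
    ← lintegral_add_left (hQ.const_mul _)]
  refine congrArg _ (setLIntegral_congr_fun measurableSet_Ioc fun r hr => ?_)
  simp only [← add_mul, hftc r hr.2]

lemma weighted_sum {e k F Q : ℝ → V → ℝ≥0∞} {G : V → ℝ≥0∞} {t : ℝ}
    (he : Measurable (Function.uncurry e)) (hk : Measurable (Function.uncurry k))
    (hF : Measurable (Function.uncurry F)) (hQ : Measurable (Function.uncurry Q)) (hG : Measurable G)
    (h : ∀ v, e t v * F t v + ∫⁻ s in Ioc 0 t, k s v * F s v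
      = e 0 v * G v + ∫⁻ r in Ioc 0 t, e r v * Q r v) :
    (∫⁻ v, e t v * F t v) + ∫⁻ s in Ioc 0 t, ∫⁻ v, k s v * F s v
      = (∫⁻ v, e 0 v * G v) + ∫⁻ r in Ioc 0 t, ∫⁻ v, e r v * Q r v := by
  have m1 : Measurable fun v => e t v * F t v :=
    (he.comp (measurable_prodMk_left (x := t))).mul (hF.comp (measurable_prodMk_left (x := t)))
  have m2 : Measurable fun v => e 0 v * G v :=
    (he.comp (measurable_prodMk_left (x := (0 : ℝ)))).mul hG
  rw [lintegral_lintegral_swap (f := fun s v => k s v * F s v) (hk.mul hF).aemeasurable,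
    lintegral_lintegral_swap (f := fun r v => e r v * Q r v) (he.mul hQ).aemeasurable,
    ← lintegral_add_left m1, ← lintegral_add_left m2]
  exact lintegral_congr h

lemma maj_bound (hg : Measurable g) {a κ N : ℝ} (hκ : 0 < κ) (hN : 0 ≤ N)
    (hκN : 8 * (sig univ).toReal * N ≤ κ)
    (hgN : ∫⁻ v, ew a v * g v ≤ ENNReal.ofReal N) :
    ∀ t ∈ Icc 0 (a / (2 * κ)), ∫⁻ v, ew (a / 2) v * maj g t v ≤ ENNReal.ofReal (2 * N) := by
  rcases lt_or_ge a 0 with ha | ha
  · intro t ht
    exfalso
    have : a / (2 * κ) < 0 := div_neg_of_neg_of_pos ha (by positivity)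
    linarith [ht.1, ht.2]
  set τ := a / (2 * κ) with hτ
  set e : ℝ → V → ℝ≥0∞ := fun t v => ew (a - κ * t) v with he
  have hem : Measurable (Function.uncurry e) := by unfold e ew; fun_prop
  have hτle : ∀ t ≤ τ, a / 2 ≤ a - κ * t := fun t ht => by
    have h1 : κ * t ≤ κ * τ := mul_le_mul_of_nonneg_left ht hκ.le
    have h2 : κ * τ = a / 2 := by rw [hτ]; field_simp
    linarith
  have ftc : ∀ r t : ℝ, r ≤ t → ∀ v, e t v +
      ∫⁻ s in Ioc r t, ENNReal.ofReal κ * (ENNReal.ofReal ‖v‖ * e s v) = e r v := by
    intro r t hrt v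
    set k : ℝ → ℝ := fun s => κ * (‖v‖ * Real.exp ((a - κ * s) * ‖v‖)) with hk
    have hkc : Continuous k := by fun_prop
    have hd : ∀ s, HasDerivAt (fun s => -Real.exp ((a - κ * s) * ‖v‖)) (k s) s := by
      intro s
      have h1 : HasDerivAt (fun s : ℝ => (a - κ * s) * ‖v‖) (-κ * ‖v‖) s := by
        simpa using (((hasDerivAt_id s).const_mul κ).const_sub a).mul_const ‖v‖
      exact h1.exp.neg.congr_deriv (by simp only [hk]; ring)
    have hI : ∫⁻ s in Ioc r t, ENNReal.ofReal κ * (ENNReal.ofReal ‖v‖ * e s v)
        = ENNReal.ofReal (∫ s in r..t, k s) := by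
      rw [intervalIntegral.integral_of_le hrt, ofReal_integral_eq_lintegral_ofReal hkc.integrableOn_Ioc
        (Eventually.of_forall fun s => by positivity)]
      refine lintegral_congr fun s => ?_
      simp only [he, ew, hk]
      rw [ENNReal.ofReal_mul hκ.le, ENNReal.ofReal_mul (norm_nonneg v)]
    rw [hI, intervalIntegral.integral_eq_sub_of_hasDerivAt (fun s _ => hd s) (hkc.intervalIntegrable _ _)]
    simp only [he, ew]
    rw [← ENNReal.ofReal_add (Real.exp_pos _).le]
    · congr 1; ring
    · have : Real.exp ((a - κ * t) * ‖v‖) ≤ Real.exp ((a - κ * r) * ‖v‖) :=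
        Real.exp_le_exp.2 (mul_le_mul_of_nonneg_right (by nlinarith) (norm_nonneg v))
      linarith
  clear_value e
  set M : ℕ → ℝ → ℝ≥0∞ := fun n t => ∫⁻ v, e t v * majIter g n t v with hM
  set D : ℕ → ℝ → ℝ≥0∞ := fun n t =>
    ∫⁻ s in Ioc 0 t, ∫⁻ v, ENNReal.ofReal ‖v‖ * (e s v * majIter g n s v) with hD
  have claim : ∀ n, ∀ t ∈ Icc 0 τ,
      M n t + ENNReal.ofReal κ * D n t ≤ ENNReal.ofReal (2 * N) := by
    intro n
    induction n with
    | zero => intro t _; simp [hM, hD, majIter]
    | succ n ih =>
      intro t ht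
      obtain ⟨Q, hQ⟩ : ∃ Q : ℝ → V → ℝ≥0∞, ∀ s v, gainE (majIter g n s) (majIter g n s) v = Q s v :=
        ⟨_, fun _ _ => rfl⟩
      have hQm : Measurable (Function.uncurry Q) := by
        have h1 := measurable_gainE (f := majIter g n) (g := majIter g n)
          (measurable_majIter hg n) (measurable_majIter hg n)
        simpa only [hQ, Function.uncurry_def] using h1
      have hkm : Measurable fun p : ℝ × V => ENNReal.ofReal κ * (ENNReal.ofReal ‖p.2‖ * e p.1 p.2) :=
        ((by fun_prop : Measurable fun p : ℝ × V => ENNReal.ofReal ‖p.2‖).mul hem).const_mul _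
      have key : M (n + 1) t + ENNReal.ofReal κ * D (n + 1) t
          = (∫⁻ v, e 0 v * g v) + ∫⁻ r in Ioc 0 t, ∫⁻ v, e r v * Q r v := by
        obtain ⟨k, hk⟩ : ∃ k : ℝ → V → ℝ≥0∞,
            ∀ s v, ENNReal.ofReal κ * (ENNReal.ofReal ‖v‖ * e s v) = k s v := ⟨_, fun _ _ => rfl⟩
        have hkm' : Measurable (Function.uncurry k) := by
          simpa only [hk, Function.uncurry_def] using hkm
        simp only [hk] at ftc
        have pointwise : ∀ v, e t v * majIter g (n + 1) t v
            + ∫⁻ s in Ioc 0 t, k s v * majIter g (n + 1) s v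
            = e 0 v * g v + ∫⁻ r in Ioc 0 t, e r v * Q r v := by
          intro v
          have hk1 : Measurable fun s => k s v := by
            have h1 := hkm'.comp (measurable_prodMk_right (y := v) (α := ℝ))
            simpa only [Function.comp_def, Function.uncurry_def] using h1
          have hQ1 : Measurable fun s => Q s v := by
            have h1 := hQm.comp (measurable_prodMk_right (y := v) (α := ℝ))
            simpa only [Function.comp_def, Function.uncurry_def] using h1
          have hh := weighted_identity (e := fun s => e s v) (k := fun s => k s v)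
            (Q := fun s => Q s v) (gv := g v) ht.1 hk1 hQ1 (fun r hr => ftc r t hr v)
          simpa only [majIter, hQ] using hh
        have hFm := measurable_majIter hg (n + 1)
        have h := weighted_sum (e := e) (k := k) (F := majIter g (n + 1)) (Q := Q) (G := g) (t := t)
          hem hkm' hFm hQm hg pointwise
        rw [← h]
        simp only [hM, hD, ← hk]
        rw [← lintegral_const_mul' _ _ ENNReal.ofReal_ne_top]
        refine congrArg _ (lintegral_congr fun s => ?_)
        rw [← lintegral_const_mul' _ _ ENNReal.ofReal_ne_top]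
        exact lintegral_congr fun v => by simp only [mul_assoc]
      rw [key]
      have h0 : ∫⁻ v, e 0 v * g v ≤ ENNReal.ofReal N := by
        simpa only [he, mul_zero, sub_zero] using hgN
      have hc : sig univ = ENNReal.ofReal (sig univ).toReal :=
        (ENNReal.ofReal_toReal (measure_ne_top _ _)).symm
      have hstep : ∀ᵐ r ∂(volume.restrict (Ioc 0 t)), ∫⁻ v, e r v * Q r v
          ≤ ENNReal.ofReal (4 * (sig univ).toReal * N) *
            ∫⁻ v, ENNReal.ofReal ‖v‖ * (e r v * majIter g n r v) := by
        filter_upwards [ae_restrict_mem measurableSet_Ioc] with r hr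
        have hrI : r ∈ Icc 0 τ := ⟨hr.1.le, hr.2.trans ht.2⟩
        simp only [← hQ, he]
        have hfm : Measurable fun v => majIter g n r v :=
          (measurable_majIter hg n).comp (measurable_prodMk_left (x := r))
        refine (lintegral_ew_gainE (f := fun v => majIter g n r v) hfm
          (b := a - κ * r) (by linarith [hτle r hrI.2])).trans ?_
        rw [← mul_assoc]
        gcongr
        have hMn : ∫⁻ v, ew (a - κ * r) v * majIter g n r v ≤ ENNReal.ofReal (2 * N) := by
          refine le_trans (le_of_eq ?_) ((le_self_add).trans (ih r hrI))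
          simp only [hM, he]
        refine (mul_le_mul' le_rfl hMn).trans_eq ?_
        have harith : ∀ (c : ℝ), 0 ≤ c → (2 : ℝ≥0∞) * ENNReal.ofReal c * ENNReal.ofReal (2 * N)
            = ENNReal.ofReal (4 * c * N) := by
          intro c hc0
          rw [mul_assoc, ← ENNReal.ofReal_mul hc0, two_mul,
            ← ENNReal.ofReal_add (by positivity) (by positivity)]
          congr 1; ring
        rw [← harith _ ENNReal.toReal_nonneg, ← hc]
      have hD' : D n t ≤ ENNReal.ofReal (2 * N / κ) := by
        rw [ENNReal.ofReal_div_of_pos hκ, ENNReal.le_div_iff_mul_le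
          (Or.inl (by simpa using hκ)) (Or.inl ENNReal.ofReal_ne_top), mul_comm]
        exact (le_add_self).trans (ih t ht)
      refine (add_le_add h0 ((lintegral_mono_ae hstep).trans_eq
        (lintegral_const_mul' _ _ ENNReal.ofReal_ne_top))).trans ?_
      refine (add_le_add le_rfl (mul_le_mul' le_rfl hD')).trans ?_
      have hc0 : 0 ≤ (sig univ).toReal := ENNReal.toReal_nonneg
      rw [← ENNReal.ofReal_mul (by positivity), ← ENNReal.ofReal_add hN (by positivity)]
      refine ENNReal.ofReal_le_ofReal ?_
      have : 4 * (sig univ).toReal * N * (2 * N / κ) ≤ N := by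
        rw [mul_div_assoc', div_le_iff₀ hκ]
        nlinarith [mul_le_mul_of_nonneg_left hκN hN]
      linarith
  intro t ht
  have hmono : Monotone fun n => fun v => ew (a / 2) v * majIter g n t v :=
    fun i j hij v => mul_le_mul' le_rfl (monotone_majIter t v hij)
  simp only [maj, ENNReal.mul_iSup]
  rw [lintegral_iSup (f := fun n v => ew (a / 2) v * majIter g n t v)
    (fun n => (measurable_ew _).mul ((measurable_majIter hg n).comp measurable_prodMk_left)) hmono]
  refine iSup_le fun n => le_trans ?_ ((le_self_add).trans (claim n t ht))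
  simp only [hM, he, ew]
  exact lintegral_mono fun v => mul_le_mul' (ENNReal.ofReal_le_ofReal
    (Real.exp_le_exp.2 (mul_le_mul_of_nonneg_right (hτle t ht.2) (norm_nonneg v)))) le_rfl

end Vale.Agent.P140
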