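import Mathlib
import Vale.Agent.P140.Majorant
import Vale.Agent.P140.Mild
import Vale.Agent.P140.Conserve
import Vale.Agent.P140.Gronwall

/-! Local mild solutions between monotone iterates, below the gain-only majorant. -/

noncomputable section

open MeasureTheory Set Filter
open scoped ENNReal Topology

namespace Vale.Agent.P140

attribute [local irreducible] gain2 loss2 gainE rateE maj

/-- Gain term at a phase point. -/
def gainF (P : ℝ → X × V → ℝ≥0∞) (s : ℝ) (z : X × V) : ℝ≥0∞ :=
  gainE (fun u => P s (z.1, u)) (fun u => P s (z.1, u)) z.2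

/-- Collision frequency at a phase point. -/
def rateF (R : ℝ → X × V → ℝ≥0∞) (s : ℝ) (z : X × V) : ℝ≥0∞ :=
  rateE (fun u => R s (z.1, u)) z.2

/-- Integrated collision frequency along a characteristic. -/
def lam (R : ℝ → X × V → ℝ≥0∞) (y : X × V) (r t : ℝ) : ℝ≥0∞ :=
  ∫⁻ u in Ioc r t, rateF R u (shift u y)

/-- `e^{-x}`. -/
def expo (x : ℝ≥0∞) : ℝ≥0∞ := ENNReal.ofReal (Real.exp (-x.toReal))

/-- One step of the monotone scheme along the characteristic through `y`. -/
def stepAlong (f₀ : X × V → ℝ≥0∞) (P R : ℝ → X × V → ℝ≥0∞) (t : ℝ) (y : X × V) : ℝ≥0∞ :=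
  expo (lam R y 0 t) * f₀ y + ∫⁻ r in Ioc 0 t, expo (lam R y r t) * gainF P r (shift r y)

/-- One step of the monotone scheme. -/
def step (f₀ : X × V → ℝ≥0∞) (P R : ℝ → X × V → ℝ≥0∞) (t : ℝ) (z : X × V) : ℝ≥0∞ :=
  stepAlong f₀ P R t (shift (-t) z)

lemma step_shift (f₀ : X × V → ℝ≥0∞) (P R : ℝ → X × V → ℝ≥0∞) (t : ℝ) (y : X × V) :
    step f₀ P R t (shift t y) = stepAlong f₀ P R t y := by
  simp [step, shift_shift]

lemma measurable_slicesE {P : ℝ → X × V → ℝ≥0∞} (hP : Measurable (Function.uncurry P)) :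
    Measurable fun q : (ℝ × X) × V => P q.1.1 (q.1.2, q.2) :=
  hP.comp ((measurable_fst.comp measurable_fst).prodMk
    ((measurable_snd.comp measurable_fst).prodMk measurable_snd))

lemma measurable_gainF {P : ℝ → X × V → ℝ≥0∞} (hP : Measurable (Function.uncurry P)) :
    Measurable fun p : ℝ × (X × V) => gainF P p.1 p.2 := by
  have h := measurable_gainE (f := fun (a : ℝ × X) (v : V) => P a.1 (a.2, v))
    (g := fun (a : ℝ × X) (v : V) => P a.1 (a.2, v)) (measurable_slicesE hP) (measurable_slicesE hP)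
  have h2 := h.comp (((measurable_fst (α := ℝ) (β := X × V)).prodMk
    ((measurable_fst (α := X) (β := V)).comp measurable_snd)).prodMk
    ((measurable_snd (α := X) (β := V)).comp measurable_snd))
  simpa only [Function.comp_def, gainF] using h2

lemma measurable_rateF {P : ℝ → X × V → ℝ≥0∞} (hP : Measurable (Function.uncurry P)) :
    Measurable fun p : ℝ × (X × V) => rateF P p.1 p.2 := by
  have h := measurable_rateE (g := fun (a : ℝ × X) (v : V) => P a.1 (a.2, v)) (measurable_slicesE hP)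
  have h2 := h.comp (((measurable_fst (α := ℝ) (β := X × V)).prodMk
    ((measurable_fst (α := X) (β := V)).comp measurable_snd)).prodMk
    ((measurable_snd (α := X) (β := V)).comp measurable_snd))
  simpa only [Function.comp_def, rateF] using h2

lemma measurable_gain_along {P : ℝ → X × V → ℝ≥0∞} (hP : Measurable (Function.uncurry P)) :
    Measurable fun p : ℝ × (X × V) => gainF P p.1 (shift p.1 p.2) := by
  have h2 := (measurable_gainF hP).comp measurable_along
  simpa only [Function.comp_def] using h2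

lemma measurable_rate_along {P : ℝ → X × V → ℝ≥0∞} (hP : Measurable (Function.uncurry P)) :
    Measurable fun p : ℝ × (X × V) => rateF P p.1 (shift p.1 p.2) := by
  have h2 := (measurable_rateF hP).comp measurable_along
  simpa only [Function.comp_def] using h2

lemma measurable_lam {R : ℝ → X × V → ℝ≥0∞} (hR : Measurable (Function.uncurry R)) :
    Measurable fun q : (ℝ × (X × V)) × ℝ => lam R q.1.2 q.2 q.1.1 := by
  have e : ∀ q : (ℝ × (X × V)) × ℝ, lam R q.1.2 q.2 q.1.1
      = ∫⁻ u, (Ioc q.2 q.1.1).indicator (fun u => rateF R u (shift u q.1.2)) u :=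
    fun q => (lintegral_indicator measurableSet_Ioc _).symm
  simp only [e]
  have hm : Measurable fun w : ((ℝ × (X × V)) × ℝ) × ℝ =>
      (Ioc w.1.2 w.1.1.1).indicator (fun u => rateF R u (shift u w.1.1.2)) w.2 := by
    simp only [indicator_apply, mem_Ioc]
    refine Measurable.ite ?_ ((measurable_rate_along hR).comp (measurable_snd.prodMk
      (measurable_snd.comp (measurable_fst.comp measurable_fst)))) measurable_const
    exact (measurableSet_lt (measurable_snd.comp measurable_fst) measurable_snd).inter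
      (measurableSet_le measurable_snd (measurable_fst.comp (measurable_fst.comp measurable_fst)))
  exact hm.lintegral_prod_right'

lemma measurable_expo : Measurable expo :=
  (Real.measurable_exp.comp ENNReal.measurable_toReal.neg).ennreal_ofReal

lemma measurable_step {f₀ : X × V → ℝ≥0∞} {P R : ℝ → X × V → ℝ≥0∞} (hf : Measurable f₀)
    (hP : Measurable (Function.uncurry P)) (hR : Measurable (Function.uncurry R)) :
    Measurable (Function.uncurry (step f₀ P R)) := by
  have hl := measurable_lam hR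
  have hl0 : Measurable fun p : ℝ × (X × V) => expo (lam R p.2 0 p.1) * f₀ p.2 := by
    have h2 := hl.comp (measurable_id.prodMk (measurable_const (a := (0 : ℝ))))
    simp only [Function.comp_def, id_eq] at h2
    exact (measurable_expo.comp h2).mul (hf.comp measurable_snd)
  have hI : Measurable fun p : ℝ × (X × V) =>
      ∫⁻ r in Ioc 0 p.1, expo (lam R p.2 r p.1) * gainF P r (shift r p.2) := by
    have e : ∀ p : ℝ × (X × V), ∫⁻ r in Ioc 0 p.1, expo (lam R p.2 r p.1) * gainF P r (shift r p.2)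
        = ∫⁻ r, (Ioc 0 p.1).indicator
            (fun r => expo (lam R p.2 r p.1) * gainF P r (shift r p.2)) r :=
      fun p => (lintegral_indicator measurableSet_Ioc _).symm
    simp only [e]
    have hm : Measurable fun q : (ℝ × (X × V)) × ℝ => (Ioc 0 q.1.1).indicator
        (fun r => expo (lam R q.1.2 r q.1.1) * gainF P r (shift r q.1.2)) q.2 := by
      simp only [indicator_apply, mem_Ioc]
      refine Measurable.ite ?_ ((measurable_expo.comp hl).mul ((measurable_gain_along hP).comp
        (measurable_snd.prodMk (measurable_snd.comp measurable_fst)))) measurable_const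
      exact (measurableSet_lt measurable_const measurable_snd).inter
        (measurableSet_le measurable_snd (measurable_fst.comp measurable_fst))
    exact hm.lintegral_prod_right'
  have hb : Measurable fun p : ℝ × (X × V) => (p.1, shift (-p.1) p.2) :=
    measurable_fst.prodMk (measurable_shift_uncurry.comp (measurable_fst.neg.prodMk measurable_snd))
  have h3 := (hl0.add hI).comp hb
  simp only [Function.comp_def] at h3
  exact h3

lemma expo_le_one (x : ℝ≥0∞) : expo x ≤ 1 := by
  rw [expo, ← ENNReal.ofReal_one]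
  exact ENNReal.ofReal_le_ofReal (Real.exp_le_one_iff.2 (neg_nonpos.2 ENNReal.toReal_nonneg))

lemma expo_anti {x x' : ℝ≥0∞} (h : x ≤ x') (h' : x' ≠ ⊤) : expo x' ≤ expo x :=
  ENNReal.ofReal_le_ofReal (Real.exp_le_exp.2 (neg_le_neg (ENNReal.toReal_mono h' h)))

lemma expo_le_add {x x' d : ℝ≥0∞} (h : x' ≤ x + d) (hx : x ≠ ⊤) :
    expo x ≤ expo x' + d := by
  rcases eq_or_ne d ⊤ with rfl | hd
  · simp
  have h1 := ENNReal.toReal_mono (ENNReal.add_ne_top.2 ⟨hx, hd⟩) h
  rw [ENNReal.toReal_add hx hd] at h1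
  rw [expo, expo, ← ENNReal.ofReal_toReal hd, ← ENNReal.ofReal_add (Real.exp_pos _).le ENNReal.toReal_nonneg]
  refine ENNReal.ofReal_le_ofReal ?_
  have hdn : 0 ≤ d.toReal := ENNReal.toReal_nonneg
  have h2 : Real.exp (-(x.toReal)) * (1 - d.toReal) ≤ Real.exp (-x'.toReal) := by
    refine le_trans (mul_le_mul_of_nonneg_left (Real.one_sub_le_exp_neg _) (Real.exp_pos _).le) ?_
    rw [← Real.exp_add]
    exact Real.exp_le_exp.2 (by linarith)
  have h3 : Real.exp (-(x.toReal)) ≤ 1 := Real.exp_le_one_iff.2 (neg_nonpos.2 ENNReal.toReal_nonneg)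
  nlinarith [mul_le_mul_of_nonneg_right h3 hdn]

/-- The monotone pair of sequences. -/
def ksIter (f₀ : X × V → ℝ≥0∞) (g : V → ℝ≥0∞) :
    ℕ → (ℝ → X × V → ℝ≥0∞) × (ℝ → X × V → ℝ≥0∞)
  | 0 => (fun _ _ => 0, fun t z => maj g t z.2)
  | n + 1 => (step f₀ (ksIter f₀ g n).1 (ksIter f₀ g n).2,
      step f₀ (ksIter f₀ g n).2 (ksIter f₀ g n).1)

lemma volume_torus_univ : (volume : Measure X) univ = 1 := by
  rw [volume_pi, Measure.pi_univ]
  simp

lemma lintegral_vel {k : V → ℝ≥0∞} (hk : Measurable k) : ∫⁻ z : X × V, k z.2 = ∫⁻ v, k v := by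
  rw [Measure.volume_eq_prod, lintegral_prod (fun z : X × V => k z.2)
    (hk.comp measurable_snd).aemeasurable]
  simp only [lintegral_const, volume_torus_univ, mul_one]

lemma maj_mono {g : V → ℝ≥0∞} (hg : Measurable g) {s t : ℝ} (h : s ≤ t) (v : V) :
    maj g s v ≤ maj g t v := by
  rw [maj_eq hg, maj_eq hg]
  exact add_le_add le_rfl (lintegral_mono_set (Ioc_subset_Ioc_right h))

/-- Hypotheses on the data and the interval. -/
structure Setup (f₀ : X × V → ℝ≥0∞) (g : V → ℝ≥0∞) (T b N : ℝ) : Prop where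
  meas₀ : Measurable f₀
  meas : Measurable g
  le : ∀ z, f₀ z ≤ g z.2
  bpos : 0 < b
  Nnonneg : 0 ≤ N
  bound : ∀ t ∈ Icc 0 T, ∫⁻ v, ew b v * maj g t v ≤ ENNReal.ofReal N

/-- Bound on the first velocity moment. -/
def momBound (b N : ℝ) : ℝ := (1 + 1 / b) * N

section KS

variable {f₀ : X × V → ℝ≥0∞} {g : V → ℝ≥0∞} {T b N : ℝ}

lemma Setup.momE_maj (h : Setup f₀ g T b N) {t : ℝ} (ht : t ∈ Icc 0 T) :
    momE (maj g t) ≤ ENNReal.ofReal (momBound b N) := by
  have hb := h.bpos
  calc momE (maj g t) ≤ ∫⁻ v, ENNReal.ofReal (1 + 1 / b) * (ew b v * maj g t v) := by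
        refine lintegral_mono fun v => ?_
        rw [← mul_assoc, ew, ← ENNReal.ofReal_mul (by positivity)]
        refine mul_le_mul' (ENNReal.ofReal_le_ofReal ?_) le_rfl
        have h1 := Real.add_one_le_exp (b * ‖v‖)
        have h2 := Real.one_le_exp (mul_nonneg hb.le (norm_nonneg v))
        have e : (1 + 1 / b) * Real.exp (b * ‖v‖) = Real.exp (b * ‖v‖) + Real.exp (b * ‖v‖) / b := by
          ring
        have h3 : ‖v‖ ≤ Real.exp (b * ‖v‖) / b := by
          rw [le_div_iff₀ hb]; linarith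
        linarith
    _ ≤ _ := by
        rw [lintegral_const_mul' _ _ ENNReal.ofReal_ne_top, momBound, ENNReal.ofReal_mul (by positivity)]
        exact mul_le_mul' le_rfl (h.bound t ht)

lemma Setup.rateF_ne_top (h : Setup f₀ g T b N) {R : ℝ → X × V → ℝ≥0∞}
    (hb : ∀ t ∈ Icc 0 T, ∀ z : X × V, R t z ≤ maj g t z.2) {s : ℝ} (hs : s ∈ Icc 0 T) (z : X × V) :
    rateF R s z ≤ ENNReal.ofReal (1 + ‖z.2‖) * ENNReal.ofReal (momBound b N) * sig univ := by
  refine (rateE_mono (fun u => hb s hs (z.1, u)) z.2).trans ((rateE_le ?_ z.2).trans ?_)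
  · exact (measurable_maj h.meas).comp (measurable_prodMk_left (x := s))
  · exact mul_le_mul' (mul_le_mul' le_rfl (h.momE_maj hs)) le_rfl

lemma Setup.lam_ne_top (h : Setup f₀ g T b N) {R : ℝ → X × V → ℝ≥0∞}
    (hb : ∀ t ∈ Icc 0 T, ∀ z : X × V, R t z ≤ maj g t z.2) {r t : ℝ} (hr : 0 ≤ r) (ht : t ≤ T)
    (y : X × V) : lam R y r t ≠ ⊤ := by
  refine ne_top_of_le_ne_top ?_ (setLIntegral_mono (g := fun _ =>
    ENNReal.ofReal (1 + ‖y.2‖) * ENNReal.ofReal (momBound b N) * sig univ) measurable_const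
    fun u hu => by simpa using h.rateF_ne_top hb ⟨hr.trans hu.1.le, hu.2.trans ht⟩ (shift u y))
  rw [setLIntegral_const]
  exact ENNReal.mul_ne_top (ENNReal.mul_ne_top (ENNReal.mul_ne_top ENNReal.ofReal_ne_top
    ENNReal.ofReal_ne_top) (measure_ne_top _ _)) measure_Ioc_lt_top.ne

lemma Setup.step_mono (h : Setup f₀ g T b N) {P P' R R' : ℝ → X × V → ℝ≥0∞}
    (hP : ∀ t ∈ Icc 0 T, ∀ z, P t z ≤ P' t z) (hR : ∀ t ∈ Icc 0 T, ∀ z, R t z ≤ R' t z)
    (hR' : ∀ t ∈ Icc 0 T, ∀ z : X × V, R' t z ≤ maj g t z.2) {t : ℝ} (ht : t ∈ Icc 0 T) (z : X × V) :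
    step f₀ P R' t z ≤ step f₀ P' R t z := by
  set y := shift (-t) z
  have hl : ∀ r, 0 ≤ r → lam R y r t ≤ lam R' y r t := fun r hr => by
    refine setLIntegral_mono' measurableSet_Ioc fun u hu => ?_
    exact rateE_mono (fun w => hR u ⟨hr.trans hu.1.le, hu.2.trans ht.2⟩ _) _
  refine add_le_add (mul_le_mul' (expo_anti (hl 0 le_rfl) (h.lam_ne_top hR' le_rfl ht.2 y)) le_rfl)
    (setLIntegral_mono' measurableSet_Ioc fun r hr => ?_)
  exact mul_le_mul' (expo_anti (hl r hr.1.le) (h.lam_ne_top hR' hr.1.le ht.2 y))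
    (gainE_mono (fun w => hP r ⟨hr.1.le, hr.2.trans ht.2⟩ _)
      (fun w => hP r ⟨hr.1.le, hr.2.trans ht.2⟩ _) _)

lemma Setup.step_le_maj (h : Setup f₀ g T b N) {P : ℝ → X × V → ℝ≥0∞} (R : ℝ → X × V → ℝ≥0∞)
    (hP : ∀ t ∈ Icc 0 T, ∀ z : X × V, P t z ≤ maj g t z.2) {t : ℝ} (ht : t ∈ Icc 0 T) (z : X × V) :
    step f₀ P R t z ≤ maj g t z.2 := by
  rw [maj_eq h.meas]
  refine add_le_add ((mul_le_mul' (expo_le_one _) (h.le _)).trans_eq (one_mul _))
    (setLIntegral_mono' measurableSet_Ioc fun r hr => ?_)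
  refine (mul_le_mul' (expo_le_one _) ?_).trans_eq (one_mul _)
  exact gainE_mono (fun w => hP r ⟨hr.1.le, hr.2.trans ht.2⟩ _)
    (fun w => hP r ⟨hr.1.le, hr.2.trans ht.2⟩ _) _

lemma Setup.order (h : Setup f₀ g T b N) : ∀ n, ∀ t ∈ Icc 0 T, ∀ z : X × V,
    (ksIter f₀ g n).1 t z ≤ (ksIter f₀ g (n + 1)).1 t z ∧
    (ksIter f₀ g (n + 1)).2 t z ≤ (ksIter f₀ g n).2 t z ∧
    (ksIter f₀ g n).1 t z ≤ (ksIter f₀ g n).2 t z ∧ (ksIter f₀ g n).2 t z ≤ maj g t z.2 := by
  intro n
  induction n with
  | zero =>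
    intro t ht z
    exact ⟨bot_le, h.step_le_maj _ (fun s hs z => le_rfl) ht z, bot_le, le_rfl⟩
  | succ n ih =>
    intro t ht z
    have hu' : ∀ s ∈ Icc 0 T, ∀ z : X × V, (ksIter f₀ g (n + 1)).2 s z ≤ maj g s z.2 :=
      fun s hs z => (ih s hs z).2.1.trans (ih s hs z).2.2.2
    have hlm : ∀ s ∈ Icc 0 T, ∀ z : X × V, (ksIter f₀ g n).1 s z ≤ maj g s z.2 :=
      fun s hs z => (ih s hs z).2.2.1.trans (ih s hs z).2.2.2
    have hl' : ∀ s ∈ Icc 0 T, ∀ z : X × V, (ksIter f₀ g (n + 1)).1 s z ≤ maj g s z.2 :=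
      fun s hs z => h.step_le_maj _ hlm hs z
    refine ⟨?_, ?_, ?_, hu' t ht z⟩
    · exact h.step_mono (fun s hs z => (ih s hs z).1) (fun s hs z => (ih s hs z).2.1)
        (fun s hs z => (ih s hs z).2.2.2) ht z
    · exact h.step_mono (fun s hs z => (ih s hs z).2.1) (fun s hs z => (ih s hs z).1)
        hl' ht z
    · exact h.step_mono (fun s hs z => (ih s hs z).2.2.1) (fun s hs z => (ih s hs z).2.2.1)
        (fun s hs z => (ih s hs z).2.2.2) ht z

lemma Setup.measurable_ks (h : Setup f₀ g T b N) : ∀ n,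
    Measurable (Function.uncurry (ksIter f₀ g n).1) ∧ Measurable (Function.uncurry (ksIter f₀ g n).2) := by
  intro n
  induction n with
  | zero =>
    refine ⟨measurable_const, ?_⟩
    have hφ : Measurable fun p : ℝ × (X × V) => (p.1, p.2.2) := by fun_prop
    have h2 := (measurable_maj h.meas).comp hφ
    simpa only [Function.comp_def, Function.uncurry_def, ksIter] using h2
  | succ n ih => exact ⟨measurable_step h.meas₀ ih.1 ih.2, measurable_step h.meas₀ ih.2 ih.1⟩

/-- The gap between the two sequences. -/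
def gap (f₀ : X × V → ℝ≥0∞) (g : V → ℝ≥0∞) (n : ℕ) (t : ℝ) (z : X × V) : ℝ≥0∞ :=
  (ksIter f₀ g n).2 t z - (ksIter f₀ g n).1 t z

lemma gainE_split {u l δ : V → ℝ≥0∞} (hu : u ≤ l + δ) (hlu : l ≤ u) (hum : Measurable u)
    (hlm : Measurable l) (hδ : Measurable δ) (v : V) :
    gainE u u v ≤ gainE l l v + (gainE l δ v + gainE δ u v) := by
  unfold gainE
  have hv : Measurable fun p : V × S2 => (v, p) := measurable_prodMk_left
  have mI : ∀ {a c : V → ℝ≥0∞}, Measurable a → Measurable c → Measurable fun p : V × S2 =>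
      ENNReal.ofReal |rel v p.1 p.2| * (a (vpost v p.1 p.2) * c (wpost v p.1 p.2)) := by
    intro a c ha hc
    exact (((continuous_abs.measurable.comp continuous_rel.measurable).comp hv).ennreal_ofReal).mul
      ((ha.comp (continuous_vpost.measurable.comp hv)).mul
        (hc.comp (continuous_wpost.measurable.comp hv)))
  rw [← lintegral_add_left (mI hlm hδ), ← lintegral_add_left (mI hlm hlm)]
  refine lintegral_mono fun p => ?_
  rw [← mul_add, ← mul_add]
  refine mul_le_mul' le_rfl ?_
  set A := vpost v p.1 p.2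
  set B := wpost v p.1 p.2
  calc u A * u B ≤ (l A + δ A) * u B := mul_le_mul' (hu A) le_rfl
    _ = l A * u B + δ A * u B := add_mul _ _ _
    _ ≤ l A * (l B + δ B) + δ A * u B := add_le_add (mul_le_mul' le_rfl (hu B)) le_rfl
    _ = l A * l B + (l A * δ B + δ A * u B) := by rw [mul_add, add_assoc]

/-- The integrand controlling the growth of the gap. -/
def gapSrc (f₀ : X × V → ℝ≥0∞) (g : V → ℝ≥0∞) (n : ℕ) (t s : ℝ) (z : X × V) : ℝ≥0∞ :=
  gainE (fun u => (ksIter f₀ g n).1 s (z.1, u)) (fun u => gap f₀ g n s (z.1, u)) z.2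
    + gainE (fun u => gap f₀ g n s (z.1, u)) (fun u => (ksIter f₀ g n).2 s (z.1, u)) z.2
    + maj g t z.2 * rateF (gap f₀ g n) s z

lemma Setup.gap_step (h : Setup f₀ g T b N) (n : ℕ) {t : ℝ} (ht : t ∈ Icc 0 T) (y : X × V) :
    gap f₀ g (n + 1) t (shift t y) ≤ ∫⁻ s in Ioc 0 t, gapSrc f₀ g n t s (shift s y) := by
  obtain ⟨hlm, hum⟩ := h.measurable_ks n
  have ho := h.order n
  set l := (ksIter f₀ g n).1 with hl
  set u := (ksIter f₀ g n).2 with hu
  have hδm : Measurable (Function.uncurry (gap f₀ g n)) := hum.sub hlm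
  have hu_le : ∀ s ∈ Icc 0 T, ∀ z, u s z ≤ l s z + gap f₀ g n s z := fun s hs z => le_add_tsub
  have hlT : ∀ s ∈ Icc 0 T, ∀ z : X × V, l s z ≤ maj g s z.2 :=
    fun s hs z => (ho s hs z).2.2.1.trans (ho s hs z).2.2.2
  have hs' : ∀ {P : ℝ → X × V → ℝ≥0∞}, Measurable (Function.uncurry P) → ∀ (s : ℝ) (x : X),
      Measurable fun w => P s (x, w) := fun hP s x =>
    hP.comp (by fun_prop : Measurable fun w : V => (s, (x, w)))
  set D := ∫⁻ s in Ioc 0 t, rateF (gap f₀ g n) s (shift s y) with hD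
  have hrate : ∀ {P : ℝ → X × V → ℝ≥0∞}, Measurable (Function.uncurry P) →
      Measurable fun s => rateF P s (shift s y) := by
    intro P hP
    have h2 := (measurable_rate_along hP).comp (measurable_prodMk_right (y := y) (α := ℝ))
    simpa only [Function.comp_def] using h2
  have hexp : ∀ r, 0 ≤ r → expo (lam l y r t) ≤ expo (lam u y r t) + D := by
    intro r hr
    refine (expo_le_add (x' := lam u y r t) (d := ∫⁻ s in Ioc r t, rateF (gap f₀ g n) s (shift s y)) ?_
      (h.lam_ne_top hlT hr ht.2 y)).trans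
      (add_le_add le_rfl (lintegral_mono_set (Ioc_subset_Ioc_left hr)))
    rw [lam, lam, ← lintegral_add_left (hrate hlm)]
    refine setLIntegral_mono' measurableSet_Ioc fun s hs => ?_
    have hsI : s ∈ Icc 0 T := ⟨hr.trans hs.1.le, hs.2.trans ht.2⟩
    refine le_trans (rateE_mono (fun w => hu_le s hsI _) _) (le_of_eq ?_)
    simp only [rateF, rateE]
    rw [← lintegral_add_left]
    · simp only [mul_add]
    · have hv : Measurable fun p : V × S2 => ((shift s y).2, p) := measurable_prodMk_left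
      exact (((continuous_abs.measurable.comp continuous_rel.measurable).comp hv).ennreal_ofReal).mul
        ((hs' hlm s _).comp measurable_fst)
  -- bound the upper step by the lower step plus the error
  have mG : ∀ {P : ℝ → X × V → ℝ≥0∞}, Measurable (Function.uncurry P) →
      Measurable fun r => gainF P r (shift r y) := by
    intro P hP
    have h2 := (measurable_gain_along hP).comp (measurable_prodMk_right (y := y) (α := ℝ))
    simpa only [Function.comp_def] using h2
  have mE : ∀ {R : ℝ → X × V → ℝ≥0∞}, Measurable (Function.uncurry R) →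
      Measurable fun r => expo (lam R y r t) := by
    intro R hR
    have h2 := (measurable_expo.comp (measurable_lam hR)).comp
      (measurable_prodMk_left (x := ((t, y) : ℝ × (X × V))) (β := ℝ))
    simpa only [Function.comp_def] using h2
  set Δ : ℝ → ℝ≥0∞ := fun r =>
    gainE (fun w => l r ((shift r y).1, w)) (fun w => gap f₀ g n r ((shift r y).1, w)) y.2
    + gainE (fun w => gap f₀ g n r ((shift r y).1, w)) (fun w => u r ((shift r y).1, w)) y.2 with hΔ
  have hint : ∫⁻ r in Ioc 0 t, expo (lam l y r t) * gainF u r (shift r y)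
      ≤ (∫⁻ r in Ioc 0 t, expo (lam u y r t) * gainF l r (shift r y)) + (∫⁻ r in Ioc 0 t, Δ r)
        + D * ∫⁻ r in Ioc 0 t, gainF u r (shift r y) := by
    have mprod : Measurable fun r => expo (lam u y r t) * gainF l r (shift r y) :=
      (mE hum).mul (mG hlm)
    rw [← lintegral_add_left mprod, ← lintegral_const_mul _ (mG hum),
      ← lintegral_add_right _ ((mG hum).const_mul D)]
    refine setLIntegral_mono' measurableSet_Ioc fun r hr => ?_
    have hrI : r ∈ Icc 0 T := ⟨hr.1.le, hr.2.trans ht.2⟩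
    refine (mul_le_mul' (hexp r hr.1.le) le_rfl).trans ?_
    rw [add_mul]
    refine add_le_add ?_ le_rfl
    have hsp := gainE_split (u := fun w => u r ((shift r y).1, w)) (l := fun w => l r ((shift r y).1, w))
      (δ := fun w => gap f₀ g n r ((shift r y).1, w)) (fun w => hu_le r hrI _)
      (fun w => (ho r hrI _).2.2.1) (hs' hum r _) (hs' hlm r _) (hs' hδm r _) y.2
    refine (mul_le_mul' le_rfl hsp).trans ?_
    rw [mul_add]
    refine add_le_add le_rfl ((mul_le_mul' (expo_le_one _) le_rfl).trans_eq (one_mul _))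
  have hmajb : f₀ y + ∫⁻ r in Ioc 0 t, gainF u r (shift r y) ≤ maj g t y.2 := by
    rw [maj_eq h.meas]
    refine add_le_add (h.le y) (setLIntegral_mono' measurableSet_Ioc fun r hr => ?_)
    have hrI : r ∈ Icc 0 T := ⟨hr.1.le, hr.2.trans ht.2⟩
    exact gainE_mono (fun w => (ho r hrI _).2.2.2) (fun w => (ho r hrI _).2.2.2) _
  have hmain : step f₀ u l t (shift t y) ≤ step f₀ l u t (shift t y)
      + ((∫⁻ r in Ioc 0 t, Δ r) + maj g t y.2 * D) := by
    rw [step_shift, step_shift, stepAlong, stepAlong]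
    calc expo (lam l y 0 t) * f₀ y + ∫⁻ r in Ioc 0 t, expo (lam l y r t) * gainF u r (shift r y)
        ≤ (expo (lam u y 0 t) + D) * f₀ y
          + ((∫⁻ r in Ioc 0 t, expo (lam u y r t) * gainF l r (shift r y)) + (∫⁻ r in Ioc 0 t, Δ r)
            + D * ∫⁻ r in Ioc 0 t, gainF u r (shift r y)) :=
          add_le_add (mul_le_mul' (hexp 0 le_rfl) le_rfl) hint
      _ = (expo (lam u y 0 t) * f₀ y + ∫⁻ r in Ioc 0 t, expo (lam u y r t) * gainF l r (shift r y))
          + ((∫⁻ r in Ioc 0 t, Δ r) + (f₀ y + ∫⁻ r in Ioc 0 t, gainF u r (shift r y)) * D) := by ring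
      _ ≤ _ := by gcongr
  refine (tsub_le_iff_left.2 hmain).trans ?_
  rw [hD, ← lintegral_const_mul _ (hrate hδm), ← lintegral_add_right _ ((hrate hδm).const_mul _)]
  refine le_of_eq (lintegral_congr fun s => ?_)
  simp only [gapSrc, hΔ, shift_snd, ← hl, ← hu]

/-- `∫ (1+|v|) (u_n - l_n)`. -/
def gapMom (f₀ : X × V → ℝ≥0∞) (g : V → ℝ≥0∞) (n : ℕ) (t : ℝ) : ℝ≥0∞ :=
  ∫⁻ z, ENNReal.ofReal (1 + ‖z.2‖) * gap f₀ g n t z

lemma measurable_gain_pair {P Q : ℝ → X × V → ℝ≥0∞} (hP : Measurable (Function.uncurry P))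
    (hQ : Measurable (Function.uncurry Q)) : Measurable fun p : ℝ × (X × V) =>
      gainE (fun w => P p.1 (p.2.1, w)) (fun w => Q p.1 (p.2.1, w)) p.2.2 := by
  have h := measurable_gainE (f := fun (a : ℝ × X) (v : V) => P a.1 (a.2, v))
    (g := fun (a : ℝ × X) (v : V) => Q a.1 (a.2, v)) (measurable_slicesE hP) (measurable_slicesE hQ)
  have h2 := h.comp (((measurable_fst (α := ℝ) (β := X × V)).prodMk
    ((measurable_fst (α := X) (β := V)).comp measurable_snd)).prodMk
    ((measurable_snd (α := X) (β := V)).comp measurable_snd))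
  simpa only [Function.comp_def] using h2

lemma Setup.measurable_gap (h : Setup f₀ g T b N) (n : ℕ) :
    Measurable (Function.uncurry (gap f₀ g n)) :=
  (h.measurable_ks n).2.sub (h.measurable_ks n).1

lemma Setup.measurable_gapSrc (h : Setup f₀ g T b N) (n : ℕ) (t : ℝ) :
    Measurable fun p : ℝ × (X × V) => gapSrc f₀ g n t p.1 p.2 := by
  have hφ : Measurable fun p : ℝ × (X × V) => (t, p.2.2) := by fun_prop
  have hm : Measurable fun p : ℝ × (X × V) => maj g t p.2.2 := by
    have h2 := (measurable_maj h.meas).comp hφ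
    simpa only [Function.comp_def, Function.uncurry_def] using h2
  have h3 := ((measurable_gain_pair (h.measurable_ks n).1 (h.measurable_gap n)).add
    (measurable_gain_pair (h.measurable_gap n) (h.measurable_ks n).2)).add
    (hm.mul (measurable_rateF (h.measurable_gap n)))
  simp only [gapSrc]
  exact h3

lemma Setup.gapSrc_fiber (h : Setup f₀ g T b N) (n : ℕ) {t s : ℝ} (ht : t ∈ Icc 0 T)
    (hs : s ∈ Icc 0 T) (x : X) :
    ∫⁻ v : V, gapSrc f₀ g n t s (x, v) ≤ 3 * ENNReal.ofReal (momBound b N) * sig univ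
      * momE (fun w => gap f₀ g n s (x, w)) := by
  obtain ⟨hlm, hum⟩ := h.measurable_ks n
  have ho := h.order n s hs
  set l := fun w => (ksIter f₀ g n).1 s (x, w) with hl
  set u := fun w => (ksIter f₀ g n).2 s (x, w) with hu
  set δ := fun w => gap f₀ g n s (x, w) with hδ
  have hw : Measurable fun w : V => (s, (x, w)) := by fun_prop
  have ml : Measurable l := hlm.comp hw
  have mu : Measurable u := hum.comp hw
  have md : Measurable δ := (h.measurable_gap n).comp hw
  have mmt : Measurable (maj g t) := (measurable_maj h.meas).comp (measurable_prodMk_left (x := t))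
  set A := ENNReal.ofReal (momBound b N)
  have hms : momE (maj g s) ≤ A := h.momE_maj hs
  have bu : momE u ≤ A :=
    le_trans (lintegral_mono fun w => mul_le_mul' le_rfl (ho (x, w)).2.2.2) hms
  have bl : momE l ≤ A :=
    le_trans (lintegral_mono fun w => mul_le_mul' le_rfl
      ((ho (x, w)).2.2.1.trans (ho (x, w)).2.2.2)) hms
  have eS : ∀ v, gapSrc f₀ g n t s (x, v) = gainE l δ v + gainE δ u v + maj g t v * rateE δ v :=
    fun v => by simp only [gapSrc, rateF, hl, hu, hδ]
  simp only [eS]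
  have m12 : Measurable fun v => gainE l δ v + gainE δ u v :=
    (measurable_gainE1 ml md).add (measurable_gainE1 md mu)
  rw [lintegral_add_left m12, lintegral_add_left (measurable_gainE1 ml md), lintegral_gainE ml md,
    lintegral_gainE md mu]
  refine (add_le_add (add_le_add (lintegral_mul_rateE_le l ml md) (lintegral_mul_rateE_le δ md mu))
    (lintegral_mul_rateE_le (maj g t) mmt md)).trans ?_
  calc momE l * momE δ * sig univ + momE δ * momE u * sig univ + momE (maj g t) * momE δ * sig univ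
      ≤ A * momE δ * sig univ + momE δ * A * sig univ + A * momE δ * sig univ := by
        gcongr
        exact h.momE_maj ht
    _ = 3 * A * sig univ * momE δ := by ring

lemma Setup.gap_mass (h : Setup f₀ g T b N) (n : ℕ) {t : ℝ} (ht : t ∈ Icc 0 T) :
    ∫⁻ z, gap f₀ g (n + 1) t z
      ≤ ∫⁻ s in Ioc 0 t, 3 * ENNReal.ofReal (momBound b N) * sig univ * gapMom f₀ g n s := by
  have msrc := h.measurable_gapSrc n t
  have m1 : Measurable fun z => gap f₀ g (n + 1) t z := by
    have h2 := (h.measurable_gap (n + 1)).comp (measurable_prodMk_left (x := t) (β := X × V))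
    simpa only [Function.comp_def, Function.uncurry_def] using h2
  obtain ⟨S, hS⟩ : ∃ S : ℝ → X × V → ℝ≥0∞, ∀ s z, gapSrc f₀ g n t s z = S s z := ⟨_, fun _ _ => rfl⟩
  simp only [hS] at msrc
  have msrc' : Measurable fun p : ℝ × (X × V) => S p.1 (shift p.1 p.2) := by
    have h2 := msrc.comp measurable_along
    simpa only [Function.comp_def] using h2
  rw [← lintegral_shift t m1]
  refine (lintegral_mono fun y => h.gap_step n ht y).trans ?_
  simp only [hS]
  rw [← lintegral_lintegral_swap (f := fun s y => S s (shift s y)) msrc'.aemeasurable]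
  refine setLIntegral_mono' measurableSet_Ioc fun s hs => ?_
  have hsI : s ∈ Icc 0 T := ⟨hs.1.le, hs.2.trans ht.2⟩
  have ms : Measurable fun z => S s z := by
    have h2 := msrc.comp (measurable_prodMk_left (x := s) (β := X × V))
    simpa only [Function.comp_def] using h2
  rw [lintegral_shift s ms]
  have mmom : Measurable fun z : X × V => ENNReal.ofReal (1 + ‖z.2‖) * gap f₀ g n s z := by
    have h2 := (h.measurable_gap n).comp (measurable_prodMk_left (x := s) (β := X × V))
    simp only [Function.comp_def, Function.uncurry_def] at h2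
    exact (by fun_prop : Measurable fun z : X × V => ENNReal.ofReal (1 + ‖z.2‖)).mul h2
  have e1 : gapMom f₀ g n s = ∫⁻ x : X, momE (fun w => gap f₀ g n s (x, w)) := by
    unfold gapMom momE
    exact lintegral_prod _ mmom.aemeasurable
  have e2 : ∫⁻ z, S s z = ∫⁻ x : X, ∫⁻ v : V, S s (x, v) := lintegral_prod _ ms.aemeasurable
  rw [e1, e2, ← lintegral_const_mul' _ _ (ENNReal.mul_ne_top
      (ENNReal.mul_ne_top ENNReal.ofNat_ne_top ENNReal.ofReal_ne_top) (measure_ne_top _ _))]
  refine lintegral_mono fun x => ?_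
  simp only [← hS]
  exact h.gapSrc_fiber n ht hsI x

lemma Setup.gapMom_le (h : Setup f₀ g T b N) (n : ℕ) {s : ℝ} (hs : s ∈ Icc 0 T) (R : ℝ) (hR : 1 ≤ R) :
    gapMom f₀ g n s ≤ ENNReal.ofReal (2 * R) * (∫⁻ z, gap f₀ g n s z)
      + ENNReal.ofReal ((1 + 2 / b) * N * Real.exp (-(b / 2) * R)) := by
  obtain ⟨hlm, hum⟩ := h.measurable_ks n
  have hb := h.bpos
  have md : Measurable fun z => gap f₀ g n s z :=
    (hum.comp measurable_prodMk_left).sub (hlm.comp measurable_prodMk_left)
  set C := (1 + 2 / b) * Real.exp (-(b / 2) * R) with hC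
  have mm : Measurable fun v : V => ew b v * maj g s v :=
    (measurable_ew b).mul ((measurable_maj h.meas).comp measurable_prodMk_left)
  calc gapMom f₀ g n s ≤ ∫⁻ z : X × V, (ENNReal.ofReal (2 * R) * gap f₀ g n s z
        + ENNReal.ofReal C * (ew b z.2 * maj g s z.2)) := by
        refine lintegral_mono fun z => ?_
        rcases le_or_gt ‖z.2‖ R with hz | hz
        · exact (mul_le_mul' (ENNReal.ofReal_le_ofReal (by linarith)) le_rfl).trans le_self_add
        · refine le_trans ?_ le_add_self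
          rw [← mul_assoc, ew, ← ENNReal.ofReal_mul (by positivity)]
          refine mul_le_mul' (ENNReal.ofReal_le_ofReal ?_)
            (tsub_le_self.trans (h.order n s hs z).2.2.2)
          have h1 := Real.add_one_le_exp (b / 2 * ‖z.2‖)
          have h2 := Real.one_le_exp (mul_nonneg (half_pos hb).le (norm_nonneg z.2))
          have h3 : 1 + ‖z.2‖ ≤ (1 + 2 / b) * Real.exp (b / 2 * ‖z.2‖) := by
            have h4 : ‖z.2‖ ≤ 2 / b * Real.exp (b / 2 * ‖z.2‖) := by
              rw [div_mul_eq_mul_div, le_div_iff₀ hb]; linarith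
            linarith
          refine h3.trans ?_
          rw [hC, mul_assoc, ← Real.exp_add]
          exact mul_le_mul_of_nonneg_left (Real.exp_le_exp.2 (by nlinarith)) (by positivity)
    _ = ENNReal.ofReal (2 * R) * (∫⁻ z, gap f₀ g n s z)
        + ENNReal.ofReal C * ∫⁻ v, ew b v * maj g s v := by
        rw [lintegral_add_left (md.const_mul _), lintegral_const_mul _ md,
          lintegral_const_mul' _ _ ENNReal.ofReal_ne_top,
          show ∫⁻ z : X × V, ew b z.2 * maj g s z.2 = ∫⁻ v, ew b v * maj g s v from ?_]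
        exact lintegral_vel mm
    _ ≤ _ := by
        refine add_le_add le_rfl ((mul_le_mul' le_rfl (h.bound s hs)).trans_eq ?_)
        rw [← ENNReal.ofReal_mul (by positivity), hC]
        congr 1; ring

/-- The two sequences have the same limit. -/
lemma Setup.collapse (h : Setup f₀ g T b N) :
    ∀ᵐ t ∂μt T, ∀ᵐ z : X × V,
      (⨅ n, (ksIter f₀ g n).2 t z) ≤ ⨆ n, (ksIter f₀ g n).1 t z := by
  set c := (sig univ).toReal
  have hc : sig univ = ENNReal.ofReal c := (ENNReal.ofReal_toReal (measure_ne_top _ _)).symm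
  have hb := h.bpos
  have hN := h.Nnonneg
  have hA : 0 ≤ momBound b N := by unfold momBound; positivity
  have hc0 : 0 ≤ c := ENNReal.toReal_nonneg
  set K : ℝ≥0∞ := 3 * ENNReal.ofReal (momBound b N) * sig univ with hK
  have hKe : K = ENNReal.ofReal (3 * momBound b N * c) := by
    rw [hK, hc, ENNReal.ofReal_mul (by positivity), ENNReal.ofReal_mul (by norm_num : (0 : ℝ) ≤ 3),
      ENNReal.ofReal_ofNat]
  set y : ℝ → ℝ≥0∞ := fun t => ⨅ n, ∫⁻ z, gap f₀ g n t z with hy
  set Φ : ℝ → ℝ≥0∞ := fun t => ⨅ n, K * gapMom f₀ g n t with hΦ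
  have hδm : ∀ n, Measurable (Function.uncurry (gap f₀ g n)) := fun n =>
    (h.measurable_ks n).2.sub (h.measurable_ks n).1
  have hmm : ∀ n, Measurable (gapMom f₀ g n) := fun n =>
    ((by fun_prop : Measurable fun p : ℝ × (X × V) => ENNReal.ofReal (1 + ‖p.2.2‖)).mul
      (hδm n)).lintegral_prod_right'
  have hanti : ∀ n, ∀ s ∈ Icc 0 T, ∀ z, gap f₀ g (n + 1) s z ≤ gap f₀ g n s z := fun n s hs z =>
    tsub_le_tsub (h.order n s hs z).2.1 (h.order n s hs z).1
  have hR : ∀ R : ℝ, 1 ≤ R → ∀ t ∈ Icc 0 T, Φ t ≤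
      ENNReal.ofReal (6 * momBound b N * c * R) * y t
        + ENNReal.ofReal (3 * momBound b N * c * ((1 + 2 / b) * N) * Real.exp (-(b / 2) * R)) := by
    intro R hR t ht
    simp only [hy]
    rw [ENNReal.mul_iInf (fun h _ => absurd h ENNReal.ofReal_ne_top), ENNReal.iInf_add]
    refine iInf_mono fun n => (mul_le_mul' le_rfl (h.gapMom_le n ht R hR)).trans_eq ?_
    rw [hKe, mul_add, ← mul_assoc, ← ENNReal.ofReal_mul (by positivity),
      ← ENNReal.ofReal_mul (by positivity)]
    congr 1
    · congr 2; ring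
    · congr 1; ring
  have hy : ∀ t ∈ Icc 0 T, y t ≤ ENNReal.ofReal N := fun t ht => by
    refine (iInf_le _ 0).trans ?_
    have mm : Measurable fun v : V => maj g t v :=
      (measurable_maj h.meas).comp measurable_prodMk_left
    calc ∫⁻ z, gap f₀ g 0 t z ≤ ∫⁻ z : X × V, maj g t z.2 :=
          lintegral_mono fun z => tsub_le_self.trans (h.order 0 t ht z).2.2.2
      _ = ∫⁻ v, maj g t v := by
          exact lintegral_vel mm
      _ ≤ ∫⁻ v, ew b v * maj g t v := lintegral_mono fun v => by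
          refine le_mul_of_one_le_left bot_le ?_
          rw [ew, ← ENNReal.ofReal_one]
          exact ENNReal.ofReal_le_ofReal (Real.one_le_exp (by positivity))
      _ ≤ _ := h.bound t ht
  have hz : ∀ t ∈ Icc 0 T, y t = 0 → Φ t = 0 := by
    intro t ht h0
    have hlim : Tendsto (fun R : ℕ => ENNReal.ofReal (3 * momBound b N * c * ((1 + 2 / b) * N)
        * Real.exp (-(b / 2) * (R + 1 : ℕ)))) atTop (𝓝 0) := by
      rw [← ENNReal.ofReal_zero]
      refine ENNReal.tendsto_ofReal ?_
      rw [← mul_zero (3 * momBound b N * c * ((1 + 2 / b) * N))]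
      refine Tendsto.const_mul _ (Real.tendsto_exp_atBot.comp ?_)
      exact (tendsto_natCast_atTop_atTop.comp (tendsto_add_atTop_nat 1)).const_mul_atTop_of_neg
        (by linarith)
    refine le_antisymm (ge_of_tendsto' hlim fun R => ?_) bot_le
    have h2 := hR (R + 1 : ℕ) (by exact_mod_cast Nat.le_add_left 1 R) t ht
    rwa [h0, mul_zero, zero_add] at h2
  have hfin : ∀ s ∈ Icc 0 T, gapMom f₀ g 0 s ≤ ENNReal.ofReal (2 * N + (1 + 2 / b) * N) := by
    intro s hs
    refine (h.gapMom_le 0 hs 1 le_rfl).trans ?_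
    have h1 : ∫⁻ z, gap f₀ g 0 s z ≤ ENNReal.ofReal N := by
      refine le_trans ?_ (h.bound s hs)
      have mm : Measurable fun v : V => ew b v * maj g s v :=
        (measurable_ew b).mul ((measurable_maj h.meas).comp measurable_prodMk_left)
      calc ∫⁻ z, gap f₀ g 0 s z ≤ ∫⁻ z : X × V, ew b z.2 * maj g s z.2 :=
            lintegral_mono fun z => (tsub_le_self.trans (h.order 0 s hs z).2.2.2).trans
              (le_mul_of_one_le_left bot_le (by
                rw [ew, ← ENNReal.ofReal_one]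
                exact ENNReal.ofReal_le_ofReal (Real.one_le_exp (by positivity))))
        _ = _ := by
            exact lintegral_vel mm
    refine (add_le_add (mul_le_mul' le_rfl h1) le_rfl).trans ?_
    rw [← ENNReal.ofReal_mul (by norm_num), ← ENNReal.ofReal_add (by positivity) (by positivity)]
    refine ENNReal.ofReal_le_ofReal ?_
    have h2 : Real.exp (-(b / 2) * 1) ≤ 1 := Real.exp_le_one_iff.2 (by linarith)
    nlinarith [mul_le_mul_of_nonneg_left h2 (show 0 ≤ (1 + 2 / b) * N by positivity)]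
  have hmain : ∀ t ∈ Icc 0 T, y t ≤ ∫⁻ s in Ioc 0 t, Φ s := by
    intro t ht
    have hanti' : ∀ᵐ s ∂(volume.restrict (Ioc 0 t)), Antitone fun n => K * gapMom f₀ g n s := by
      filter_upwards [ae_restrict_mem measurableSet_Ioc] with s hs
      exact antitone_nat_of_succ_le fun n => mul_le_mul' le_rfl
        (lintegral_mono fun z => mul_le_mul' le_rfl (hanti n s ⟨hs.1.le, hs.2.trans ht.2⟩ z))
    simp only [hΦ]
    rw [lintegral_iInf' (fun n => ((hmm n).const_mul K).aemeasurable) hanti']
    · exact le_iInf fun n => (iInf_le _ (n + 1)).trans (h.gap_mass n ht)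
    · refine ne_top_of_le_ne_top ?_ (setLIntegral_mono measurable_const fun s hs =>
        mul_le_mul' le_rfl (hfin s ⟨hs.1.le, hs.2.trans ht.2⟩))
      rw [setLIntegral_const, hKe]
      exact ENNReal.mul_ne_top (ENNReal.mul_ne_top ENNReal.ofReal_ne_top ENNReal.ofReal_ne_top)
        measure_Ioc_lt_top.ne
  have hfinal := gronwall_zero (y := y) (Φ := Φ) (T := T) (A := N) (κ := 6 * momBound b N * c + 1)
    (κ' := 3 * momBound b N * c * ((1 + 2 / b) * N)) (a := b / 2) hN (by positivity) (by positivity)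
    (by positivity) (Eventually.of_forall fun t ht => hy t (Ioc_subset_Icc_self ht))
    (Eventually.of_forall fun t ht => hz t (Ioc_subset_Icc_self ht))
    (fun R hR' => Eventually.of_forall fun t ht =>
      (hR R (by exact_mod_cast hR') t (Ioc_subset_Icc_self ht)).trans (by gcongr; linarith))
    (Eventually.of_forall fun t ht => hmain t (Ioc_subset_Icc_self ht))
  rw [μt, ae_restrict_iff' measurableSet_Ioc]
  filter_upwards [hfinal] with t ht htm
  have h0 : ∫⁻ z, ((⨅ n, (ksIter f₀ g n).2 t z) - ⨆ n, (ksIter f₀ g n).1 t z) = 0 := by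
    refine le_antisymm ((le_iInf fun n => lintegral_mono fun z => ?_).trans_eq (ht htm)) bot_le
    exact tsub_le_tsub (iInf_le _ n) (le_iSup (fun n => (ksIter f₀ g n).1 t z) n)
  have hmt : Measurable fun z => (⨅ n, (ksIter f₀ g n).2 t z) - ⨆ n, (ksIter f₀ g n).1 t z :=
    (Measurable.iInf fun n => (h.measurable_ks n).2.comp measurable_prodMk_left).sub
      (Measurable.iSup fun n => (h.measurable_ks n).1.comp measurable_prodMk_left)
  rw [lintegral_eq_zero_iff hmt] at h0
  filter_upwards [h0] with z hz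
  exact tsub_eq_zero_iff_le.1 hz

end KS

end Vale.Agent.P140
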