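import Mathlib
import Vale.Agent.P140.Monotone

/-! Local tame mild solutions below an exponentially integrable velocity envelope. -/

noncomputable section

open MeasureTheory Set Filter
open scoped ENNReal Topology

namespace Vale.Agent.P140

attribute [local irreducible] gain2 loss2 gainE rateE maj ksIter

lemma gain_ofReal {f : V → ℝ} (hf : ∀ v, 0 ≤ f v) (v : V) :
    gain f v = gainE (fun u => ENNReal.ofReal (f u)) (fun u => ENNReal.ofReal (f u)) v := by
  unfold gain gainE
  refine lintegral_congr fun p => ?_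
  rw [ENNReal.ofReal_mul (abs_nonneg _), ENNReal.ofReal_mul (hf _)]

lemma loss_ofReal {f : V → ℝ} (hf : ∀ v, 0 ≤ f v) (v : V) :
    loss f v = ENNReal.ofReal (f v) * rateE (fun u => ENNReal.ofReal (f u)) v := by
  unfold loss rateE
  rw [← lintegral_const_mul' _ _ ENNReal.ofReal_ne_top]
  refine lintegral_congr fun p => ?_
  rw [ENNReal.ofReal_mul (abs_nonneg _), ENNReal.ofReal_mul (hf _)]
  ring

lemma gainE_congr_ae {f h : V → ℝ≥0∞} (hf : Measurable f) (hh : Measurable h) (hle : f ≤ h)
    (he : f =ᵐ[volume] h) (hfin : momE h ≠ ⊤) : gainE f f =ᵐ[volume] gainE h h := by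
  have hi : ∫⁻ v, gainE h h v = ∫⁻ v, gainE f f v := by
    rw [lintegral_gainE hh hh, lintegral_gainE hf hf]
    refine lintegral_congr_ae ?_
    filter_upwards [he] with v hv
    rw [rateE_congr he v, hv]
  have hne : ∫⁻ v, gainE f f v ≠ ⊤ := by
    rw [← hi, lintegral_gainE hh hh]
    exact ne_top_of_le_ne_top (ENNReal.mul_ne_top (ENNReal.mul_ne_top hfin hfin) (measure_ne_top _ _))
      (lintegral_mul_rateE_le h hh hh)
  exact ae_eq_of_ae_le_of_lintegral_le (Eventually.of_forall fun v => gainE_mono hle hle v) hne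
    (measurable_gainE1 hh hh).aemeasurable hi.le

/-- Survival probability plus absorbed fraction is one. -/
lemma expo_identity {ℓ : ℝ → ℝ≥0∞} (hℓ : Measurable ℓ) {T r t : ℝ} (hr : 0 ≤ r) (hrt : r ≤ t)
    (htT : t ≤ T) (hfin : ∫⁻ u in Ioc 0 T, ℓ u ≠ ⊤) :
    expo (∫⁻ u in Ioc r t, ℓ u) + ∫⁻ s in Ioc r t, ℓ s * expo (∫⁻ u in Ioc r s, ℓ u) = 1 := by
  have hT : 0 ≤ T := hr.trans (hrt.trans htT)
  set k : ℝ → ℝ := fun u => (ℓ u).toReal with hk
  have hki : IntegrableOn k (Ioc 0 T) := integrable_toReal_of_lintegral_ne_top hℓ.aemeasurable hfin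
  have hkI : IntervalIntegrable (fun u => -k u) volume 0 T :=
    ((intervalIntegrable_iff_integrableOn_Ioc_of_le hT).2 hki).neg
  have hsub : ∀ p q, 0 ≤ p → p ≤ q → q ≤ T → IntervalIntegrable k volume p q := fun p q hp hpq hq =>
    (intervalIntegrable_iff_integrableOn_Ioc_of_le hpq).2 (hki.mono_set (Ioc_subset_Ioc hp hq))
  have hlam : ∀ s, r ≤ s → s ≤ T → (∫⁻ u in Ioc r s, ℓ u).toReal = ∫ u in r..s, k u := by
    intro s h1 h2
    have hne := ((lintegral_mono_set (Ioc_subset_Ioc hr h2)).trans_lt hfin.lt_top).ne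
    rw [intervalIntegral.integral_of_le h1, hk, integral_toReal hℓ.aemeasurable (ae_lt_top hℓ hne)]
  set c := ∫ u in (0 : ℝ)..r, k u with hc
  set W : ℝ → ℝ := fun s => c + ∫ u in (0 : ℝ)..s, -k u with hW
  have hWs : ∀ s, r ≤ s → s ≤ T → W s = -∫ u in r..s, k u := by
    intro s h1 h2
    simp only [hW, hc, intervalIntegral.integral_neg]
    have := intervalIntegral.integral_add_adjacent_intervals (hsub 0 r le_rfl hr (h1.trans h2))
      (hsub r s hr h1 h2)
    linarith
  have e1 := exp_primitive (c := c) hkI t ⟨hr.trans hrt, htT⟩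
  have e2 := exp_primitive (c := c) hkI r ⟨hr, hrt.trans htT⟩
  set g : ℝ → ℝ := fun s => Real.exp (W s) * -k s with hg
  change Real.exp (W t) = Real.exp c + ∫ s in (0 : ℝ)..t, g s at e1
  change Real.exp (W r) = Real.exp c + ∫ s in (0 : ℝ)..r, g s at e2
  have hWc : ContinuousOn W (uIcc 0 T) := (primitive_facts (c := c) hT hkI).1.continuousOn
  have hgi : IntervalIntegrable g volume 0 T := hkI.continuousOn_mul hWc.rexp
  have hgsub : ∀ q, 0 ≤ q → q ≤ T → IntervalIntegrable g volume 0 q := fun q h1 h2 =>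
    hgi.mono_set (by rw [uIcc_of_le h1, uIcc_of_le hT]; exact Icc_subset_Icc_right h2)
  have hgrt : IntervalIntegrable g volume r t :=
    (hgsub r hr (hrt.trans htT)).symm.trans (hgsub t (hr.trans hrt) htT)
  have e3 := intervalIntegral.integral_add_adjacent_intervals (hgsub r hr (hrt.trans htT)) hgrt
  have hWr : W r = 0 := by rw [hWs r le_rfl (hrt.trans htT), intervalIntegral.integral_same, neg_zero]
  rw [hWr, Real.exp_zero] at e2
  have hint : ∫⁻ s in Ioc r t, ℓ s * expo (∫⁻ u in Ioc r s, ℓ u)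
      = ENNReal.ofReal (∫ s in r..t, -g s) := by
    have hgn : IntegrableOn (fun s => -g s) (Ioc r t) :=
      (intervalIntegrable_iff_integrableOn_Ioc_of_le hrt).1 hgrt.neg
    rw [intervalIntegral.integral_of_le hrt, ofReal_integral_eq_lintegral_ofReal hgn
      (Eventually.of_forall fun s => by
        simp only [hg, hk, Pi.zero_apply, mul_neg, neg_neg]
        exact mul_nonneg (Real.exp_pos _).le ENNReal.toReal_nonneg)]
    have hlt : ∀ᵐ s ∂(volume.restrict (Ioc r t)), ℓ s < ⊤ :=
      ae_restrict_of_ae_restrict_of_subset (Ioc_subset_Ioc hr htT) (ae_lt_top hℓ hfin)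
    refine lintegral_congr_ae ?_
    filter_upwards [hlt, ae_restrict_mem measurableSet_Ioc] with s h1 h2
    rw [expo, hlam s h2.1.le (h2.2.trans htT), ← hWs s h2.1.le (h2.2.trans htT)]
    simp only [hg, hk, mul_neg, neg_neg]
    rw [ENNReal.ofReal_mul (Real.exp_pos _).le, ENNReal.ofReal_toReal h1.ne, mul_comm]
  have hpos : 0 ≤ ∫ s in r..t, -g s := intervalIntegral.integral_nonneg hrt fun s _ => by
    simp only [hg, hk, mul_neg, neg_neg]
    exact mul_nonneg (Real.exp_pos _).le ENNReal.toReal_nonneg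
  rw [hint, expo, hlam t hrt htT, ← hWs t hrt htT, ← ENNReal.ofReal_add (Real.exp_pos _).le hpos,
    ← ENNReal.ofReal_one]
  congr 1
  rw [intervalIntegral.integral_neg]
  linarith

lemma Setup.along_identity {f₀ : X × V → ℝ≥0∞} {g : V → ℝ≥0∞} {T b N : ℝ} (h : Setup f₀ g T b N)
    {L : ℝ → X × V → ℝ≥0∞} (hL : Measurable (Function.uncurry L))
    (hLb : ∀ t ∈ Icc 0 T, ∀ z : X × V, L t z ≤ maj g t z.2) {t : ℝ} (ht : t ∈ Icc 0 T) (y : X × V) :
    stepAlong f₀ L L t y + ∫⁻ s in Ioc 0 t, stepAlong f₀ L L s y * rateF L s (shift s y)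
      = f₀ y + ∫⁻ r in Ioc 0 t, gainF L r (shift r y) := by
  obtain ⟨ℓ, hℓd⟩ : ∃ ℓ : ℝ → ℝ≥0∞, ∀ s, rateF L s (shift s y) = ℓ s := ⟨_, fun _ => rfl⟩
  obtain ⟨q, hqd⟩ : ∃ q : ℝ → ℝ≥0∞, ∀ s, gainF L s (shift s y) = q s := ⟨_, fun _ => rfl⟩
  have hℓ : Measurable ℓ := by
    have h2 := (measurable_rate_along hL).comp (measurable_prodMk_right (y := y) (α := ℝ))
    simpa only [Function.comp_def, hℓd] using h2
  have hq : Measurable q := by
    have h2 := (measurable_gain_along hL).comp (measurable_prodMk_right (y := y) (α := ℝ))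
    simpa only [Function.comp_def, hqd] using h2
  have hfin : ∫⁻ u in Ioc 0 T, ℓ u ≠ ⊤ := by
    have h2 := h.lam_ne_top hLb (r := 0) (t := T) le_rfl le_rfl y
    simpa only [lam, hℓd] using h2
  have hlm : Measurable fun p : ℝ × ℝ => lam L y p.1 p.2 := by
    have hφ : Measurable fun p : ℝ × ℝ => (((p.2, y) : ℝ × (X × V)), p.1) := by fun_prop
    have h2 := (measurable_lam hL).comp hφ
    simpa only [Function.comp_def] using h2
  obtain ⟨E, hEd⟩ : ∃ E : ℝ → ℝ → ℝ≥0∞, ∀ r s, expo (lam L y r s) = E r s := ⟨_, fun _ _ => rfl⟩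
  have hE : ∀ r, 0 ≤ r → r ≤ t → E r t + ∫⁻ s in Ioc r t, ℓ s * E r s = 1 := by
    intro r hr hrt
    have h2 := expo_identity hℓ hr hrt ht.2 hfin
    simpa only [← hEd, lam, hℓd] using h2
  have hEm : Measurable fun p : ℝ × ℝ => E p.1 p.2 := by
    have h2 := measurable_expo.comp hlm
    simpa only [Function.comp_def, hEd] using h2
  have hE1 : ∀ r, Measurable fun s => E r s := fun r => by
    have h2 := hEm.comp (measurable_prodMk_left (x := r) (β := ℝ))
    simpa only [Function.comp_def] using h2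
  have hE2 : ∀ s, Measurable fun r => E r s := fun s => by
    have h2 := hEm.comp (measurable_prodMk_right (y := s) (α := ℝ))
    simpa only [Function.comp_def] using h2
  have hKr : ∀ r, Measurable fun s => ℓ s * E r s := fun r => hℓ.mul (hE1 r)
  have hK : Measurable (Function.uncurry fun r s => ℓ s * E r s * q r) :=
    ((hℓ.comp measurable_snd).mul hEm).mul (hq.comp measurable_fst)
  have tri := lintegral_triangle (K := fun r s => ℓ s * E r s * q r) hK t
  simp only [lintegral_mul_const _ (hKr _)] at tri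
  have hPs : ∀ s, stepAlong f₀ L L s y = E 0 s * f₀ y + ∫⁻ r in Ioc 0 s, E r s * q r := fun s => by
    simp only [stepAlong, hEd, hqd]
  simp only [hPs, hℓd, hqd]
  have expand : ∀ s, (E 0 s * f₀ y + ∫⁻ r in Ioc 0 s, E r s * q r) * ℓ s
      = ℓ s * E 0 s * f₀ y + ∫⁻ r in Ioc 0 s, ℓ s * E r s * q r := by
    intro s
    simp only [mul_assoc]
    rw [lintegral_const_mul (ℓ s) (f := fun r => E r s * q r) ((hE2 s).mul hq)]
    ring
  rw [lintegral_congr expand, lintegral_add_left ((hKr 0).mul_const _),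
    lintegral_mul_const _ (hKr 0), tri, add_add_add_comm, ← add_mul, hE 0 le_rfl ht.1, one_mul]
  refine congrArg _ ?_
  have m3 : Measurable fun r => E r t * q r := (hE2 t).mul hq
  rw [← lintegral_add_left m3]
  refine setLIntegral_congr_fun measurableSet_Ioc fun r hr => ?_
  simp only [← add_mul, hE r hr.1.le hr.2, one_mul]

/-- The lower limit of the scheme is a fixed point almost everywhere. -/
lemma Setup.fixed_point {f₀ : X × V → ℝ≥0∞} {g : V → ℝ≥0∞} {T b N : ℝ} (h : Setup f₀ g T b N) :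
    ∃ L : ℝ → X × V → ℝ≥0∞, Measurable (Function.uncurry L) ∧
      (∀ t ∈ Icc 0 T, ∀ z : X × V, L t z ≤ maj g t z.2) ∧
      ∀ᵐ t ∂μt T, ∀ᵐ z : X × V, L t z = step f₀ L L t z := by
  refine ⟨fun t z => ⨆ n, (ksIter f₀ g n).1 t z, Measurable.iSup fun n => (h.measurable_ks n).1,
    fun t ht z => iSup_le fun n => ((h.order n t ht z).2.2.1).trans (h.order n t ht z).2.2.2, ?_⟩
  set L : ℝ → X × V → ℝ≥0∞ := fun t z => ⨆ n, (ksIter f₀ g n).1 t z with hL
  have hmono : ∀ t ∈ Icc 0 T, ∀ z, Monotone fun n => (ksIter f₀ g n).1 t z := fun t ht z =>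
    monotone_nat_of_le_succ fun n => (h.order n t ht z).1
  have hanti : ∀ t ∈ Icc 0 T, ∀ z, Antitone fun n => (ksIter f₀ g n).2 t z := fun t ht z =>
    antitone_nat_of_succ_le fun n => (h.order n t ht z).2.1
  have hLu : ∀ t ∈ Icc 0 T, ∀ z n, L t z ≤ (ksIter f₀ g n).2 t z := fun t ht z n =>
    iSup_le fun m => (hmono t ht z (le_max_left m n)).trans
      ((h.order _ t ht z).2.2.1.trans (hanti t ht z (le_max_right m n)))
  have hl : ∀ t z n, (ksIter f₀ g n).1 t z ≤ L t z := fun t z n =>
    le_iSup (fun n => (ksIter f₀ g n).1 t z) n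
  have hLT : ∀ t ∈ Icc 0 T, ∀ z : X × V, L t z ≤ maj g t z.2 := fun t ht z =>
    (hLu t ht z 0).trans (h.order 0 t ht z).2.2.2
  filter_upwards [h.collapse, ae_restrict_mem measurableSet_Ioc] with t ht htm
  have htI : t ∈ Icc 0 T := Ioc_subset_Icc_self htm
  filter_upwards [ht] with z hz
  have hsucc : ∀ n, (ksIter f₀ g (n + 1)).1 t z
        = step f₀ (ksIter f₀ g n).1 (ksIter f₀ g n).2 t z ∧
      (ksIter f₀ g (n + 1)).2 t z = step f₀ (ksIter f₀ g n).2 (ksIter f₀ g n).1 t z := fun n => by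
    rw [ksIter]; exact ⟨rfl, rfl⟩
  refine le_antisymm (iSup_le fun n => ?_) (le_trans (le_iInf fun n => ?_) hz)
  · refine le_trans (hmono t htI z n.le_succ) ?_
    simp only [Nat.succ_eq_add_one]
    rw [(hsucc n).1]
    exact h.step_mono (fun s _ w => hl s w n) (fun s hs w => hLu s hs w n)
      (fun s hs w => (h.order n s hs w).2.2.2) htI z
  · refine le_trans ?_ (hanti t htI z n.le_succ)
    simp only [Nat.succ_eq_add_one]
    rw [(hsucc n).2]
    exact h.step_mono (fun s hs w => hLu s hs w n) (fun s _ w => hl s w n) hLT htI z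

/-- Local existence below an envelope with an exponential velocity moment. -/
theorem exists_exp {f₀ : X × V → ℝ} {g : V → ℝ} {a : ℝ} (ha : 0 < a) (hf₀m : Measurable f₀)
    (hf₀ : ∀ z, 0 ≤ f₀ z) (hgm : Measurable g) (hfg : ∀ z, f₀ z ≤ g z.2)
    (hg : ∫⁻ v, ENNReal.ofReal (Real.exp (a * ‖v‖) * g v) < ⊤) :
    ∃ T, 0 < T ∧ ∃ G A, IsMild f₀ G T ∧ IsTame G T (a / 2) A := by
  set g' : V → ℝ≥0∞ := fun v => ENNReal.ofReal (g v) with hg'
  set e₀ : X × V → ℝ≥0∞ := fun z => ENNReal.ofReal (f₀ z) with he₀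
  have hg'e : ∫⁻ v, ew a v * g' v = ∫⁻ v, ENNReal.ofReal (Real.exp (a * ‖v‖) * g v) :=
    lintegral_congr fun v => by
      rw [ew, hg']
      exact (ENNReal.ofReal_mul (Real.exp_pos _).le).symm
  set N := (∫⁻ v, ew a v * g' v).toReal with hN
  have hN0 : 0 ≤ N := ENNReal.toReal_nonneg
  have hgN : ∫⁻ v, ew a v * g' v ≤ ENNReal.ofReal N := by
    rw [hN, ENNReal.ofReal_toReal (by rw [hg'e]; exact hg.ne)]
  set κ := 8 * (sig univ).toReal * N + 1 with hκ
  have hκpos : 0 < κ := by
    have : 0 ≤ (sig univ).toReal := ENNReal.toReal_nonneg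
    positivity
  set T := a / (2 * κ) with hT
  have hTpos : 0 < T := by positivity
  have hgm' : Measurable g' := hgm.ennreal_ofReal
  have S : Setup e₀ g' T (a / 2) (2 * N) :=
    ⟨hf₀m.ennreal_ofReal, hgm', fun z => ENNReal.ofReal_le_ofReal (hfg z), by positivity,
      by positivity, maj_bound hgm' hκpos hN0 (by linarith) hgN⟩
  obtain ⟨L, hLm, hLb, hLfix⟩ := S.fixed_point
  set G : ℝ → X × V → ℝ := fun t z => (Icc 0 T).indicator (fun t => (L t z).toReal) t with hG
  have hGm : Measurable (Function.uncurry G) := by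
    have : Function.uncurry G = fun p : ℝ × (X × V) =>
        (Prod.fst ⁻¹' Icc 0 T).indicator (fun p : ℝ × (X × V) => (L p.1 p.2).toReal) p := by
      funext p
      by_cases hp : p.1 ∈ Icc 0 T
      · simp [hG, Function.uncurry, hp]
      · simp [hG, Function.uncurry, hp]
    rw [this]
    exact hLm.ennreal_toReal.indicator (measurableSet_Icc.preimage measurable_fst)
  have hGn : ∀ t z, 0 ≤ G t z := fun t z => indicator_nonneg (fun _ _ => ENNReal.toReal_nonneg) _
  have hGL : ∀ s ∈ Icc 0 T, ∀ z, ENNReal.ofReal (G s z) ≤ L s z := fun s hs z => by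
    simp only [hG, indicator_of_mem hs]; exact ENNReal.ofReal_toReal_le
  have hGLeq : ∀ s ∈ Icc 0 T, ∀ z, L s z ≠ ⊤ → ENNReal.ofReal (G s z) = L s z := fun s hs z hz => by
    simp only [hG, indicator_of_mem hs]; exact ENNReal.ofReal_toReal hz
  have mT : Measurable fun v : V => maj g' T v :=
    (measurable_maj hgm').comp (measurable_prodMk_left (x := T))
  have hmajfin : ∀ᵐ v : V, maj g' T v < ⊤ := by
    have h1 : ∀ᵐ v : V, ew (a / 2) v * maj g' T v < ⊤ :=
      ae_lt_top ((measurable_ew _).mul mT)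
        (ne_top_of_le_ne_top ENNReal.ofReal_ne_top (S.bound T ⟨hTpos.le, le_rfl⟩))
    filter_upwards [h1] with v hv
    by_contra htop
    rw [not_lt, top_le_iff] at htop
    rw [htop, ENNReal.mul_top] at hv
    · exact lt_irrefl _ hv
    · simp [ew, Real.exp_pos]
  have hfin : ∀ s ∈ Icc 0 T, ∀ z : X × V, maj g' T z.2 < ⊤ → L s z ≠ ⊤ := fun s hs z hz =>
    ne_top_of_le_ne_top hz.ne ((hLb s hs z).trans (maj_mono hgm' hs.2 _))
  -- slices of the two representatives
  have slice : ∀ s ∈ Icc 0 T, ∀ x : X,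
      (fun u => ENNReal.ofReal (G s (x, u))) =ᵐ[volume] fun u => L s (x, u) := fun s hs x => by
    filter_upwards [hmajfin] with u hu
    exact hGLeq s hs (x, u) (hfin s hs (x, u) hu)
  have hgainL : ∀ s ∈ Icc 0 T, ∀ᵐ z : X × V, gainAt (G s) z = gainF L s z := by
    intro s hs
    have mLs : Measurable fun z => L s z := hLm.comp measurable_prodMk_left
    have mGs : Measurable fun z => G s z := hGm.comp measurable_prodMk_left
    have m1 : Measurable fun z => gainAt (G s) z := measurable_gainAt_slice hGm s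
    have m2 : Measurable fun z => gainF L s z := by
      have h2 := (measurable_gainF hLm).comp (measurable_prodMk_left (x := s) (β := X × V))
      simpa only [Function.comp_def] using h2
    refine (Measure.ae_prod_iff_ae_ae (measurableSet_eq_fun m1 m2)).2
      (Eventually.of_forall fun x => ?_)
    have hw : Measurable fun u : V => (x, u) := measurable_prodMk_left
    have hA : momE (fun u => L s (x, u)) ≠ ⊤ :=
      ne_top_of_le_ne_top ENNReal.ofReal_ne_top
        ((lintegral_mono fun u => mul_le_mul' le_rfl (hLb s hs (x, u))).trans (S.momE_maj hs))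
    have hge := gainE_congr_ae (f := fun u => ENNReal.ofReal (G s (x, u))) (h := fun u => L s (x, u))
      (mGs.comp hw).ennreal_ofReal (mLs.comp hw) (fun u => hGL s hs (x, u)) (slice s hs x) hA
    filter_upwards [hge] with v hv
    change gain (fun u => G s (x, u)) v = gainE (fun u => L s (x, u)) (fun u => L s (x, u)) v
    rw [gain_ofReal (fun u => hGn s _), hv]
  have hlossL : ∀ s ∈ Icc 0 T, ∀ z : X × V, L s z ≠ ⊤ → lossAt (G s) z = L s z * rateF L s z := by
    intro s hs z hz
    simp only [lossAt, rateF]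
    rw [loss_ofReal (fun u => hGn s _), rateE_congr (slice s hs z.1), hGLeq s hs z hz]
  have hgain : ∀ᵐ y : X × V, ∀ᵐ s ∂μt T,
      gainAt (G s) (shift s y) = gainF L s (shift s y) := by
    have h1 : ∀ᵐ s ∂μt T, ∀ᵐ y : X × V, gainAt (G s) (shift s y) = gainF L s (shift s y) := by
      filter_upwards [ae_restrict_mem measurableSet_Ioc] with s hs
      exact ae_shift s (hgainL s (Ioc_subset_Icc_self hs))
    refine (Measure.ae_ae_comm (p := fun s y => gainAt (G s) (shift s y) = gainF L s (shift s y)) ?_).1 h1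
    have h2 := (measurable_gainAt hGm).comp measurable_along
    simp only [Function.comp_def] at h2
    exact measurableSet_eq_fun h2 (measurable_gain_along hLm)
  have hfix : ∀ᵐ y : X × V, ∀ᵐ t ∂μt T, L t (shift t y) = stepAlong e₀ L L t y := by
    have h1 : ∀ᵐ t ∂μt T, ∀ᵐ y : X × V, L t (shift t y) = step e₀ L L t (shift t y) :=
      hLfix.mono fun t ht => ae_shift t ht
    have h2 := (hLm).comp measurable_along
    have h3 := (measurable_step S.meas₀ hLm hLm).comp measurable_along
    simp only [Function.comp_def, Function.uncurry_def] at h2 h3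
    have h4 := (Measure.ae_ae_comm (p := fun t y => L t (shift t y) = step e₀ L L t (shift t y))
      (measurableSet_eq_fun h2 h3)).1 h1
    filter_upwards [h4] with y hy
    simpa only [step_shift] using hy
  have hv : ∀ᵐ y : X × V, maj g' T y.2 < ⊤ := Measure.quasiMeasurePreserving_snd.ae hmajfin
  have key : ∀ᵐ y : X × V, (∫⁻ t in Ioc 0 T, gainAt (G t) (shift t y) < ⊤) ∧
      (∫⁻ t in Ioc 0 T, lossAt (G t) (shift t y) < ⊤) ∧
      ∀ᵐ t ∂μt T, G t (shift t y) = f₀ y + ∫ s in (0 : ℝ)..t, collAt (G s) (shift s y) := by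
    filter_upwards [hgain, hfix, hv] with y hy1 hy2 hy3
    have hq : ∫⁻ r in Ioc 0 T, gainF L r (shift r y) ≤ maj g' T y.2 := by
      rw [maj_eq hgm']
      refine le_trans (setLIntegral_mono' measurableSet_Ioc fun r hr => ?_) le_add_self
      exact gainE_mono (fun w => hLb r (Ioc_subset_Icc_self hr) _)
        (fun w => hLb r (Ioc_subset_Icc_self hr) _) _
    have hg_eq : ∀ t ≤ T, ∫⁻ s in Ioc 0 t, gainAt (G s) (shift s y)
        = ∫⁻ s in Ioc 0 t, gainF L s (shift s y) := fun t ht =>
      lintegral_congr_ae (ae_restrict_of_ae_restrict_of_subset (Ioc_subset_Ioc_right ht) hy1)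
    have hl_eq : ∀ t ≤ T, ∫⁻ s in Ioc 0 t, lossAt (G s) (shift s y)
        = ∫⁻ s in Ioc 0 t, stepAlong e₀ L L s y * rateF L s (shift s y) := fun t ht => by
      refine lintegral_congr_ae ?_
      filter_upwards [ae_restrict_of_ae_restrict_of_subset (Ioc_subset_Ioc_right ht) hy2,
        ae_restrict_mem measurableSet_Ioc] with s hs hsm
      have hsI : s ∈ Icc 0 T := ⟨hsm.1.le, hsm.2.trans ht⟩
      rw [hlossL s hsI _ (hfin s hsI _ (by simpa using hy3)), hs]
    have hG1 : ∫⁻ t in Ioc 0 T, gainAt (G t) (shift t y) < ⊤ := by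
      rw [hg_eq T le_rfl]; exact hq.trans_lt hy3
    have hL1 : ∫⁻ t in Ioc 0 T, lossAt (G t) (shift t y) < ⊤ := by
      rw [hl_eq T le_rfl]
      refine lt_of_le_of_lt (le_add_self.trans
        (S.along_identity hLm hLb ⟨hTpos.le, le_rfl⟩ y).le) ?_
      exact ENNReal.add_lt_top.2 ⟨ENNReal.ofReal_lt_top, hq.trans_lt hy3⟩
    refine ⟨hG1, hL1, ?_⟩
    filter_upwards [hy2, ae_restrict_mem measurableSet_Ioc] with t ht htm
    have htI : t ∈ Icc 0 T := Ioc_subset_Icc_self htm
    have hsub : Ioc 0 t ⊆ Ioc 0 T := Ioc_subset_Ioc_right htm.2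
    have hid := S.along_identity hLm hLb htI y
    rw [← ht, ← hGLeq t htI _ (hfin t htI _ (by simpa using hy3)), ← hl_eq t htm.2,
      ← hg_eq t htm.2] at hid
    have mgy : Measurable fun s => gainAt (G s) (shift s y) := by
      have h2 := ((measurable_gainAt hGm).comp measurable_along).comp
        (measurable_prodMk_right (y := y) (α := ℝ))
      simpa only [Function.comp_def] using h2
    have mly : Measurable fun s => lossAt (G s) (shift s y) := by
      have h2 := ((measurable_lossAt hGm).comp measurable_along).comp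
        (measurable_prodMk_right (y := y) (α := ℝ))
      simpa only [Function.comp_def] using h2
    have f1 := ((lintegral_mono_set hsub).trans_lt hG1).ne
    have f2 := ((lintegral_mono_set hsub).trans_lt hL1).ne
    rw [intervalIntegral.integral_of_le htm.1.le]
    simp only [collAt]
    rw [integral_sub (integrable_toReal_of_lintegral_ne_top mgy.aemeasurable f1)
      (integrable_toReal_of_lintegral_ne_top mly.aemeasurable f2),
      integral_toReal mgy.aemeasurable (ae_lt_top mgy f1),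
      integral_toReal mly.aemeasurable (ae_lt_top mly f2)]
    have h4 := congrArg ENNReal.toReal hid
    rw [ENNReal.toReal_add ENNReal.ofReal_ne_top f2, ENNReal.toReal_add ENNReal.ofReal_ne_top f1,
      ENNReal.toReal_ofReal (hGn _ _), ENNReal.toReal_ofReal (hf₀ y)] at h4
    linarith
  refine ⟨T, hTpos, G, momBound (a / 2) (2 * N) + 2 * N,
    ⟨hGm, hGn, key.mono fun y hy => hy.1, key.mono fun y hy => hy.2.1,
      key.mono fun y hy => hy.2.2⟩, ⟨?_, ?_⟩⟩
  · have hmem : ∀ᵐ p : ℝ × X ∂(μt T).prod volume, p.1 ∈ Ioc 0 T :=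
      Measure.quasiMeasurePreserving_fst.ae (ae_restrict_mem measurableSet_Ioc)
    filter_upwards [hmem] with p hp
    have hpI : p.1 ∈ Icc 0 T := Ioc_subset_Icc_self hp
    refine le_trans (lintegral_mono fun w => ?_) ((S.momE_maj hpI).trans
      (ENNReal.ofReal_le_ofReal (le_add_of_nonneg_right (by positivity))))
    rw [mul_comm, ENNReal.ofReal_mul (by positivity)]
    exact mul_le_mul' le_rfl ((hGL p.1 hpI _).trans (hLb p.1 hpI _))
  · filter_upwards [ae_restrict_mem measurableSet_Ioc] with t ht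
    have htI : t ∈ Icc 0 T := Ioc_subset_Icc_self ht
    have mm : Measurable fun v : V => ew (a / 2) v * maj g' t v :=
      (measurable_ew _).mul ((measurable_maj hgm').comp measurable_prodMk_left)
    refine le_trans (lintegral_mono fun z => ?_) ((lintegral_vel mm).le.trans ((S.bound t htI).trans
      (ENNReal.ofReal_le_ofReal (le_add_of_nonneg_left (by unfold momBound; positivity)))))
    rw [ENNReal.ofReal_mul (Real.exp_pos _).le]
    exact mul_le_mul' le_rfl ((hGL t htI _).trans (hLb t htI _))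

end Vale.Agent.P140
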