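import Mathlib
import Vale.Agent.P140.Core
import Vale.Agent.P140.Exist
import Vale.Agent.P140.Exist2

/-! Consequences for renormalized entropy solutions. -/

noncomputable section

open MeasureTheory Set Filter
open scoped ENNReal Topology

namespace Vale.Agent.P140

attribute [local irreducible] gain2 loss2

lemma IsMild.congr_datum {F₀ F₁ : X × V → ℝ} {F : ℝ → X × V → ℝ} {T : ℝ} (h : IsMild F₀ F T)
    (he : F₀ =ᵐ[volume] F₁) : IsMild F₁ F T :=
  ⟨h.measurable, h.nonneg, h.gain_fin, h.loss_fin, by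
    filter_upwards [h.eq, he] with z hz hez
    simpa only [← hez] using hz⟩

lemma IsSolution.integrable_sq {F₀ : X × V → ℝ} {F : ℝ → X × V → ℝ} (h : IsSolution F₀ F) {t : ℝ}
    (ht : 0 ≤ t) : Integrable fun z => ‖z.2‖ ^ 2 * F t z := by
  obtain ⟨C, hC⟩ := h.moments t
  have hm : Measurable fun z => ‖z.2‖ ^ 2 * F t z :=
    ((continuous_norm.measurable.comp measurable_snd).pow_const 2).mul (h.measurable_slice t)
  refine ⟨hm.aestronglyMeasurable, ?_⟩
  rw [hasFiniteIntegral_iff_ofReal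
    (Eventually.of_forall fun z => mul_nonneg (sq_nonneg _) (h.nonneg t z))]
  refine lt_of_le_of_lt ((lintegral_mono fun z => ENNReal.ofReal_le_ofReal ?_).trans
    (hC t ⟨ht, le_rfl⟩)) ENNReal.ofReal_lt_top
  nlinarith [mul_nonneg (h.nonneg t z) (abs_nonneg (Real.log (F t z))), h.nonneg t z]

/-- A renormalized solution coincides a.e. with a tame mild solution with the same datum. -/
lemma IsSolution.eq_tame {F₀ f₀ : X × V → ℝ} {F G : ℝ → X × V → ℝ} {T a A : ℝ} (ha : 0 < a)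
    (h : IsSolution F₀ F) (hf : F₀ =ᵐ[volume] f₀) (hf₀m : Measurable f₀) (hf₀ : ∀ z, 0 ≤ f₀ z)
    (hG : IsMild f₀ G T) (hb : IsTame G T a A) : ∀ᵐ t ∂μt T, F t =ᵐ[volume] G t := by
  refine uniqueness_core ha hG hb ((h.isMild T).congr_datum (h.initial.trans hf)) ?_
  have c1 := hG.conserve hb ha hf₀m hf₀ (φ := fun _ => 1) measurable_const (fun _ => zero_le_one)
    (fun v => one_le_pow₀ (le_add_of_nonneg_right (norm_nonneg v))) (fun _ _ _ => rfl)
  have c2 := hG.conserve hb ha hf₀m hf₀ (φ := fun v => ‖v‖ ^ 2) (by fun_prop)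
    (fun v => sq_nonneg _)
    (fun v => pow_le_pow_left₀ (norm_nonneg v) (le_add_of_nonneg_left zero_le_one) 2)
    norm_sq_post
  have real_eq : ∀ {φ g : X × V → ℝ}, Measurable φ → Measurable g → (∀ z, 0 ≤ φ z) → (∀ z, 0 ≤ g z) →
      ∫⁻ z, ENNReal.ofReal (φ z) = ∫⁻ z, ENNReal.ofReal (g z) → ∫ z, φ z = ∫ z, g z := by
    intro φ g hφ hg h1 h2 e
    rw [integral_eq_lintegral_of_nonneg_ae (Eventually.of_forall h1) hφ.aestronglyMeasurable,
      integral_eq_lintegral_of_nonneg_ae (Eventually.of_forall h2) hg.aestronglyMeasurable, e]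
  filter_upwards [c1, c2, ae_restrict_mem measurableSet_Ioc] with t e1 e2 htm
  have ht : 0 ≤ t := htm.1.le
  have mG : Measurable (G t) := hG.measurable.comp measurable_prodMk_left
  have m1 : ∫ z, G t z = ∫ z, f₀ z :=
    real_eq mG hf₀m (hG.nonneg t) hf₀ (by simpa only [one_mul] using e1)
  have m2 : ∫ z, ‖z.2‖ ^ 2 * G t z = ∫ z, ‖z.2‖ ^ 2 * f₀ z :=
    real_eq (by fun_prop) (by fun_prop) (fun z => mul_nonneg (sq_nonneg _) (hG.nonneg t z))
      (fun z => mul_nonneg (sq_nonneg _) (hf₀ z)) e2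
  refine ⟨h.integrable t ht, h.integrable_sq ht, ?_, ?_⟩
  · rw [h.mass t ht, m1]; exact integral_congr_ae hf
  · rw [m2]
    refine (h.energy t ht).trans_eq (integral_congr_ae ?_)
    filter_upwards [hf] with z hz
    rw [hz]

/-- Weak continuity upgrades a.e. equality in time to equality at every time. -/
lemma eq_all_times {F G : ℝ → X × V → ℝ} {T : ℝ}
    (hFi : ∀ t, 0 ≤ t → Integrable (F t)) (hGi : ∀ t, 0 ≤ t → Integrable (G t))
    (hFc : ∀ φ : X × V → ℝ, Measurable φ → (∃ C : ℝ, ∀ z, |φ z| ≤ C) →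
      ContinuousOn (fun t => ∫ z, φ z * F t z) (Ici 0))
    (hGc : ∀ φ : X × V → ℝ, Measurable φ → (∃ C : ℝ, ∀ z, |φ z| ≤ C) →
      ContinuousOn (fun t => ∫ z, φ z * G t z) (Ici 0))
    (h0 : F 0 =ᵐ[volume] G 0) (h : ∀ᵐ t ∂μt T, F t =ᵐ[volume] G t) :
    ∀ t ∈ Icc 0 T, F t =ᵐ[volume] G t := by
  intro t ht
  rcases ht.1.eq_or_lt with rfl | htpos
  · exact h0
  have hT : 0 < T := htpos.trans_le ht.2
  refine (hFi t ht.1).ae_eq_of_forall_setIntegral_eq _ _ (hGi t ht.1) fun s hs _ => ?_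
  have hm : Measurable (s.indicator fun _ : X × V => (1 : ℝ)) := measurable_const.indicator hs
  have hb : ∃ C : ℝ, ∀ z, |s.indicator (fun _ : X × V => (1 : ℝ)) z| ≤ C :=
    ⟨1, fun z => by by_cases hz : z ∈ s <;> simp [hz]⟩
  have key : ∀ H : ℝ → X × V → ℝ, ∀ u, ∫ z, s.indicator (fun _ => (1 : ℝ)) z * H u z
      = ∫ z in s, H u z := fun H u => by
    rw [← integral_indicator hs]
    refine integral_congr_ae (Eventually.of_forall fun z => ?_)
    by_cases hz : z ∈ s <;> simp [hz]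
  have hF := (hFc _ hm hb).mono (fun u hu => hu.1 : Icc 0 T ⊆ Ici 0)
  have hG := (hGc _ hm hb).mono (fun u hu => hu.1 : Icc 0 T ⊆ Ici 0)
  simp only [key] at hF hG
  have hEq : EqOn (fun u => ∫ z in s, F u z) (fun u => ∫ z in s, G u z) (Ioo 0 T) := by
    refine Measure.eqOn_open_of_ae_eq (μ := volume) ?_ isOpen_Ioo (hF.mono Ioo_subset_Icc_self)
      (hG.mono Ioo_subset_Icc_self)
    filter_upwards [ae_restrict_of_ae_restrict_of_subset Ioo_subset_Ioc_self h] with u hu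
    exact integral_congr_ae (ae_restrict_of_ae hu)
  exact hEq.of_subset_closure hF hG Ioo_subset_Icc_self (by rw [closure_Ioo hT.ne]) ht

/-- Local uniqueness below a Gaussian. -/
theorem local_unique (F₀ : X × V → ℝ) (hm : Measurable F₀) (h0 : ∀ z, 0 ≤ F₀ z) (C a : ℝ) (ha : 0 < a)
    (hbd : ∀ᵐ z, F₀ z ≤ C * Real.exp (-a * ‖z.2‖ ^ 2)) :
    ∃ T : ℝ, 0 < T ∧ ∀ F G, IsSolution F₀ F → IsSolution F₀ G →
      ∀ t ∈ Icc 0 T, F t =ᵐ[volume] G t := by
  set C' := max C 0
  set f₀ : X × V → ℝ := fun z => min (F₀ z) (C' * Real.exp (-a * ‖z.2‖ ^ 2)) with hf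
  have hf₀ : ∀ z, 0 ≤ f₀ z := fun z => le_min (h0 z) (by positivity)
  have he : F₀ =ᵐ[volume] f₀ := by
    filter_upwards [hbd] with z hz
    simp only [hf]
    rw [min_eq_left (hz.trans (mul_le_mul_of_nonneg_right (le_max_left _ _) (Real.exp_pos _).le))]
  have hK := kconst_nonneg a
  set D := (1 + Real.sqrt (2 / a)) * (8 * (C' + 1) ^ 2 * (kconst a + 1)) with hD
  have hDpos : 0 < D := by
    have : 0 ≤ C' := le_max_right _ _
    positivity
  have hf₀m : Measurable f₀ := hm.min (by fun_prop)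
  obtain ⟨H, A, hH, hA⟩ := exists_local ha (le_max_right C 0) hf₀m hf₀ (fun z => min_le_right _ _)
    D⁻¹ (inv_pos.2 hDpos) (by rw [mul_assoc, ← hD, inv_mul_cancel₀ hDpos.ne'])
  refine ⟨D⁻¹, inv_pos.2 hDpos, fun F G hF hG => eq_all_times hF.integrable hG.integrable
    hF.weak_continuous hG.weak_continuous (hF.initial.trans hG.initial.symm) ?_⟩
  filter_upwards [hF.eq_tame one_pos he hf₀m hf₀ hH hA, hG.eq_tame one_pos he hf₀m hf₀ hH hA]
    with t h1 h2
  exact h1.trans h2.symm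

/-- Local uniqueness below an envelope with an exponential velocity moment. -/
theorem local_unique_exp (F₀ : X × V → ℝ) (hm : Measurable F₀) (h0 : ∀ z, 0 ≤ F₀ z)
    (g : V → ℝ) (hgm : Measurable g) (a : ℝ) (ha : 0 < a) (hbd : ∀ᵐ z, F₀ z ≤ g z.2)
    (hg : ∫⁻ v, ENNReal.ofReal (Real.exp (a * ‖v‖) * g v) < ⊤) :
    ∃ T : ℝ, 0 < T ∧ ∀ F G, IsSolution F₀ F → IsSolution F₀ G →
      ∀ t ∈ Icc 0 T, F t =ᵐ[volume] G t := by
  set g₁ : V → ℝ := fun v => max (g v) 0 with hg₁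
  set f₀ : X × V → ℝ := fun z => min (F₀ z) (g₁ z.2) with hf
  have hf₀ : ∀ z, 0 ≤ f₀ z := fun z => le_min (h0 z) (le_max_right _ _)
  have he : F₀ =ᵐ[volume] f₀ := by
    filter_upwards [hbd] with z hz
    simp only [hf, hg₁]
    rw [min_eq_left (hz.trans (le_max_left _ _))]
  have hg₁m : Measurable g₁ := hgm.max measurable_const
  have hf₀m : Measurable f₀ := hm.min (hg₁m.comp measurable_snd)
  have hg₁f : ∫⁻ v, ENNReal.ofReal (Real.exp (a * ‖v‖) * g₁ v) < ⊤ := by
    refine lt_of_le_of_lt (le_of_eq (lintegral_congr fun v => ?_)) hg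
    rw [ENNReal.ofReal_mul (Real.exp_pos _).le, ENNReal.ofReal_mul (Real.exp_pos _).le, hg₁,
      ENNReal.ofReal_max, ENNReal.ofReal_zero, max_eq_left zero_le]
  obtain ⟨T, hT, H, A, hH, hA⟩ := exists_exp ha hf₀m hf₀ hg₁m (fun z => min_le_right _ _) hg₁f
  refine ⟨T, hT, fun F G hF hG => eq_all_times hF.integrable hG.integrable
    hF.weak_continuous hG.weak_continuous (hF.initial.trans hG.initial.symm) ?_⟩
  filter_upwards [hF.eq_tame (half_pos ha) he hf₀m hf₀ hH hA,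
    hG.eq_tame (half_pos ha) he hf₀m hf₀ hH hA] with t h1 h2
  exact h1.trans h2.symm

/-- Every global Maxwellian datum has only the constant solution. -/
theorem maxwellian_unique (ρ b : ℝ) (hρ : 0 ≤ ρ) (hb : 0 < b) (u : V) (F : ℝ → X × V → ℝ)
    (hF : IsSolution (fun z => ρ * Real.exp (-b * ‖z.2 - u‖ ^ 2)) F) (t : ℝ) (ht : 0 ≤ t) :
    F t =ᵐ[volume] fun z => ρ * Real.exp (-b * ‖z.2 - u‖ ^ 2) := by
  set M : V → ℝ := fun v => ρ * Real.exp (-b * ‖v - u‖ ^ 2) with hM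
  set m₀ : X × V → ℝ := fun z => M z.2 with hm₀
  set K := ρ * Real.exp (b * ‖u‖ ^ 2) with hK
  have hM0 : ∀ v, 0 ≤ M v := fun v => by positivity
  have hMle : ∀ v, M v ≤ K * Real.exp (-(b / 2) * ‖v‖ ^ 2) := fun v => by
    simp only [hM, hK, mul_assoc, ← Real.exp_add]
    refine mul_le_mul_of_nonneg_left (Real.exp_le_exp.2 ?_) hρ
    have h1 := norm_add_le (v - u) u
    rw [sub_add_cancel] at h1
    nlinarith [mul_nonneg hb.le (sq_nonneg (‖v - u‖ - ‖u‖)),
      mul_le_mul_of_nonneg_left (pow_le_pow_left₀ (norm_nonneg v) h1 2) hb.le]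
  have hMm : Measurable M := by fun_prop
  have iG : Integrable fun w : V => (1 + ‖w‖) * Real.exp (-(b / 2) * ‖w‖ ^ 2) :=
    integrable_gauss_mom (by positivity)
  have iE : Integrable fun w : V => (1 + ‖w‖) * Real.exp ‖w‖ * Real.exp (-(b / 2) * ‖w‖ ^ 2) :=
    integrable_gauss_exp (by positivity)
  have hK0 : 0 ≤ K := by positivity
  set A₁ := K * ∫ w : V, (1 + ‖w‖) * Real.exp (-(b / 2) * ‖w‖ ^ 2) with hA₁
  set A₂ := K * ∫ z : X × V, (1 + ‖z.2‖) * Real.exp ‖z.2‖ * Real.exp (-(b / 2) * ‖z.2‖ ^ 2) with hA₂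
  have hmom : mom1 M ≤ ENNReal.ofReal A₁ := by
    refine le_trans (lintegral_mono fun w => ENNReal.ofReal_le_ofReal
      (?_ : _ ≤ K * ((1 + ‖w‖) * Real.exp (-(b / 2) * ‖w‖ ^ 2)))) ?_
    · calc M w * (1 + ‖w‖) ≤ K * Real.exp (-(b / 2) * ‖w‖ ^ 2) * (1 + ‖w‖) :=
            mul_le_mul_of_nonneg_right (hMle w) (by positivity)
        _ = _ := by ring
    · rw [← ofReal_integral_eq_lintegral_ofReal (iG.const_mul K)
        (Eventually.of_forall fun w => by positivity), integral_const_mul]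
  have hexp : ∫⁻ z : X × V, ENNReal.ofReal (Real.exp (1 * ‖z.2‖) * M z.2) ≤ ENNReal.ofReal A₂ := by
    have i2 : Integrable fun z : X × V =>
        (1 + ‖z.2‖) * Real.exp ‖z.2‖ * Real.exp (-(b / 2) * ‖z.2‖ ^ 2) := iE.comp_snd _
    refine le_trans (lintegral_mono fun z => ENNReal.ofReal_le_ofReal
      (?_ : _ ≤ K * ((1 + ‖z.2‖) * Real.exp ‖z.2‖ * Real.exp (-(b / 2) * ‖z.2‖ ^ 2)))) ?_
    · calc Real.exp (1 * ‖z.2‖) * M z.2 ≤ Real.exp ‖z.2‖ * (K * Real.exp (-(b / 2) * ‖z.2‖ ^ 2)) := by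
            rw [one_mul]; exact mul_le_mul_of_nonneg_left (hMle _) (Real.exp_pos _).le
        _ ≤ (1 + ‖z.2‖) * (Real.exp ‖z.2‖ * (K * Real.exp (-(b / 2) * ‖z.2‖ ^ 2))) :=
            le_mul_of_one_le_left (by positivity) (le_add_of_nonneg_right (norm_nonneg _))
        _ = _ := by ring
    · rw [← ofReal_integral_eq_lintegral_ofReal (i2.const_mul K)
        (Eventually.of_forall fun z => by positivity), integral_const_mul]
  have hgl : ∀ z : X × V, gainAt m₀ z = lossAt m₀ z := fun z => gain_maxwellian ρ b u z.2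
  have hfin : ∀ z : X × V, lossAt m₀ z < ⊤ := fun z => by
    have h1 : loss2 M M z.2 ≤ ENNReal.ofReal (M z.2 * (1 + ‖z.2‖)) * mom1 M * sig univ :=
      loss2_le hM0 hMm hM0 z.2
    have h2 : lossAt m₀ z = loss2 M M z.2 := by simp only [lossAt, hm₀, loss_eq]
    rw [h2]
    exact lt_of_le_of_lt h1 (ENNReal.mul_lt_top (ENNReal.mul_lt_top ENNReal.ofReal_lt_top
      (hmom.trans_lt ENNReal.ofReal_lt_top)) (measure_lt_top _ _))
  have hcoll : ∀ z : X × V, collAt m₀ z = 0 := fun z => by rw [collAt, hgl, sub_self]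
  have hfin' : ∀ (T : ℝ) (z : X × V), ∫⁻ s in Ioc 0 T, lossAt m₀ (shift s z) < ⊤ := fun T z => by
    have h1 : ∀ s, lossAt m₀ (shift s z) = lossAt m₀ z := fun s => by
      simp only [lossAt, hm₀, shift_snd]
    simp only [h1]
    rw [setLIntegral_const]
    exact ENNReal.mul_lt_top (hfin z) measure_Ioc_lt_top
  have hmild : IsMild m₀ (fun _ => m₀) t :=
    ⟨(hMm.comp measurable_snd).comp measurable_snd, fun _ z => hM0 z.2,
      Eventually.of_forall fun z => by
        simp only [hgl]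
        exact hfin' t z,
      Eventually.of_forall fun z => hfin' t z,
      Eventually.of_forall fun z => Eventually.of_forall fun s => by
        simp only [hcoll, intervalIntegral.integral_zero, add_zero]
        rfl⟩
  have htame : IsTame (fun _ => m₀) t 1 (max A₁ A₂) :=
    ⟨Eventually.of_forall fun p => hmom.trans (ENNReal.ofReal_le_ofReal (le_max_left _ _)),
      Eventually.of_forall fun s => hexp.trans (ENNReal.ofReal_le_ofReal (le_max_right _ _))⟩
  have hi : Integrable m₀ := by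
    have i1 : Integrable fun z : X × V => K * ((1 + ‖z.2‖) * Real.exp (-(b / 2) * ‖z.2‖ ^ 2)) :=
      (iG.comp_snd _).const_mul K
    refine i1.mono' (hMm.comp measurable_snd).aestronglyMeasurable
      (Eventually.of_forall fun z => ?_)
    rw [Real.norm_eq_abs, abs_of_nonneg (hM0 z.2)]
    exact (hMle z.2).trans (mul_le_mul_of_nonneg_left
      (le_mul_of_one_le_left (Real.exp_pos _).le (le_add_of_nonneg_right (norm_nonneg _))) hK0)
  exact eq_all_times (G := fun _ => m₀) hF.integrable (fun _ _ => hi) hF.weak_continuous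
    (fun φ _ _ => continuousOn_const) hF.initial
    (hF.eq_tame one_pos (ae_eq_refl m₀) (hMm.comp measurable_snd) (fun z => hM0 z.2) hmild htame)
    t ⟨ht, le_rfl⟩

/-- Weak-strong uniqueness in the renormalized class. -/
theorem weak_strong (F₀ : X × V → ℝ) (F G : ℝ → X × V → ℝ) (hF : IsSolution F₀ F)
    (hG : IsSolution F₀ G) (T a A : ℝ) (ha : 0 < a)
    (hmom : ∀ᵐ p : ℝ × X ∂((volume : Measure ℝ).restrict (Icc 0 T)).prod volume,
      ∫⁻ v : V, ENNReal.ofReal (F p.1 (p.2, v) * (1 + ‖v‖)) ≤ ENNReal.ofReal A)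
    (hexp : ∀ᵐ t ∂(volume : Measure ℝ).restrict (Icc 0 T),
      ∫⁻ z, ENNReal.ofReal (Real.exp (a * ‖z.2‖) * F t z) ≤ ENNReal.ofReal A) :
    ∀ t ∈ Icc 0 T, G t =ᵐ[volume] F t := by
  refine eq_all_times hG.integrable hF.integrable hG.weak_continuous hF.weak_continuous
    (hG.initial.trans hF.initial.symm) ?_
  have e : (volume : Measure ℝ).restrict (Icc 0 T) = μt T := (Measure.restrict_congr_set Ioc_ae_eq_Icc).symm
  rw [e] at hmom hexp
  exact hG.eq_tame ha hF.initial.symm (hF.measurable_slice 0) (hF.nonneg 0) (hF.isMild T) ⟨hmom, hexp⟩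

end Vale.Agent.P140
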